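import Vale.Agent.P313.F43.CanDef

/-! Random shifts of a rounding grid, and the pairwise independent family of seeds. -/

namespace Vale.Agent.P313.F43

open Finset

/-! ### Shifts -/

theorem exists_grid {s t E Δ : ℝ} (hΔ : 0 < Δ) (h : |s - t| ≤ E) (hne : ⌊s / Δ⌋₊ ≠ ⌊t / Δ⌋₊) :
    ∃ m : ℕ, |t - m * Δ| ≤ E := by
  rw [abs_le] at h
  rcases lt_or_gt_of_ne hne with hlt | hlt
  · have h0 : ⌊t / Δ⌋₊ ≠ 0 := by omega
    have h1 : s / Δ < (⌊t / Δ⌋₊ : ℝ) := (Nat.floor_lt' h0).1 hlt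
    have h2 : (⌊t / Δ⌋₊ : ℝ) ≤ t / Δ := (Nat.le_floor_iff' h0).1 le_rfl
    rw [div_lt_iff₀ hΔ] at h1
    rw [le_div_iff₀ hΔ] at h2
    exact ⟨⌊t / Δ⌋₊, abs_le.2 ⟨by linarith, by linarith⟩⟩
  · have h0 : ⌊s / Δ⌋₊ ≠ 0 := by omega
    have h1 : t / Δ < (⌊s / Δ⌋₊ : ℝ) := (Nat.floor_lt' h0).1 hlt
    have h2 : (⌊s / Δ⌋₊ : ℝ) ≤ s / Δ := (Nat.le_floor_iff' h0).1 le_rfl
    rw [div_lt_iff₀ hΔ] at h1
    rw [le_div_iff₀ hΔ] at h2
    exact ⟨⌊s / Δ⌋₊, abs_le.2 ⟨by linarith, by linarith⟩⟩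

theorem badSh_aux {y E Δ : ℝ} {S a b m n : ℕ} (hE : 0 < E) (h : 3 * E * S ≤ Δ) (ha : a < S)
    (h1 : |y - 3 * E * (a + 1) - m * Δ| ≤ E) (h2 : |y - 3 * E * (b + 1) - n * Δ| ≤ E)
    (hmn : m < n ∨ (m = n ∧ a < b)) : False := by
  rw [abs_le] at h1 h2
  have haS : (a : ℝ) + 1 ≤ S := by exact_mod_cast ha
  have hb : (0 : ℝ) ≤ b := Nat.cast_nonneg b
  have ha0 : (0 : ℝ) ≤ a := Nat.cast_nonneg a
  have h3 : 3 * E * (a + 1) ≤ Δ := le_trans (by gcongr) h
  have hΔ : 0 < Δ := lt_of_lt_of_le (by positivity) h3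
  rcases hmn with hmn | ⟨rfl, hab⟩
  · have h4 : (m : ℝ) + 1 ≤ n := by exact_mod_cast hmn
    have h5 : (m + 1) * Δ ≤ n * Δ := by gcongr
    have h6 : 0 ≤ E * b := by positivity
    nlinarith [h1.2, h2.1]
  · have h4 : (a : ℝ) + 1 ≤ b := by exact_mod_cast hab
    have h5 : E * (a + 1) ≤ E * b := by gcongr
    nlinarith [h1.2, h2.1]

open Classical in
theorem card_badSh {y E Δ : ℝ} {S : ℕ} (hE : 0 < E) (h : 3 * E * S ≤ Δ) :
    ((range S).filter fun δ => badSh y E Δ δ).card ≤ 2 := by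
  refine le_trans (card_le_one.2 ?_) one_le_two
  intro a ha b hb
  simp only [mem_filter, mem_range] at ha hb
  obtain ⟨ha, y1, hy1, hn1⟩ := ha
  obtain ⟨hb, y2, hy2, hn2⟩ := hb
  have hS : (1 : ℝ) ≤ S := by exact_mod_cast (by omega : 1 ≤ S)
  have hΔ : 0 < Δ := lt_of_lt_of_le (by positivity) h
  obtain ⟨m, hm⟩ := exists_grid (E := E) hΔ (by simpa using hy1) hn1
  obtain ⟨n, hn⟩ := exists_grid (E := E) hΔ (by simpa using hy2) hn2
  by_contra hab
  rcases lt_trichotomy m n with hmn | hmn | hmn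
  · exact badSh_aux hE h ha hm hn (Or.inl hmn)
  · rcases lt_or_gt_of_ne hab with hlt | hlt
    · exact badSh_aux hE h ha hm hn (Or.inr ⟨hmn, hlt⟩)
    · exact badSh_aux hE h hb hn hm (Or.inr ⟨hmn.symm, hlt⟩)
  · exact badSh_aux hE h hb hn hm (Or.inl hmn)

open Classical in
theorem card_bad_coord {J S m : ℕ} (F : (Fin J → Fin S) → Fin J → ℕ → Prop)
    (hdep : ∀ w i x, F (Function.update w i x) i = F w i)
    (hcard : ∀ w i, ((range S).filter (F w i)).card ≤ m) (i : Fin J) :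
    (univ.filter fun w : Fin J → Fin S => F w i (w i)).card * S ≤ m * S ^ J := by
  have h1 : (univ.filter fun w : Fin J → Fin S => F w i (w i)).card * S =
      (univ.filter fun z : (Fin J → Fin S) × Fin S => F z.1 i (z.1 i)).card := by
    rw [show (univ.filter fun z : (Fin J → Fin S) × Fin S => F z.1 i (z.1 i)) =
      (univ.filter fun w : Fin J → Fin S => F w i (w i)) ×ˢ univ by ext; simp, card_product]
    simp
  have h2 : (univ.filter fun z : (Fin J → Fin S) × Fin S => F z.1 i (z.1 i)).card =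
      (univ.filter fun z : (Fin J → Fin S) × Fin S => F z.1 i z.2).card := by
    refine card_bij' (fun z _ => (Function.update z.1 i z.2, z.1 i))
      (fun z _ => (Function.update z.1 i z.2, z.1 i)) ?_ ?_ ?_ ?_
    · intro z hz
      simp only [mem_filter, mem_univ, true_and] at hz ⊢
      rw [hdep]
      exact hz
    · intro z hz
      simp only [mem_filter, mem_univ, true_and] at hz ⊢
      rw [hdep, Function.update_self]
      exact hz
    · intro z _
      simp
    · intro z _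
      simp
  have h3 : (univ.filter fun z : (Fin J → Fin S) × Fin S => F z.1 i z.2).card =
      ∑ w : Fin J → Fin S, (univ.filter fun x : Fin S => F w i x).card := by
    rw [card_filter, Fintype.sum_prod_type]
    simp only [card_filter]
  have h4 : ∀ w : Fin J → Fin S, (univ.filter fun x : Fin S => F w i x).card ≤ m := by
    intro w
    refine le_trans (card_le_card_of_injOn (fun x : Fin S => x.val) ?_ ?_) (hcard w i)
    · intro x hx
      simp only [coe_filter, mem_univ, true_and, Set.mem_ofPred_eq, mem_range] at hx ⊢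
      exact ⟨x.2, hx⟩
    · intro x _ y _ hxy
      exact Fin.ext hxy
  rw [h1, h2, h3]
  refine le_trans (sum_le_card_nsmul _ _ m fun w _ => h4 w) ?_
  simp [mul_comm]

open Classical in
theorem card_bad_shift {J S m : ℕ} (F : (Fin J → Fin S) → Fin J → ℕ → Prop)
    (hdep : ∀ w i x, F (Function.update w i x) i = F w i)
    (hcard : ∀ w i, ((range S).filter (F w i)).card ≤ m) :
    (univ.filter fun w : Fin J → Fin S => ∃ i, F w i (w i)).card * S ≤ J * m * S ^ J := by
  have h1 : (univ.filter fun w : Fin J → Fin S => ∃ i, F w i (w i)) =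
      univ.biUnion fun i : Fin J => univ.filter fun w : Fin J → Fin S => F w i (w i) := by
    ext w
    simp
  rw [h1]
  refine le_trans (Nat.mul_le_mul_right S card_biUnion_le) ?_
  rw [sum_mul]
  refine le_trans (sum_le_card_nsmul _ _ (m * S ^ J) fun i _ => card_bad_coord F hdep hcard i) ?_
  simp [mul_assoc]

/-! ### Pairwise independent samples -/

namespace Smp

/-- The cross terms vanish if the first sample can be moved while the second one is fixed. -/
theorem cross_zero {Ω B : Type} [AddCommGroup Ω] [AddCommGroup B] [Fintype Ω] [Fintype B]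
    (s s' : Ω → B) (hs : ∀ a b, s (a + b) = s a + s b) (hs' : ∀ a b, s' (a + b) = s' a + s' b)
    (ht : ∀ r, ∃ t, s t = r ∧ s' t = 0) (g : B → ℝ) (hg : ∑ b, g b = 0) :
    ∑ w, g (s w) * g (s' w) = 0 := by
  have h1 : ∀ r : B, ∑ w, g (s w) * g (s' w) = ∑ w, g (s w + r) * g (s' w) := by
    intro r
    obtain ⟨t, h1, h2⟩ := ht r
    rw [← Equiv.sum_comp (Equiv.addRight t)]
    refine sum_congr rfl fun w _ => ?_
    simp only [Equiv.coe_addRight, hs, hs', h1, h2, add_zero]
  have h2 : (Fintype.card B : ℝ) * ∑ w, g (s w) * g (s' w) = 0 := by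
    have : ∑ r : B, ∑ w, g (s w) * g (s' w) = ∑ r : B, ∑ w, g (s w + r) * g (s' w) :=
      sum_congr rfl fun r _ => h1 r
    rw [sum_const, card_univ, nsmul_eq_mul, sum_comm] at this
    rw [this]
    refine sum_eq_zero fun w _ => ?_
    rw [← sum_mul]
    have h3 : ∑ r, g (s w + r) = ∑ b, g b := Equiv.sum_comp (Equiv.addLeft (s w)) g
    rw [h3, hg, zero_mul]
  have h3 : (Fintype.card B : ℝ) ≠ 0 := by
    exact_mod_cast (Fintype.card_pos_iff.2 ⟨0⟩).ne'
  exact (mul_eq_zero.1 h2).resolve_left h3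

open Classical in
/-- The inequality of Chebyshev for uncorrelated samples. -/
theorem cheb {Ω : Type} [Fintype Ω] {n : ℕ} (hn : 0 < n) (X : ℕ → Ω → ℝ) {G ε : ℝ}
    (hX : ∀ i w, |X i w| ≤ G) (hε : 0 < ε)
    (hc : ∀ i < n, ∀ j < n, i ≠ j → ∑ w, X i w * X j w = 0) :
    ((univ.filter fun w => ε < |(∑ i ∈ range n, X i w) / n|).card : ℝ) ≤
      G ^ 2 / (n * ε ^ 2) * Fintype.card Ω := by
  have hn' : (0 : ℝ) < n := by exact_mod_cast hn
  have h1 : ∑ w, (∑ i ∈ range n, X i w) ^ 2 ≤ n * (G ^ 2 * Fintype.card Ω) := by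
    have h2 : ∑ w, (∑ i ∈ range n, X i w) ^ 2 =
        ∑ i ∈ range n, ∑ j ∈ range n, ∑ w, X i w * X j w := by
      simp only [sq, sum_mul_sum]
      rw [sum_comm]
      exact sum_congr rfl fun i _ => sum_comm
    rw [h2]
    refine le_trans (sum_le_card_nsmul _ _ (G ^ 2 * Fintype.card Ω) fun i hi => ?_) (by simp)
    rw [sum_eq_single i (fun j hj hji => hc i (mem_range.1 hi) j (mem_range.1 hj) hji.symm)
      (fun h => absurd hi h)]
    refine le_trans (sum_le_card_nsmul _ _ (G ^ 2) fun w _ => ?_) (by simp [mul_comm])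
    rw [← sq, ← sq_abs]
    exact pow_le_pow_left₀ (abs_nonneg _) (hX i w) 2
  have h2 : ((univ.filter fun w => ε < |(∑ i ∈ range n, X i w) / n|).card : ℝ) * (n * ε) ^ 2 ≤
      ∑ w, (∑ i ∈ range n, X i w) ^ 2 := by
    rw [← nsmul_eq_mul]
    refine le_trans (card_nsmul_le_sum _ (fun w => (∑ i ∈ range n, X i w) ^ 2) _ fun w hw => ?_)
      (sum_le_sum_of_subset_of_nonneg (subset_univ _) fun w _ _ => sq_nonneg _)
    have h3 := (mem_filter.1 hw).2
    rw [abs_div, abs_of_pos hn', lt_div_iff₀ hn'] at h3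
    rw [← sq_abs (∑ i ∈ range n, X i w)]
    exact pow_le_pow_left₀ (by positivity) (by linarith) 2
  rw [div_mul_eq_mul_div, le_div_iff₀ (by positivity)]
  refine le_of_mul_le_mul_left ?_ hn'
  nlinarith [h1, h2]

/-- A Toeplitz system with a nonzero vector can be solved. -/
theorem toeplitz {F : Type} [Field F] {e j0 : ℕ} (b : ℕ → F) (hj : j0 < e) (h0 : b j0 ≠ 0)
    (hb : ∀ j < e, j0 < j → b j = 0) (r : ℕ → F) (n : ℕ) :
    ∃ u : ℕ → F, ∀ i < n, ∑ j ∈ range e, u (i + j) * b j = r i := by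
  classical
  induction n with
  | zero => exact ⟨0, fun i hi => absurd hi (Nat.not_lt_zero i)⟩
  | succ n ih =>
    obtain ⟨u, hu⟩ := ih
    refine ⟨fun m => u m + if m = n + j0 then
      (r n - ∑ j ∈ range e, u (n + j) * b j) / b j0 else 0, fun i hi => ?_⟩
    simp only [add_mul, sum_add_distrib]
    rcases Nat.lt_succ_iff_lt_or_eq.1 hi with hlt | rfl
    · rw [hu i hlt, sum_eq_zero, add_zero]
      intro j hj'
      split_ifs with hc
      · rw [hb j (mem_range.1 hj') (by omega), mul_zero]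
      · exact zero_mul _
    · rw [sum_eq_single j0 (s := range e) (f := fun j => (if i + j = i + j0 then
        (r i - ∑ j ∈ range e, u (i + j) * b j) / b j0 else 0) * b j)]
      · rw [if_pos rfl, div_mul_cancel₀ _ h0]
        ring
      · intro j _ hne
        rw [if_neg (by omega), zero_mul]
      · intro h
        exact absurd (mem_range.2 hj) h

theorem digits_eq {p e a b : ℕ} (h : ∀ j < e, a / p ^ j % p = b / p ^ j % p) :
    a % p ^ e = b % p ^ e := by
  induction e with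
  | zero => simp [Nat.mod_one]
  | succ e ih =>
    rw [Nat.mod_pow_succ, Nat.mod_pow_succ, ih fun j hj => h j (by omega), h e (by omega)]

/-- A finite string over `ZMod p` as a function on natural numbers. -/
def wN {T p : ℕ} (w : Fin T → ZMod p) (i : ℕ) : ZMod p := if h : i < T then w ⟨i, h⟩ else 0

theorem wN_add {T p : ℕ} (w w' : Fin T → ZMod p) (i : ℕ) : wN (w + w') i = wN w i + wN w' i := by
  unfold wN
  split_ifs <;> simp

/-- The seeds number `idx`, over `ZMod p`. -/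
def sd (K e : ℕ) {T p : ℕ} (idx : ℕ) (w : Fin T → ZMod p) : Fin K → Sd p := fun k c =>
  wN w (6 * k + c) +
    ∑ j ∈ range e, wN w (6 * K + (6 * k + c) + j) * ((idx / p ^ j % p : ℕ) : ZMod p)

theorem sd_add (K e : ℕ) {T p : ℕ} (idx : ℕ) (w w' : Fin T → ZMod p) :
    sd K e idx (w + w') = sd K e idx w + sd K e idx w' := by
  funext k c
  simp only [sd, wN_add, Pi.add_apply, add_mul, sum_add_distrib]
  ring

theorem sd_move {K e p : ℕ} (hp : p.Prime) {a b : ℕ} (ha : a < p ^ e) (hb : b < p ^ e)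
    (hab : a ≠ b) (r : Fin K → Sd p) :
    ∃ t : Fin (12 * K + e) → ZMod p, sd K e a t = r ∧ sd K e b t = 0 := by
  classical
  have : Fact p.Prime := ⟨hp⟩
  set β : ℕ → ZMod p := fun j => ((a / p ^ j % p : ℕ) : ZMod p) - ((b / p ^ j % p : ℕ) : ZMod p)
    with hβ
  have hne : ((range e).filter fun j => β j ≠ 0).Nonempty := by
    by_contra hc
    rw [not_nonempty_iff_eq_empty, filter_eq_empty_iff] at hc
    have h1 : ∀ j < e, a / p ^ j % p = b / p ^ j % p := by
      intro j hj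
      have h2 := sub_eq_zero.1 (not_not.1 (hc (mem_range.2 hj)))
      rw [ZMod.natCast_eq_natCast_iff'] at h2
      simpa using h2
    have h2 := digits_eq h1
    rw [Nat.mod_eq_of_lt ha, Nat.mod_eq_of_lt hb] at h2
    exact hab h2
  obtain ⟨j0, hj0, hmax⟩ := exists_max_image _ (fun j => j) hne
  rw [mem_filter, mem_range] at hj0
  have hz : ∀ j < e, j0 < j → β j = 0 := by
    intro j hj hlt
    by_contra hc
    exact absurd (hmax j (mem_filter.2 ⟨mem_range.2 hj, hc⟩)) (by omega)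
  obtain ⟨u, hu⟩ := toeplitz β hj0.1 hj0.2 hz
    (fun i => if h : i / 6 < K then r ⟨i / 6, h⟩ ⟨i % 6, Nat.mod_lt _ (by norm_num)⟩ else 0) (6 * K)
  set t : Fin (12 * K + e) → ZMod p := fun m => if m.val < 6 * K then
    -∑ j ∈ range e, u (m + j) * ((b / p ^ j % p : ℕ) : ZMod p) else u (m - 6 * K) with ht
  have h1 : ∀ i < 6 * K, wN t i = -∑ j ∈ range e, u (i + j) * ((b / p ^ j % p : ℕ) : ZMod p) := by
    intro i hi
    rw [wN, dif_pos (by omega), ht]
    simp only [hi, if_true]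
  have h2 : ∀ i < 6 * K, ∀ j < e, wN t (6 * K + i + j) = u (i + j) := by
    intro i hi j hj
    rw [wN, dif_pos (by omega), ht]
    simp only [show ¬6 * K + i + j < 6 * K by omega, if_false]
    congr 1
    omega
  have h5 : ∀ i < 6 * K, ∀ x : ℕ → ZMod p, ∑ j ∈ range e, wN t (6 * K + i + j) * x j =
      ∑ j ∈ range e, u (i + j) * x j := fun i hi x =>
    sum_congr rfl fun j hj => by rw [h2 _ hi j (mem_range.1 hj)]
  refine ⟨t, ?_, ?_⟩
  · funext k c
    have hi : 6 * k.val + c.val < 6 * K := by have := k.2; have := c.2; omega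
    have h3 := hu _ hi
    rw [dif_pos (by omega)] at h3
    have h4 : r ⟨(6 * k.val + c.val) / 6, by omega⟩
        ⟨(6 * k.val + c.val) % 6, Nat.mod_lt _ (by norm_num)⟩ = r k c := by
      have e1 : (6 * k.val + c.val) / 6 = k.val := by have := c.2; omega
      have e2 : (6 * k.val + c.val) % 6 = c.val := by have := c.2; omega
      simp only [e1, e2]
    rw [sd, h1 _ hi, h5 _ hi, ← h4, ← h3]
    simp only [hβ, mul_sub, sum_sub_distrib]
    ring
  · funext k c
    have hi : 6 * k.val + c.val < 6 * K := by have := k.2; have := c.2; omega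
    rw [sd, h1 _ hi, h5 _ hi]
    simp

/-- Digits as residues. -/
def fz (p : ℕ) [NeZero p] : Fin p ≃ ZMod p where
  toFun x := (x.val : ZMod p)
  invFun z := ⟨z.val, ZMod.val_lt z⟩
  left_inv x := Fin.ext (by simp [ZMod.val_natCast, Nat.mod_eq_of_lt x.2])
  right_inv z := by simp

theorem fz_val {p : ℕ} [NeZero p] (x : Fin p) : (fz p x).val = x.val := by
  simp [fz, ZMod.val_natCast, Nat.mod_eq_of_lt x.2]

theorem sum_hN {K p : ℕ} [NeZero p] (f : (ℕ → ℕ → ℕ) → ℝ) :
    ∑ h : Fin K → Fin 6 → Fin p, f (hN h) = ∑ h : Fin K → Sd p, f (hZ h) := by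
  refine Fintype.sum_equiv
    (Equiv.piCongrRight fun _ => Equiv.piCongrRight fun _ => fz p) _ _ fun h => ?_
  congr 1
  funext k c
  unfold hN hZ
  split_ifs
  · exact (fz_val _).symm
  · rfl

theorem wN_fz {T p : ℕ} [NeZero p] (w : Fin T → Fin p) (i : ℕ) :
    wN (fun m => fz p (w m)) i = (dgN w i : ZMod p) := by
  unfold wN dgN
  split_ifs
  · rfl
  · simp

theorem seedN_eq (P : Par) [NeZero P.p] (w : Fin P.T0 → Fin P.p) (idx : ℕ) :
    P.seedN (dgN w) idx = hZ (sd P.K P.e idx fun m => fz P.p (w m)) := by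
  funext k c
  unfold Par.seedN hZ
  by_cases h : k < P.K ∧ c < 6
  · rw [if_pos h, dif_pos h, ← ZMod.val_natCast]
    congr 1
    simp only [sd, wN_fz]
    push_cast
    rfl
  · rw [if_neg h, dif_neg h]

end Smp

open Classical in
theorem Par.card_badDg (P : Par) (hp : P.p.Prime) (hPe : P.Pe = P.p ^ P.e)
    (f : (ℕ → ℕ → ℕ) → ℝ) {G ε : ℝ} (hf : ∀ h, 0 ≤ f h ∧ f h ≤ G) (hε : 0 < ε) :
    ((univ.filter fun w : Fin P.T0 → Fin P.p => ε < |P.smp (dgN w) f - P.avg f|).card : ℝ) ≤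
      G ^ 2 / (P.Pe * ε ^ 2) * (P.p : ℝ) ^ P.T0 := by
  have : NeZero P.p := ⟨hp.ne_zero⟩
  have hn : 0 < P.Pe := hPe ▸ pow_pos hp.pos _
  have hn' : (P.Pe : ℝ) ≠ 0 := by exact_mod_cast hn.ne'
  have hne : (univ : Finset (Fin P.K → Fin 6 → Fin P.p)).Nonempty := univ_nonempty
  have h0 : 0 ≤ P.avg f := expect_nonneg fun h _ => (hf _).1
  have h1 : P.avg f ≤ G := expect_le hne fun h _ => (hf _).2
  have hg : ∑ h : Fin P.K → Sd P.p, (f (hZ h) - P.avg f) = 0 := by
    have h2 := Smp.sum_hN (K := P.K) (p := P.p) fun h => f h - P.avg f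
    rw [← h2, sum_sub_distrib, sum_const, Par.avg, ← card_smul_expect, sub_self]
  have h2 := Smp.cheb (Ω := Fin P.T0 → Fin P.p) hn
    (fun i w => f (P.seedN (dgN w) i) - P.avg f) (G := G)
    (fun i w => abs_le.2 ⟨by linarith [(hf (P.seedN (dgN w) i)).1],
      by linarith [(hf (P.seedN (dgN w) i)).2]⟩) hε (by
      intro i hi j hj hij
      have h3 := Smp.cross_zero (Ω := Fin (12 * P.K + P.e) → ZMod P.p) (Smp.sd P.K P.e i)
        (Smp.sd P.K P.e j) (Smp.sd_add _ _ _) (Smp.sd_add _ _ _)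
        (Smp.sd_move hp (hPe ▸ hi) (hPe ▸ hj) hij) (fun h => f (hZ h) - P.avg f) hg
      rw [← h3]
      refine Fintype.sum_equiv (Equiv.piCongrRight fun _ => Smp.fz P.p) _ _ fun w => ?_
      rw [Smp.seedN_eq, Smp.seedN_eq]
      rfl)
  have h3 : ∀ w : Fin P.T0 → Fin P.p, P.smp (dgN w) f - P.avg f =
      (∑ i ∈ range P.Pe, (f (P.seedN (dgN w) i) - P.avg f)) / P.Pe := by
    intro w
    rw [sum_sub_distrib, sum_const, card_range, nsmul_eq_mul, Par.smp]
    field_simp
  simp only [h3]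
  simpa using h2

end Vale.Agent.P313.F43
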