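import Vale.Agent.P313.F43.WalkWF

/-! Pathwise properties of the walk. -/

namespace Vale.Agent.P313.F43

open Finset

namespace Wk

variable {W : Wk}

theorem run_succ (h : ℕ → ℕ → ℕ) (s : WS) (i τ : ℕ) : W.run h s i (τ + 1) =
    ((W.step τ (W.run h s i τ).1 (W.run h s i τ).2).1.1,
      hashN W.p W.D (h (lev (τ + 1))) (W.code (W.step τ (W.run h s i τ).1 (W.run h s i τ).2).1)
        (W.step τ (W.run h s i τ).1 (W.run h s i τ).2).2) := rfl

theorem run_idle (h : ℕ → ℕ → ℕ) (s : WS) (i : ℕ) {τ : ℕ} (hT : W.T ≤ τ) :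
    (W.run h s i τ).1 = (W.run h s i W.T).1 := by
  induction τ, hT using Nat.le_induction with
  | base => rfl
  | succ τ hτ ih => rw [run_succ, step_idle _ (Or.inl hτ), ih]

theorem alive_of_succ {h : ℕ → ℕ → ℕ} {s : WS} {i τ : ℕ} (h0 : (W.run h s i (τ + 1)).1.1 = 0) :
    (W.run h s i τ).1.1 = 0 := by
  by_contra h1
  rw [run_succ, step_idle _ (Or.inr h1)] at h0
  exact h1 h0

theorem tgt_le (u z : ℕ) : W.tgt u z ≤ W.N := by
  refine (sum_le_card_nsmul _ _ 1 fun y _ => ?_).trans (by simp)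
  split_ifs <;> simp

theorem step_congr {T' : ℕ} {k' : ℕ → ℕ → Bool} {τ : ℕ} (h1 : T' ≤ τ ↔ W.T ≤ τ) (s : WS)
    (hk : k' (τ / (W.om + 1) + 1) (W.tgt s.2.1 (s.2.2 % W.PQ)) =
      W.kill (τ / (W.om + 1) + 1) (W.tgt s.2.1 (s.2.2 % W.PQ))) (i : ℕ) :
    ({ W with T := T', kill := k' } : Wk).step τ s i = W.step τ s i := by
  have e1 : ∀ u z, ({ W with T := T', kill := k' } : Wk).tgt u z = W.tgt u z := fun _ _ => rfl
  have e2 : ∀ u x, ({ W with T := T', kill := k' } : Wk).slot u x = W.slot u x := fun _ _ => rfl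
  simp only [step, e1, e2, h1, hk]

theorem run_congr {T' : ℕ} {k' : ℕ → ℕ → Bool} {t : ℕ} (h1 : t * (W.om + 1) ≤ W.T)
    (h2 : t * (W.om + 1) ≤ T') (hk : ∀ t' ≤ t, ∀ v, k' t' v = W.kill t' v) (h : ℕ → ℕ → ℕ)
    (s : WS) (i : ℕ) {τ : ℕ} (hτ : τ ≤ t * (W.om + 1)) :
    ({ W with T := T', kill := k' } : Wk).run h s i τ = W.run h s i τ := by
  induction τ with
  | zero => rfl
  | succ τ ih =>
    rw [run_succ, run_succ, ih (by omega), step_congr (iff_of_false (by omega) (by omega)) _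
      (hk _ ((Nat.div_lt_iff_lt_mul (Nat.succ_pos _)).2 hτ) _)]
    rfl

theorem cnt_congr {T' : ℕ} {k' : ℕ → ℕ → Bool} {t : ℕ} (h1 : t * (W.om + 1) ≤ W.T)
    (h2 : t * (W.om + 1) ≤ T') (hk : ∀ t' ≤ t, ∀ v, k' t' v = W.kill t' v) (h : ℕ → ℕ → ℕ)
    (u v : ℕ) : ({ W with T := T', kill := k' } : Wk).cnt h t u v = W.cnt h t u v := by
  refine sum_congr rfl fun x _ => sum_congr rfl fun i _ => ?_
  rw [← run_congr h1 h2 hk h (0, u, x) i le_rfl]

/-- A step which is survived is not affected by the forbidden moves, or it is a move which only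
the second walk forbids. -/
theorem step_kill (k' : ℕ → ℕ → Bool) {τ : ℕ} {s : WS} {i : ℕ} (h0 : (W.step τ s i).1.1.1 = 0) :
    ({ W with kill := k' } : Wk).step τ s i = W.step τ s i ∨
      (τ + 1 = (τ / (W.om + 1) + 1) * (W.om + 1) ∧ (W.step τ s i).1.1.2.1 < W.N ∧
        k' (τ / (W.om + 1) + 1) (W.step τ s i).1.1.2.1 = true ∧
        W.kill (τ / (W.om + 1) + 1) (W.step τ s i).1.1.2.1 = false) := by
  by_cases hk : k' (τ / (W.om + 1) + 1) (W.tgt s.2.1 (s.2.2 % W.PQ)) =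
      W.kill (τ / (W.om + 1) + 1) (W.tgt s.2.1 (s.2.2 % W.PQ))
  · exact Or.inl (step_congr Iff.rfl s hk i)
  by_cases h1 : W.T ≤ τ ∨ s.1 ≠ 0
  · exact Or.inl ((step_idle (W := { W with kill := k' }) i h1).trans (step_idle i h1).symm)
  by_cases h2 : τ % (W.om + 1) < W.om
  · left
    simp only [step, if_neg h1, if_pos h2]
  right
  by_cases h3 : W.tgt s.2.1 (s.2.2 % W.PQ) = W.N ∨ W.n (W.tgt s.2.1 (s.2.2 % W.PQ)) = 0 ∨
      W.kill (τ / (W.om + 1) + 1) (W.tgt s.2.1 (s.2.2 % W.PQ)) = true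
  · rw [step, if_neg h1, if_neg h2, if_pos h3] at h0
    exact absurd h0 (Nat.succ_ne_zero _)
  · rw [step, if_neg h1, if_neg h2, if_neg h3]
    rw [not_or, not_or, Bool.not_eq_true] at h3
    have h4 := Nat.div_add_mod τ (W.om + 1)
    have h5 : τ % (W.om + 1) < W.om + 1 := Nat.mod_lt τ (Nat.succ_pos W.om)
    refine ⟨?_, lt_of_le_of_ne (tgt_le _ _) h3.1, ?_, h3.2.2⟩
    · rw [add_mul, mul_comm]
      omega
    · rw [h3.2.2] at hk
      exact Bool.not_eq_false _ ▸ hk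

theorem run_mono {k' : ℕ → ℕ → Bool} (hk : ∀ t v, W.kill t v = true → k' t v = true)
    (h : ℕ → ℕ → ℕ) (s : WS) (i τ : ℕ)
    (h0 : (({ W with kill := k' } : Wk).run h s i τ).1.1 = 0) :
    ({ W with kill := k' } : Wk).run h s i τ = W.run h s i τ := by
  induction τ with
  | zero => rfl
  | succ τ ih =>
    have h1 := ih (alive_of_succ h0)
    rw [run_succ] at h0
    rcases step_kill (W := { W with kill := k' }) W.kill h0 with h2 | ⟨-, -, h2, h3⟩
    · rw [run_succ, run_succ, ← h1, ← h2]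
      rfl
    · exact absurd ((hk _ _ h2).symm.trans h3) (by simp)

theorem cnt_mono {k' : ℕ → ℕ → Bool} (hk : ∀ t v, W.kill t v = true → k' t v = true)
    (h : ℕ → ℕ → ℕ) (t u v : ℕ) : ({ W with kill := k' } : Wk).cnt h t u v ≤ W.cnt h t u v := by
  refine sum_le_sum fun x _ => sum_le_sum fun i _ => ?_
  split_ifs with h1 h2
  · exact le_rfl
  · exact absurd (run_mono hk h _ i _ h1.1 ▸ h1) h2
  · exact Nat.zero_le _
  · exact le_rfl

theorem sum_ite_cnt (c : ℕ → Prop) [DecidablePred c] (h : ℕ → ℕ → ℕ) (t u : ℕ) :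
    (∑ v ∈ range W.N, if c v then W.cnt h t u v else 0) =
      ∑ x ∈ range (W.n u), ∑ i ∈ range W.p,
        if (W.run h (0, u, x) i (t * (W.om + 1))).1.1 = 0 ∧
          (W.run h (0, u, x) i (t * (W.om + 1))).1.2.1 < W.N ∧
          c (W.run h (0, u, x) i (t * (W.om + 1))).1.2.1 then 1 else 0 := by
  have h1 : ∀ v, (if c v then W.cnt h t u v else 0) = ∑ x ∈ range (W.n u), ∑ i ∈ range W.p,
      if (W.run h (0, u, x) i (t * (W.om + 1))).1.2.1 = v then
        (if (W.run h (0, u, x) i (t * (W.om + 1))).1.1 = 0 ∧ c v then 1 else 0) else 0 := by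
    intro v
    by_cases hc : c v
    · simp only [hc, if_true, true_and, cnt, ← ite_and, and_comm]
    · simp [hc]
  simp only [h1]
  rw [sum_comm]
  refine sum_congr rfl fun x _ => ?_
  rw [sum_comm]
  refine sum_congr rfl fun i _ => ?_
  rw [sum_ite_eq, ← ite_and]
  simp only [mem_range, and_left_comm]

theorem sum_cnt (h : ℕ → ℕ → ℕ) (t u : ℕ) : ∑ v ∈ range W.N, W.cnt h t u v =
    ∑ x ∈ range (W.n u), ∑ i ∈ range W.p,
      if (W.run h (0, u, x) i (t * (W.om + 1))).1.1 = 0 ∧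
        (W.run h (0, u, x) i (t * (W.om + 1))).1.2.1 < W.N then 1 else 0 := by
  simpa using sum_ite_cnt (W := W) (fun _ => True) h t u

theorem sum_cnt_le (h : ℕ → ℕ → ℕ) (t u : ℕ) :
    ∑ v ∈ range W.N, W.cnt h t u v ≤ W.n u * W.p := by
  rw [sum_cnt]
  refine (sum_le_card_nsmul _ _ W.p fun x _ => ?_).trans (by simp)
  refine (sum_le_card_nsmul _ _ 1 fun y _ => ?_).trans (by simp)
  split_ifs <;> simp

theorem run_kill {k' : ℕ → ℕ → Bool} {t' : ℕ}
    (hk : ∀ t'' v, t'' ≠ t' → k' t'' v = W.kill t'' v) (h : ℕ → ℕ → ℕ) (s : WS) (i τ : ℕ)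
    (h0 : (W.run h s i τ).1.1 = 0) :
    ({ W with kill := k' } : Wk).run h s i τ = W.run h s i τ ∨
      ((W.run h s i (t' * (W.om + 1))).1.1 = 0 ∧ (W.run h s i (t' * (W.om + 1))).1.2.1 < W.N ∧
        k' t' (W.run h s i (t' * (W.om + 1))).1.2.1 = true ∧
        W.kill t' (W.run h s i (t' * (W.om + 1))).1.2.1 = false) := by
  induction τ with
  | zero => exact Or.inl rfl
  | succ τ ih =>
    refine (ih (alive_of_succ h0)).elim (fun h1 => ?_) Or.inr
    rcases step_kill k' (τ := τ) (s := (W.run h s i τ).1) (i := (W.run h s i τ).2) h0 with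
      h2 | ⟨h2, h3, h4, h5⟩
    · left
      rw [run_succ, run_succ, h1, h2]
      rfl
    · right
      have h6 : τ / (W.om + 1) + 1 = t' := by
        by_contra h6
        rw [hk _ _ h6, h5] at h4
        exact absurd h4 (by simp)
      rw [h6] at h2 h4 h5
      rw [← h2]
      exact ⟨h0, h3, h4, h5⟩

theorem sum_cnt_kill {k' : ℕ → ℕ → Bool} {t' t : ℕ} (_ : t' ≤ t) (_ : t * (W.om + 1) ≤ W.T)
    (hk : ∀ t'' v, t'' ≠ t' → k' t'' v = W.kill t'' v) (h : ℕ → ℕ → ℕ) (u : ℕ) :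
    ∑ v ∈ range W.N, W.cnt h t u v ≤
      ∑ v ∈ range W.N, ({ W with kill := k' } : Wk).cnt h t u v +
      ∑ v ∈ range W.N, if k' t' v = true ∧ W.kill t' v = false then W.cnt h t' u v else 0 := by
  rw [sum_ite_cnt, sum_cnt, sum_cnt (W := { W with kill := k' }), ← sum_add_distrib]
  refine sum_le_sum fun x _ => ?_
  rw [← sum_add_distrib]
  refine sum_le_sum fun i _ => ?_
  by_cases h1 : (W.run h (0, u, x) i (t * (W.om + 1))).1.1 = 0 ∧
      (W.run h (0, u, x) i (t * (W.om + 1))).1.2.1 < W.N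
  · rw [if_pos h1]
    rcases run_kill hk h (0, u, x) i _ h1.1 with h2 | h2
    · rw [if_pos (h2 ▸ h1)]
      exact Nat.le_add_right _ _
    · rw [if_pos h2]
      exact Nat.le_add_left _ _
  · rw [if_neg h1]
    exact Nat.zero_le _

end Wk

end Vale.Agent.P313.F43
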