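import Vale.Agent.P313.F43.Green
import Vale.Agent.P313.F43.Samp
import Vale.Agent.P313.F43.WalkPath

/-! For good digits and good shifts the algorithm computes the canonical stage. -/

namespace Vale.Agent.P313.F43

open Finset Matrix

theorem floor_sub_div (a b c : ℕ) : ⌊((a : ℝ) - b) / c⌋₊ = (a - b) / c := by
  rcases le_total b a with h | h
  · rw [← Nat.cast_sub h, Nat.floor_div_eq_div]
  · rw [Nat.sub_eq_zero_of_le h, Nat.zero_div, Nat.floor_eq_zero]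
    exact lt_of_le_of_lt (div_nonpos_of_nonpos_of_nonneg (sub_nonpos.2 (Nat.cast_le.2 h))
      (Nat.cast_nonneg _)) one_pos

theorem abs_div_sub_le (a c : ℕ) : |((a / c : ℕ) : ℝ) - (a : ℝ) / c| ≤ 1 := by
  rw [← Nat.floor_div_eq_div (K := ℝ), abs_sub_comm, abs_of_nonneg
    (sub_nonneg.2 (Nat.floor_le (by positivity)))]
  linarith [Nat.lt_floor_add_one ((a : ℝ) / c)]

theorem abs_parts_sub_le (a b c : ℕ) :
    |(((a - b) / c : ℕ) : ℝ) - ((b - a) / c : ℕ) - ((a : ℝ) - b) / c| ≤ 1 := by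
  rcases le_total b a with h | h
  · rw [Nat.sub_eq_zero_of_le h, Nat.zero_div, Nat.cast_zero, sub_zero, ← Nat.cast_sub h]
    exact abs_div_sub_le _ _
  · have := abs_div_sub_le (b - a) c
    rw [Nat.cast_sub h, abs_sub_comm] at this
    rw [Nat.sub_eq_zero_of_le h, Nat.zero_div, Nat.cast_zero]
    refine le_trans (le_of_eq ?_) this
    congr 1
    ring

namespace Wk

variable {W : Wk}

theorem step_vertex_lt (τ : ℕ) {s : WS} (hs : s.2.1 < W.N) (i : ℕ) :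
    (W.step τ s i).1.1.2.1 < W.N := by
  have := tgt_le (W := W) s.2.1 (s.2.2 % W.PQ)
  unfold step
  split_ifs with h1 h2 h3 h4 h5
  · exact hs
  · exact hs
  · exact hs
  · exact hs
  · exact hs
  · exact lt_of_le_of_ne this fun e => h5 (Or.inl e)

theorem run_vertex_lt (h : ℕ → ℕ → ℕ) {s : WS} (hs : s.2.1 < W.N) (i : ℕ) :
    ∀ τ, (W.run h s i τ).1.2.1 < W.N
  | 0 => hs
  | τ + 1 => step_vertex_lt τ (run_vertex_lt h hs i τ) _

theorem cnt_eq_zero (h : ℕ → ℕ → ℕ) (t : ℕ) {u v : ℕ} (hu : u < W.N) (hv : W.N ≤ v) :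
    W.cnt h t u v = 0 :=
  sum_eq_zero fun x _ => sum_eq_zero fun i _ => if_neg fun e => by
    have := run_vertex_lt (W := W) h (s := (0, u, x)) hu i (t * (W.om + 1))
    omega

end Wk

namespace Par

variable {P : Par} {q g d : ℕ} {s : (ℕ → ℕ → ℕ) × (ℕ → ℕ)} {δ dg : ℕ → ℕ}

namespace AgP

theorem occ_eq_zero (A : ℕ → ℕ → ℕ) (n : ℕ → ℕ) (k : ℕ → Bool) (h : ℕ → ℕ → ℕ) {v : ℕ}
    (hv : P.N ≤ v) : P.occ A n k h v = 0 :=
  sum_eq_zero fun _ _ => sum_eq_zero fun _ hu => Wk.cnt_eq_zero h _ (mem_range.1 hu) hv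

theorem occ_le' (A : ℕ → ℕ → ℕ) (n : ℕ → ℕ) (k : ℕ → Bool) (h : ℕ → ℕ → ℕ) (v : ℕ) :
    P.occ A n k h v ≤ P.M * P.tot n * P.p := by
  rw [occ, mul_assoc]
  refine (sum_le_card_nsmul _ _ (P.tot n * P.p) fun t _ => ?_).trans (by simp)
  rw [tot, sum_mul]
  exact sum_le_sum fun u _ => (P.wk1 A n k).cnt_le h _ u v

theorem Pe_pos (hP : P.WF q g d) : 0 < P.Pe := lt_of_lt_of_le (by positivity) hP.Pe_ge

theorem occR_eq (hP : P.WF q g d) {e : ℕ} {A : ℕ → ℕ → ℕ} {n : ℕ → ℕ} {k : ℕ → Bool}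
    (h1 : ∀ v < P.N, ¬badSh (P.occV A n k v) 1 P.PQ e)
    (h2 : ∀ v < P.N, |P.smp dg (fun h => (P.occ A n k h v : ℝ) / P.p) - P.occV A n k v| ≤ 1) :
    P.occR dg e A n k = P.occC e A n k := by
  funext v
  have hp : (0 : ℝ) < P.p := by exact_mod_cast hP.prime.pos
  have he : (0 : ℝ) < P.Pe := by exact_mod_cast Pe_pos hP
  have hQ : (0 : ℝ) < P.PQ := by exact_mod_cast CanP.PQ_pos hP
  have e1 : ⌊(P.smp dg (fun h => (P.occ A n k h v : ℝ) / P.p) - 3 * 1 * (e + 1)) / P.PQ⌋₊ =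
      ⌊(P.occV A n k v - 3 * 1 * (e + 1)) / P.PQ⌋₊ := by
    rcases lt_or_ge v P.N with hv | hv
    · by_contra hne
      exact h1 v hv ⟨_, h2 v hv, hne⟩
    · simp [smp, occV, avg, occ_eq_zero A n k _ hv]
  rw [occR, occC, ← e1, ← floor_sub_div]
  congr 2
  rw [smp, ← sum_div]
  push_cast
  field_simp

/-- The real matrix with given positive and negative parts. -/
noncomputable def xm (P : Par) (X : (ℕ → ℕ → ℕ) × (ℕ → ℕ → ℕ)) : Matrix (Fin P.N) (Fin P.N) ℝ :=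
  fun u v => ((X.1 u v : ℝ) - X.2 u v) / P.Pf

theorem Pf_pos (hP : P.WF q g d) : 0 < P.Pf := by rw [hP.Pf_eq]; positivity

theorem nw_step (hP : P.WF q g d) (C : ℕ → ℕ → ℕ) (X : (ℕ → ℕ → ℕ) × (ℕ → ℕ → ℕ))
    (u v : Fin P.N) :
    |xm P (P.nw C X) u v -
      ((2 : ℝ) • xm P X - xm P X * (1 - mat P.N C P.PQ) * xm P X) u v| ≤ 1 / P.Pf := by
  have hf : (0 : ℝ) < P.Pf := by exact_mod_cast Pf_pos hP
  have hQ : (0 : ℝ) < P.PQ := by exact_mod_cast CanP.PQ_pos hP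
  have e1 : ((2 : ℝ) • xm P X - xm P X * (1 - mat P.N C P.PQ) * xm P X) u v =
      ((P.nwP C X.1 X.2 u v : ℝ) - P.nwM C X.1 X.2 u v) / (P.Pf * P.PQ : ℕ) / P.Pf := by
    have e2 : (xm P X * mat P.N C P.PQ * xm P X) u v =
        (∑ a ∈ range P.N, ∑ b ∈ range P.N, (((X.1 u a : ℝ) * C a b * X.1 b v +
          X.2 u a * C a b * X.2 b v) - (X.1 u a * C a b * X.2 b v + X.2 u a * C a b * X.1 b v))) /
          (P.Pf * P.PQ * P.Pf) := by
      simp only [mul_apply, sum_mul, sum_range, sum_div]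
      rw [sum_comm]
      refine sum_congr rfl fun a _ => sum_congr rfl fun b _ => ?_
      simp only [xm, mat]
      field_simp
      ring
    have e3 : (xm P X * xm P X) u v =
        (∑ a ∈ range P.N, (((X.1 u a : ℝ) * X.1 a v + X.2 u a * X.2 a v) -
          (X.1 u a * X.2 a v + X.2 u a * X.1 a v))) / (P.Pf * P.Pf) := by
      simp only [mul_apply, sum_range, sum_div]
      refine sum_congr rfl fun a _ => ?_
      simp only [xm]
      field_simp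
      ring
    rw [mul_sub, mul_one, sub_mul, Matrix.sub_apply, Matrix.sub_apply, e2, e3, Matrix.smul_apply,
      xm]
    simp only [sum_sub_distrib, nwP, nwM, smul_eq_mul]
    push_cast
    field_simp
    ring
  rw [e1, xm, ← sub_div, abs_div, abs_of_pos hf]
  refine div_le_div_of_nonneg_right ?_ hf.le
  simp only [nw, u.2, v.2, and_self, if_true]
  exact abs_parts_sub_le _ _ _

theorem x0_close (hP : P.WF q g d) (C : ℕ → ℕ → ℕ) (nh : ℕ → ℕ) (u v : ℕ) :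
    |(P.x0 dg C nh u v : ℝ) / P.Pf - P.smp dg fun h => (P.grn C nh h u v : ℝ) / (nh u * P.p)| ≤
      1 / P.Pf := by
  have hf : (0 : ℝ) < P.Pf := by exact_mod_cast Pf_pos hP
  have e1 : (P.smp dg fun h => (P.grn C nh h u v : ℝ) / (nh u * P.p)) =
      ((P.Pf * ∑ idx ∈ range P.Pe, P.grn C nh (P.seedN dg idx) u v : ℕ) : ℝ) /
        (nh u * P.p * P.Pe : ℕ) / P.Pf := by
    rw [smp, ← sum_div]
    push_cast
    rw [div_div, mul_div_assoc, mul_div_cancel_left₀ _ hf.ne']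
  rw [e1, ← sub_div, abs_div, abs_of_pos hf]
  exact div_le_div_of_nonneg_right (abs_div_sub_le _ _) hf.le

theorem Pd_ge (hP : P.WF q g d) : 64 ≤ P.Pd := by
  have h1 := GrP.g_le hP
  have h2 := hP.q_lt
  rw [hP.Pd_eq]
  exact le_trans (by norm_num) (Nat.pow_le_pow_right (by omega) (show 6 ≤ d by omega))

theorem Pq_le_Pd (hP : P.WF q g d) : P.Pq * P.Pq ≤ P.Pd :=
  (Nat.le_mul_of_pos_right _ (CanP.Pq_pos hP)).trans (GrP.Pq_le hP)

theorem Pg_le (hP : P.WF q g d) : P.Pg ≤ P.Pq := by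
  have h1 := GrP.g_le hP
  rw [hP.Pg_eq, hP.Pq_eq]
  exact Nat.pow_le_pow_right (by omega) (by omega)

theorem Pg_ge (hP : P.WF q g d) : 16 ≤ P.Pg := by
  have h1 := hP.g_ge
  rw [hP.Pg_eq]
  exact le_trans (by norm_num) (Nat.pow_le_pow_right (by omega) (show 4 ≤ g by omega))

theorem Pf_eq' (hP : P.WF q g d) : (P.Pf : ℝ) = (P.Pd : ℝ) ^ 8 := by
  rw [hP.Pf_eq, hP.Pd_eq]
  push_cast
  ring

/-- The Newton iteration converges. -/
theorem newton_close (hP : P.WF q g d) {C : ℕ → ℕ → ℕ} {nh : ℕ → ℕ}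
    (h1 : ∀ v < P.N, P.PQ ∣ nh v ∧ 0 < nh v ∧ nh v ≤ P.Pd)
    (h2 : ∀ u < P.N, ∑ v ∈ range P.N, C u v ≤ P.PQ - P.Pq)
    (h3 : ∀ v < P.N, ∑ u ∈ range P.N, nh u / P.PQ * C u v ≤ nh v) (hC : Sub (mat P.N C P.PQ))
    {X : (ℕ → ℕ → ℕ) × (ℕ → ℕ → ℕ)}
    (hX : ∀ u v : Fin P.N, |xm P X u v - P.grV C nh u v| ≤ 2 / (P.Pd : ℝ) ^ 2) (l : ℕ)
    (u v : Fin P.N) :
    |xm P ((P.nw C)^[l] X) u v - gr (mat P.N C P.PQ) u v| ≤
      P.N * ((8 / P.Pg) ^ (2 ^ l) / 2 + 1 / (2 * (P.Pd : ℝ) ^ 6)) * P.Pd := by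
  have hd : (64 : ℝ) ≤ P.Pd := by exact_mod_cast Pd_ge hP
  have hg : (16 : ℝ) ≤ P.Pg := by exact_mod_cast Pg_ge hP
  have hN : (P.N : ℝ) ≤ P.Pq := by exact_mod_cast GrP.N_le hP
  have hgq : (P.Pg : ℝ) ≤ P.Pq := by exact_mod_cast Pg_le hP
  have hqd : (P.Pq : ℝ) * P.Pq ≤ P.Pd := by exact_mod_cast Pq_le_Pd hP
  have hN0 : (0 : ℝ) ≤ P.N := Nat.cast_nonneg _
  have hw : ∀ v : Fin P.N, (1 : ℝ) ≤ nh v ∧ (nh v : ℝ) ≤ P.Pd := fun v =>
    ⟨by exact_mod_cast (h1 v v.2).2.1, by exact_mod_cast (h1 v v.2).2.2⟩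
  have hw0 : ∀ v : Fin P.N, (0 : ℝ) < nh v := fun v => one_pos.trans_le (hw v).1
  have hs : √(P.Pd / 1 : ℝ) ≤ P.Pd / 8 := by
    refine Real.sqrt_le_iff.2 ⟨by positivity, ?_⟩
    nlinarith
  have hs0 := Real.sqrt_nonneg (P.Pd / 1 : ℝ)
  have hC1 : Bd (fun v : Fin P.N => (nh v : ℝ)) (mat P.N C P.PQ) 1 :=
    (GrP.bd_mat hP h1 h2 h3).mono (Real.sqrt_le_one.2 (sub_le_self _ (by positivity)))
  have hI : Bd (fun v : Fin P.N => (nh v : ℝ)) (1 - mat P.N C P.PQ) 2 :=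
    (Bd.one.sub hw0 hC1).mono (by norm_num)
  have b0 : Bd (fun v : Fin P.N => (nh v : ℝ)) (1 - (1 - mat P.N C P.PQ) * xm P X) (4 / P.Pg) := by
    have b1 := Bd.of_entry (M := xm P X - P.grV C nh) one_pos hw hX
    have e : 1 - (1 - mat P.N C P.PQ) * xm P X = (1 - (1 - mat P.N C P.PQ) * P.grV C nh) -
        (1 - mat P.N C P.PQ) * (xm P X - P.grV C nh) := by
      rw [mul_sub (1 - mat P.N C P.PQ)]
      abel
    rw [e]
    refine ((hP.grV_bd h1 h2 h3).sub hw0 (hI.mul b1 (by positivity))).mono ?_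
    have b2 : 2 * (P.N * (2 / (P.Pd : ℝ) ^ 2) * √(P.Pd / 1)) ≤ 1 / P.Pg := by
      calc 2 * (P.N * (2 / (P.Pd : ℝ) ^ 2) * √(P.Pd / 1))
          ≤ 2 * (P.Pq * (2 / (P.Pd : ℝ) ^ 2) * (P.Pd / 8)) := by gcongr
        _ = (P.Pq : ℝ) / (2 * P.Pd) := by field_simp; ring
        _ ≤ 1 / (P.Pg : ℝ) := by
          rw [div_le_div_iff₀ (by positivity) (by positivity)]
          nlinarith
    have e3 : (4 : ℝ) / P.Pg = 3 / P.Pg + 1 / P.Pg := by ring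
    linarith
  have hNd : (P.N : ℝ) ≤ P.Pd := by nlinarith
  have b3 : P.N * (1 / (P.Pf : ℝ)) * √(P.Pd / 1) ≤ 1 / (8 * (P.Pd : ℝ) ^ 6) := by
    rw [Pf_eq' hP]
    calc P.N * (1 / (P.Pd : ℝ) ^ 8) * √(P.Pd / 1)
        ≤ P.Pd * (1 / (P.Pd : ℝ) ^ 8) * (P.Pd / 8) := by gcongr
      _ = 1 / (8 * (P.Pd : ℝ) ^ 6) := by field_simp
  have b4 : 1 / (8 * (P.Pd : ℝ) ^ 6) ≤ 1 / 16 := by
    have : (2 : ℝ) ≤ (P.Pd : ℝ) ^ 6 :=
      le_trans (by linarith) (le_self_pow₀ (by linarith) (by omega))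
    rw [div_le_div_iff₀ (by positivity) (by positivity)]
    linarith
  have key := newton one_pos hw hC hC1 (fun l => xm P ((P.nw C)^[l] X)) (b := 4 / P.Pg)
    (e := 1 / P.Pf) (by positivity)
    (by rw [div_le_div_iff₀ (by positivity) (by positivity)]; linarith) b0 (by positivity) (b3.trans b4)
    (fun l u v => by
      rw [Function.iterate_succ_apply']
      exact nw_step hP C _ u v) l u v
  refine key.trans ?_
  have e4 : 2 * (4 / (P.Pg : ℝ)) = 8 / P.Pg := by ring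
  have e5 : 1 / (2 * (P.Pd : ℝ) ^ 6) = 4 * (1 / (8 * (P.Pd : ℝ) ^ 6)) := by ring
  rw [e4, e5]
  gcongr
  linarith

theorem parts_zero (C : ℕ → ℕ → ℕ) {X : (ℕ → ℕ → ℕ) × (ℕ → ℕ → ℕ)}
    (h : ∀ u v, (X.1 u v = 0 ∨ X.2 u v = 0) ∧
      (¬(u < P.N ∧ v < P.N) → X.1 u v = 0 ∧ X.2 u v = 0)) (l : ℕ) (u v : ℕ) :
    (((P.nw C)^[l] X).1 u v = 0 ∨ ((P.nw C)^[l] X).2 u v = 0) ∧
      (¬(u < P.N ∧ v < P.N) → ((P.nw C)^[l] X).1 u v = 0 ∧ ((P.nw C)^[l] X).2 u v = 0) := by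
  rcases l with _ | l
  · exact h u v
  · rw [Function.iterate_succ_apply']
    simp only [nw]
    split_ifs with huv
    · refine ⟨?_, fun h' => absurd huv h'⟩
      rcases le_total (P.nwP C ((P.nw C)^[l] X).1 ((P.nw C)^[l] X).2 u v)
        (P.nwM C ((P.nw C)^[l] X).1 ((P.nw C)^[l] X).2 u v) with h' | h'
      · exact Or.inl (by rw [Nat.sub_eq_zero_of_le h', Nat.zero_div])
      · exact Or.inr (by rw [Nat.sub_eq_zero_of_le h', Nat.zero_div])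
    · simp

theorem newA_eq (hP : P.WF q g d) {e : ℕ} {A C : ℕ → ℕ → ℕ} (hA : Sub (mat P.N A P.Pq))
    (hC : ∀ u v, C u v ≤ P.Bm A u v) {X : (ℕ → ℕ → ℕ) × (ℕ → ℕ → ℕ)}
    (hX : ∀ u v : Fin P.N, |xm P X u v - gr (mat P.N C P.PQ) u v| ≤ P.N / (P.Pd : ℝ) ^ 5)
    (h : ∀ u v : Fin P.N, ¬badSh ((P.Pf * P.PQ : ℝ) * P.Aex A C u v) P.E3 (P.Pf * P.Pg) e) :
    P.newA e A C X = P.newAC e A C := by
  funext u v
  rw [newA, newAC]
  split_ifs with huv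
  swap
  · rfl
  obtain ⟨u, rfl⟩ : ∃ u' : Fin P.N, u = u' := ⟨⟨u, huv.1⟩, rfl⟩
  obtain ⟨v, rfl⟩ : ∃ v' : Fin P.N, v = v' := ⟨⟨v, huv.2⟩, rfl⟩
  have hf : (0 : ℝ) < P.Pf := by exact_mod_cast Pf_pos hP
  have hq : (0 : ℝ) < P.Pq := by exact_mod_cast CanP.Pq_pos hP
  have hg : (0 : ℝ) < P.Pg := by exact_mod_cast CanP.Pg_pos hP
  have hd : (64 : ℝ) ≤ P.Pd := by exact_mod_cast Pd_ge hP
  have hN : (P.N : ℝ) ≤ P.Pq := by exact_mod_cast GrP.N_le hP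
  have hqd : (P.Pq : ℝ) * P.Pq ≤ P.Pd := by exact_mod_cast Pq_le_Pd hP
  have hCA : ∀ a b, C a b ≤ A a b * P.Pg := fun a b =>
    (hC a b).trans (Nat.mul_le_mul_left _ (Nat.sub_le _ _))
  set D := mat P.N A P.Pq - mat P.N C P.PQ with hD
  have eD : ∀ a : Fin P.N, ((A a v * P.Pg - C a v : ℕ) : ℝ) = P.PQ * D a v := by
    intro a
    rw [Nat.cast_sub (hCA a v), hD, Matrix.sub_apply, mat, mat, PQ]
    push_cast
    field_simp
  have hD0 : ∀ a : Fin P.N, |D a v| ≤ 1 := by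
    intro a
    have h0 : 0 ≤ D a v := by
      have := Nat.cast_nonneg (α := ℝ) (A a v * P.Pg - C a v)
      rw [eD] at this
      exact nonneg_of_mul_nonneg_right this (by exact_mod_cast CanP.PQ_pos hP)
    rw [abs_of_nonneg h0, hD, Matrix.sub_apply]
    have h1 : mat P.N A P.Pq a v ≤ 1 :=
      (single_le_sum (fun b _ => hA.nonneg a b) (mem_univ v)).trans (hA.row a)
    have h2 : 0 ≤ mat P.N C P.PQ a v := by rw [mat]; positivity
    linarith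
  have e1 : ((∑ a ∈ range P.N, X.1 u a * (A a v * P.Pg - C a v) : ℕ) : ℝ) -
      (∑ a ∈ range P.N, X.2 u a * (A a v * P.Pg - C a v) : ℕ) =
      P.Pf * P.PQ * (xm P X * D) u v := by
    rw [Nat.cast_sum, Nat.cast_sum, ← sum_sub_distrib, sum_range, mul_apply, mul_sum]
    refine sum_congr rfl fun a _ => ?_
    rw [Nat.cast_mul, Nat.cast_mul, eD, xm]
    field_simp
  have b1 : |P.Pf * P.PQ * (xm P X * D) u v - (P.Pf * P.PQ : ℝ) * P.Aex A C u v| ≤ P.E3 := by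
    rw [← mul_sub, abs_mul, abs_of_nonneg (by positivity), Aex, ← hD, mul_apply, mul_apply,
      ← sum_sub_distrib]
    have b2 : |∑ a, (xm P X u a * D a v - gr (mat P.N C P.PQ) u a * D a v)| ≤
        P.N * (P.N / (P.Pd : ℝ) ^ 5) := by
      refine (abs_sum_le_sum_abs _ _).trans
        ((sum_le_card_nsmul _ _ (P.N / (P.Pd : ℝ) ^ 5) fun a _ => ?_).trans (by simp))
      rw [← sub_mul, abs_mul]
      exact (mul_le_of_le_one_right (abs_nonneg _) (hD0 a)).trans (hX u a)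
    refine (mul_le_mul_of_nonneg_left b2 (by positivity)).trans ?_
    have e2 : (P.E3 : ℝ) * P.Pq = P.Pf * P.Pg := by
      have h1 := hP.q_lt
      rw [hP.E3_eq, hP.Pq_eq, hP.Pf_eq, hP.Pg_eq]
      norm_cast
      rw [← pow_add, ← pow_add]
      congr 1
      omega
    rw [← le_div_iff₀' (by exact_mod_cast Nat.mul_pos (Pf_pos hP) (CanP.PQ_pos hP)),
      eq_div_of_mul_eq hq.ne' e2, PQ]
    push_cast
    calc (P.N : ℝ) * (P.N / (P.Pd : ℝ) ^ 5) ≤ P.Pq * (P.Pq / (P.Pd : ℝ) ^ 5) := by gcongr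
      _ = P.Pq * P.Pq * (P.Pq * P.Pq) / (P.Pd : ℝ) ^ 5 / (P.Pq * P.Pq) := by field_simp
      _ ≤ P.Pd * P.Pd / (P.Pd : ℝ) ^ 2 / (P.Pq * P.Pq) := by
        gcongr
        · linarith
        · norm_num
      _ = _ := by field_simp
  rw [Nat.sub_sub, ← floor_sub_div]
  by_contra hne
  refine h u v ⟨_, b1, fun e' => hne ?_⟩
  rw [← e', ← e1]
  push_cast
  congr 2
  ring

end AgP

theorem WF.stage_eq (hP : P.WF q g d) (hs : P.Inv s) (h1 : P.GoodSh δ s) (h2 : P.GoodDg dg δ s) :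
    P.stage dg δ s = P.stageC δ s ∧ ∀ l ≤ P.nl, ∀ u v,
      (P.aX dg δ s.1 s.2 l).1 u v < 2 ^ (11 * d) ∧ (P.aX dg δ s.1 s.2 l).2 u v < 2 ^ (11 * d) := by
  have eK : P.aK dg δ s.1 s.2 = P.cK δ s.1 s.2 := by rw [aK, cK, AgP.occR_eq hP h1.1 h2.1]
  have eH : P.aH dg δ s.1 s.2 = P.cH δ s.1 s.2 := by
    funext v
    rw [aH, cH, eK, AgP.occR_eq hP h1.2.1 h2.2.1]
  have eC : P.aC dg δ s.1 s.2 = P.cC δ s.1 s.2 := by rw [aC, cC, eK, eH]
  obtain ⟨f1, f2, f3, f4⟩ := hP.cH_facts (δ := δ) hs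
  have f0 : ∀ v < P.N, P.PQ ∣ P.cH δ s.1 s.2 v ∧ 0 < P.cH δ s.1 s.2 v ∧ P.cH δ s.1 s.2 v ≤ P.Pd := by
    intro v hv
    refine ⟨(f1 v hv).1, (CanP.PQ_pos hP).trans_le ((hs.ge v hv).trans (f1 v hv).2.1),
      (f1 v hv).2.2.trans ?_⟩
    rw [hP.Pd_eq]
    exact Nat.pow_le_pow_right (by omega) hP.q_lt.le
  have hq : (0 : ℝ) < P.Pq := by exact_mod_cast CanP.Pq_pos hP
  have hg : (16 : ℝ) ≤ P.Pg := by exact_mod_cast AgP.Pg_ge hP
  have hd : (64 : ℝ) ≤ P.Pd := by exact_mod_cast AgP.Pd_ge hP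
  have hN : (P.N : ℝ) ≤ P.Pd := by
    exact_mod_cast (GrP.wk2_wf hP f0 f2 f3).N_le
  have hC : Sub (mat P.N (P.cC δ s.1 s.2) P.PQ) := by
    refine hs.sub.mono (fun u v => by rw [mat]; positivity) fun u v => ?_
    have : (P.cC δ s.1 s.2 u v : ℝ) ≤ s.1 u v * P.Pg := by
      exact_mod_cast (f4 u v).trans (Nat.mul_le_mul_left _ (Nat.sub_le _ _))
    rw [mat, mat, PQ, Nat.cast_mul, div_le_div_iff₀ (by positivity) hq]
    nlinarith
  have hX : ∀ u v : Fin P.N, |AgP.xm P (P.aX0 dg δ s.1 s.2) u v -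
      P.grV (P.cC δ s.1 s.2) (P.cH δ s.1 s.2) u v| ≤ 2 / (P.Pd : ℝ) ^ 2 := by
    intro u v
    have e : AgP.xm P (P.aX0 dg δ s.1 s.2) u v =
        (P.x0 dg (P.cC δ s.1 s.2) (P.cH δ s.1 s.2) u v : ℝ) / P.Pf := by
      simp [AgP.xm, aX0, eC, eH]
    have b1 := AgP.x0_close (dg := dg) hP (P.cC δ s.1 s.2) (P.cH δ s.1 s.2) u v
    have b2 : 1 / (P.Pf : ℝ) ≤ 1 / (P.Pd : ℝ) ^ 2 := by
      rw [AgP.Pf_eq' hP]
      gcongr
      · linarith
      · norm_num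
    rw [e]
    refine (abs_sub_le _ _ _).trans ((add_le_add (b1.trans b2) (h2.2.2 u v)).trans (le_of_eq ?_))
    ring
  have key := AgP.newton_close hP f0 f2 f3 hC hX
  have hb : (0 : ℝ) ≤ 8 / P.Pg := by positivity
  have hb1 : (8 : ℝ) / P.Pg ≤ 1 := div_le_one_of_le₀ (by linarith) (by linarith)
  refine ⟨?_, fun l _ u v => ?_⟩
  · rw [stage, stageC, aX, eK, eH, eC]
    refine Prod.ext (AgP.newA_eq hP hs.sub f4 (fun u v => (key _ u v).trans ?_) h1.2.2) rfl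
    have b1 : (8 / P.Pg : ℝ) ^ 2 ^ P.nl ≤ 1 / (P.Pd : ℝ) ^ 6 := by
      have e : (8 / P.Pg : ℝ) = 1 / 2 ^ (g - 3) := by
        have := hP.g_ge
        obtain ⟨g', rfl⟩ : ∃ g', g = g' + 3 := ⟨g - 3, by omega⟩
        rw [hP.Pg_eq, Nat.add_sub_cancel]
        push_cast
        field_simp
        ring
      rw [e, div_pow, one_pow, ← pow_mul, hP.Pd_eq, Nat.cast_pow, ← pow_mul, Nat.cast_ofNat]
      exact one_div_le_one_div_of_le (by positivity)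
        (pow_le_pow_right₀ one_le_two (by rw [mul_comm]; exact hP.nl_ge))
    calc _ ≤ P.N * (1 / (P.Pd : ℝ) ^ 6 / 2 + 1 / (2 * (P.Pd : ℝ) ^ 6)) * P.Pd := by gcongr
      _ = _ := by field_simp; norm_num
  · obtain ⟨z1, z2⟩ := AgP.parts_zero (P := P) (P.cC δ s.1 s.2) (X := P.aX0 dg δ s.1 s.2)
      (fun u v => ⟨Or.inr rfl, fun h => ⟨if_neg h, rfl⟩⟩) l u v
    rw [aX, eC]
    by_cases huv : u < P.N ∧ v < P.N
    swap
    · rw [(z2 huv).1, (z2 huv).2]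
      exact ⟨by positivity, by positivity⟩
    have b1 := key l ⟨u, huv.1⟩ ⟨v, huv.2⟩
    have b2 : (8 / P.Pg : ℝ) ^ 2 ^ l ≤ 1 := pow_le_one₀ hb hb1
    have b3 : 1 / (2 * (P.Pd : ℝ) ^ 6) ≤ 1 / 2 := by
      have : (1 : ℝ) ≤ (P.Pd : ℝ) ^ 6 := one_le_pow₀ (by linarith)
      rw [div_le_div_iff₀ (by positivity) (by positivity)]
      linarith
    have b4 : P.N * ((8 / P.Pg : ℝ) ^ 2 ^ l / 2 + 1 / (2 * (P.Pd : ℝ) ^ 6)) * P.Pd ≤
        P.Pd * (1 / 2 + 1 / 2) * P.Pd := by gcongr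
    have b5 : |AgP.xm P ((P.nw (P.cC δ s.1 s.2))^[l] (P.aX0 dg δ s.1 s.2)) ⟨u, huv.1⟩ ⟨v, huv.2⟩| <
        (P.Pd : ℝ) ^ 3 := by
      have g0 := hC.gr_nonneg ⟨u, huv.1⟩ ⟨v, huv.2⟩
      have g1 := hC.gr_le_one ⟨u, huv.1⟩ ⟨v, huv.2⟩
      obtain ⟨c1, c2⟩ := abs_le.1 (b1.trans b4)
      have c3 : 64 * (P.Pd * P.Pd : ℝ) ≤ (P.Pd : ℝ) ^ 3 := by nlinarith
      have c4 : (64 * 64 : ℝ) ≤ P.Pd * P.Pd := by nlinarith
      rw [abs_lt]
      constructor <;> linarith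
    rw [AgP.xm, abs_div, AgP.Pf_eq' hP, abs_of_pos (a := (P.Pd : ℝ) ^ 8) (by positivity),
      div_lt_iff₀ (by positivity), ← pow_add, hP.Pd_eq, Nat.cast_pow, ← pow_mul, abs_lt,
      mul_comm d] at b5
    obtain ⟨c1, c2⟩ := b5
    have hpos : 0 < 2 ^ (11 * d) := by positivity
    rcases z1 with z | z
    · rw [z] at c1 ⊢
      refine ⟨hpos, ?_⟩
      rw [Nat.cast_zero, zero_sub, neg_lt_neg_iff] at c1
      exact_mod_cast c1
    · rw [z] at c2 ⊢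
      refine ⟨?_, hpos⟩
      rw [Nat.cast_zero, sub_zero] at c2
      exact_mod_cast c2

open Classical in
theorem WF.card_not_goodDg (hP : P.WF q g d) (hs : P.Inv s) (δ : ℕ → ℕ) :
    (univ.filter fun w : Fin P.T0 → Fin P.p => ¬P.GoodDg (dgN w) δ s).card * 2 ^ (2 * d) ≤
      4 * P.p ^ P.T0 := by
  have hp : (0 : ℝ) < P.p := by exact_mod_cast hP.prime.pos
  have hd : (64 : ℝ) ≤ P.Pd := by exact_mod_cast AgP.Pd_ge hP
  have he : (P.Pd : ℝ) ^ 10 ≤ P.Pe := by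
    have := hP.Pe_ge
    rw [mul_comm, pow_mul, ← hP.Pd_eq] at this
    exact_mod_cast this
  have hNM : P.N * P.M ≤ P.Pq := (Nat.le_mul_of_pos_right _ (by norm_num)).trans (CanP.NM_le hP)
  have hqd : P.Pq ≤ P.Pd :=
    (Nat.le_mul_of_pos_right _ (CanP.Pq_pos hP)).trans (AgP.Pq_le_Pd hP)
  have hN : (P.N : ℝ) ≤ P.Pd := by exact_mod_cast (GrP.N_le hP).trans hqd
  have hNM' : (P.N : ℝ) * P.M ≤ P.Pd := by exact_mod_cast hNM.trans hqd
  have hG : P.M * P.tot s.2 ≤ P.Pd := by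
    refine (Nat.mul_le_mul_left _ (CanP.tot_le hs)).trans (le_trans ?_ (GrP.Pq_le hP))
    rw [← mul_assoc, mul_comm P.M, mul_comm (P.Pq * P.Pq)]
    exact Nat.mul_le_mul_right _ hNM
  have occB : ∀ k : ℕ → Bool, (((range P.N).biUnion fun v => univ.filter
      fun w : Fin P.T0 → Fin P.p => 1 < |P.smp (dgN w) (fun h => (P.occ s.1 s.2 k h v : ℝ) / P.p) -
        P.occV s.1 s.2 k v|).card : ℝ) ≤ (P.p : ℝ) ^ P.T0 / (P.Pd : ℝ) ^ 2 := by
    intro k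
    refine (Nat.cast_le.2 card_biUnion_le).trans ?_
    rw [Nat.cast_sum]
    refine (sum_le_card_nsmul _ _ _ fun v _ => P.card_badDg hP.prime hP.Pe_eq
      (fun h => (P.occ s.1 s.2 k h v : ℝ) / P.p) (G := P.Pd) (fun h => ⟨by positivity, ?_⟩)
      one_pos).trans ?_
    · rw [div_le_iff₀ hp]
      exact_mod_cast (AgP.occ_le' s.1 s.2 k h v).trans (Nat.mul_le_mul_right _ hG)
    · rw [card_range, nsmul_eq_mul, one_pow, mul_one]
      calc (P.N : ℝ) * ((P.Pd : ℝ) ^ 2 / P.Pe * (P.p : ℝ) ^ P.T0)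
          ≤ (P.Pd : ℝ) ^ 6 * ((P.Pd : ℝ) ^ 2 / (P.Pd : ℝ) ^ 10 * (P.p : ℝ) ^ P.T0) := by
            gcongr
            exact hN.trans (le_self_pow₀ (by linarith) (by omega))
        _ = _ := by field_simp
  have grnB : (((univ : Finset (Fin P.N × Fin P.N)).biUnion fun z => univ.filter
      fun w : Fin P.T0 → Fin P.p => 1 / (P.Pd : ℝ) ^ 2 < |P.smp (dgN w) (fun h =>
        (P.grn (P.cC δ s.1 s.2) (P.cH δ s.1 s.2) h z.1 z.2 : ℝ) / (P.cH δ s.1 s.2 z.1 * P.p)) -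
        P.grV (P.cC δ s.1 s.2) (P.cH δ s.1 s.2) z.1 z.2|).card : ℝ) ≤
      (P.p : ℝ) ^ P.T0 / (P.Pd : ℝ) ^ 2 := by
    refine (Nat.cast_le.2 card_biUnion_le).trans ?_
    rw [Nat.cast_sum]
    refine (sum_le_card_nsmul _ _ _ fun z _ => P.card_badDg hP.prime hP.Pe_eq
      (fun h => (P.grn (P.cC δ s.1 s.2) (P.cH δ s.1 s.2) h z.1 z.2 : ℝ) /
        (P.cH δ s.1 s.2 z.1 * P.p)) (G := P.M) (fun h => ⟨by positivity, ?_⟩)
      (by positivity)).trans ?_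
    · refine div_le_of_le_mul₀ (by positivity) (by positivity) ?_
      exact_mod_cast grn_le _ _ h z.2.2 z.1
    · rw [card_univ, Fintype.card_prod, Fintype.card_fin, nsmul_eq_mul, Nat.cast_mul]
      calc (P.N : ℝ) * P.N * ((P.M : ℝ) ^ 2 / (P.Pe * (1 / (P.Pd : ℝ) ^ 2) ^ 2) * (P.p : ℝ) ^ P.T0)
          = (P.N * P.M) ^ 2 * (P.Pd : ℝ) ^ 4 / P.Pe * (P.p : ℝ) ^ P.T0 := by field_simp
        _ ≤ ((P.Pd : ℝ) ^ 2) ^ 2 * (P.Pd : ℝ) ^ 4 / (P.Pd : ℝ) ^ 10 * (P.p : ℝ) ^ P.T0 := by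
            gcongr
            exact hNM'.trans (le_self_pow₀ (by linarith) (by omega))
        _ = _ := by field_simp
  have hsub := card_le_card (s := univ.filter fun w : Fin P.T0 → Fin P.p => ¬P.GoodDg (dgN w) δ s)
    (t := (((range P.N).biUnion fun v => univ.filter fun w : Fin P.T0 → Fin P.p =>
        1 < |P.smp (dgN w) (fun h => (P.occ s.1 s.2 (P.k0 s.1 s.2) h v : ℝ) / P.p) -
          P.occV s.1 s.2 (P.k0 s.1 s.2) v|) ∪
      ((range P.N).biUnion fun v => univ.filter fun w : Fin P.T0 → Fin P.p =>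
        1 < |P.smp (dgN w) (fun h => (P.occ s.1 s.2 (P.cK δ s.1 s.2) h v : ℝ) / P.p) -
          P.occV s.1 s.2 (P.cK δ s.1 s.2) v|)) ∪
      ((univ : Finset (Fin P.N × Fin P.N)).biUnion fun z => univ.filter
        fun w : Fin P.T0 → Fin P.p => 1 / (P.Pd : ℝ) ^ 2 < |P.smp (dgN w) (fun h =>
          (P.grn (P.cC δ s.1 s.2) (P.cH δ s.1 s.2) h z.1 z.2 : ℝ) / (P.cH δ s.1 s.2 z.1 * P.p)) -
          P.grV (P.cC δ s.1 s.2) (P.cH δ s.1 s.2) z.1 z.2|)) fun w hw => by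
    by_contra hn
    simp only [mem_union, mem_biUnion, mem_filter, mem_univ, true_and, mem_range, not_or,
      not_exists, not_and, not_lt] at hn
    exact (mem_filter.1 hw).2 ⟨hn.1.1, hn.1.2, fun u v => hn.2 (u, v)⟩
  have h3 := Nat.cast_le (α := ℝ).2
    (hsub.trans ((card_union_le _ _).trans (Nat.add_le_add_right (card_union_le _ _) _)))
  rw [Nat.cast_add, Nat.cast_add] at h3
  have h4 := h3.trans (add_le_add (add_le_add (occB _) (occB _)) grnB)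
  rw [← add_div, ← add_div, le_div_iff₀ (by positivity)] at h4
  have e : (2 : ℕ) ^ (2 * d) = P.Pd ^ 2 := by rw [hP.Pd_eq, ← pow_mul, mul_comm]
  rw [e, ← Nat.cast_le (α := ℝ)]
  push_cast
  linarith [pow_pos hp P.T0]

end Par

end Vale.Agent.P313.F43
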