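import Mathlib

/-!
The algorithm, on natural numbers: the pseudo-random walk with names, one stage, the layers of the
computation and their tables.
-/

namespace Vale.Agent.P313.F43

open Finset

/-! ### The walk -/

/-- A state: tag (`0` = alive, else the time of freezing), vertex, name. -/
abbrev WS : Type := ℕ × ℕ × ℕ

/-- The data of a walk. -/
structure Wk where
  /-- number of vertices -/
  N : ℕ
  /-- denominator of the transition probabilities, a power of two -/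
  PQ : ℕ
  /-- number of swap steps between two moves -/
  om : ℕ
  /-- number of labels, a prime -/
  p : ℕ
  /-- base of the code of an extended state -/
  Pd : ℕ
  /-- number of bits of the code of an extended state -/
  D : ℕ
  /-- the walk is idle from this time on -/
  T : ℕ
  /-- number of names of a vertex -/
  n : ℕ → ℕ
  /-- numerators of the transition probabilities -/
  B : ℕ → ℕ → ℕ
  /-- number of low bits of the name which are refreshed -/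
  rot : ℕ → ℕ
  /-- the move number `t` to the vertex `v` is forbidden -/
  kill : ℕ → ℕ → Bool

/-- The polynomial fingerprint of the bits of `c`. -/
def fpN (p D γ c : ℕ) : ℕ :=
  (∑ j ∈ range D, c / 2 ^ j % 2 * (if p = 0 then 0 else γ ^ j % p)) % p

/-- The new label. -/
def hashN (p D : ℕ) (s : ℕ → ℕ) (c d : ℕ) : ℕ :=
  if p = 0 then 0 else
    (s 0 + (if s 1 % p = 0 then 1 else s 1) * d + s 2 * fpN p D (s 3) c +
      s 4 * fpN p D (s 5) c) % p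

/-- The number of trailing zeros. -/
def lev (τ : ℕ) : ℕ := ∑ j ∈ range τ, if τ % 2 ^ (j + 1) = 0 then 1 else 0

namespace Wk

variable (W : Wk)

/-- The distribution function of a row. -/
def cdf (u v : ℕ) : ℕ := ∑ y ∈ range v, W.B u y

/-- The number of slots at `v` of the vertices before `u`. -/
def off (u v : ℕ) : ℕ := ∑ y ∈ range u, W.n y / W.PQ * W.B y v

/-- The vertex which is selected by `z`, or `N`. -/
def tgt (u z : ℕ) : ℕ := ∑ y ∈ range W.N, if W.cdf u (y + 1) ≤ z then 1 else 0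

/-- The slot of the name `x` of `u` at the selected vertex. -/
def slot (u x : ℕ) : ℕ :=
  W.off u (W.tgt u (x % W.PQ)) + x / W.PQ * W.B u (W.tgt u (x % W.PQ)) +
    (x % W.PQ - W.cdf u (W.tgt u (x % W.PQ)))

/-- One step: new state, dropped part, output label. -/
def step (τ : ℕ) (s : WS) (i : ℕ) : (WS × ℕ) × ℕ :=
  if W.T ≤ τ ∨ s.1 ≠ 0 then ((s, 0), i)
  else if τ % (W.om + 1) < W.om then
    if i + 1 = W.p then (((τ + 1, s.2.1, s.2.2), 0), i)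
    else if τ % (W.om + 1) < W.rot s.2.1 then
      (((0, s.2.1, s.2.2 - s.2.2 / 2 ^ (τ % (W.om + 1)) % 2 * min (W.n s.2.1) (2 ^ (τ % (W.om + 1)))
          + i % 2 * min (W.n s.2.1) (2 ^ (τ % (W.om + 1)))), 0),
        2 * (i / 2) + s.2.2 / 2 ^ (τ % (W.om + 1)) % 2)
    else ((s, 0), i)
  else if W.tgt s.2.1 (s.2.2 % W.PQ) = W.N ∨ W.n (W.tgt s.2.1 (s.2.2 % W.PQ)) = 0 ∨
      W.kill (τ / (W.om + 1) + 1) (W.tgt s.2.1 (s.2.2 % W.PQ)) = true then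
    (((τ + 1, s.2.1, s.2.2), 0), i)
  else
    (((0, W.tgt s.2.1 (s.2.2 % W.PQ), W.slot s.2.1 s.2.2 % W.n (W.tgt s.2.1 (s.2.2 % W.PQ))),
      W.slot s.2.1 s.2.2 / W.n (W.tgt s.2.1 (s.2.2 % W.PQ))), i)

/-- The code of an extended state. -/
def code (y : WS × ℕ) : ℕ := ((y.1.1 * W.Pd + y.1.2.1) * W.Pd + y.1.2.2) * W.Pd + y.2

/-- State and label at a given time, for the seeds `h`. -/
def run (h : ℕ → ℕ → ℕ) (s : WS) (i : ℕ) : ℕ → WS × ℕ
  | 0 => (s, i)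
  | τ + 1 =>
    ((W.step τ (run h s i τ).1 (run h s i τ).2).1.1,
      hashN W.p W.D (h (lev (τ + 1))) (W.code (W.step τ (run h s i τ).1 (run h s i τ).2).1)
        (W.step τ (run h s i τ).1 (run h s i τ).2).2)

/-- The number of pairs (name of `u`, label) which are alive at `v` after `t` moves. -/
def cnt (h : ℕ → ℕ → ℕ) (t u v : ℕ) : ℕ :=
  ∑ x ∈ range (W.n u), ∑ i ∈ range W.p,
    if (W.run h (0, u, x) i (t * (W.om + 1))).1.1 = 0 ∧
      (W.run h (0, u, x) i (t * (W.om + 1))).1.2.1 = v then 1 else 0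

end Wk

/-! ### One stage -/

/-- The parameters. -/
structure Par where
  /-- number of vertices -/
  N : ℕ
  /-- `2 ^ q`, denominator of the matrices of the stages -/
  Pq : ℕ
  /-- `2 ^ g` -/
  Pg : ℕ
  /-- `q + g` -/
  Q : ℕ
  /-- `2 q` -/
  om : ℕ
  /-- a prime -/
  p : ℕ
  /-- `2 ^ d` -/
  Pd : ℕ
  /-- `4 d` -/
  D : ℕ
  /-- number of levels of the generator -/
  K : ℕ
  /-- number of digits of a sample index -/
  e : ℕ
  /-- `p ^ e` -/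
  Pe : ℕ
  /-- denominator of the Newton iteration -/
  Pf : ℕ
  /-- number of Newton steps -/
  nl : ℕ
  /-- accuracy of the last estimate -/
  E3 : ℕ

namespace Par

variable (P : Par)

/-- `2 ^ (q + g)` -/
def PQ : ℕ := P.Pq * P.Pg

/-- The number of moves, `2 ^ (2 g)`. -/
def M : ℕ := P.Pg * P.Pg

/-- The threshold for heavy vertices, `2 ^ (3 g)`. -/
def R : ℕ := P.Pg * P.Pg * P.Pg

/-- The seeds number `idx` for the random digits `dg`. -/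
def seedN (dg : ℕ → ℕ) (idx k c : ℕ) : ℕ :=
  if k < P.K ∧ c < 6 then
    (dg (6 * k + c) + ∑ j ∈ range P.e, dg (6 * P.K + (6 * k + c) + j) * (idx / P.p ^ j % P.p)) % P.p
  else 0

/-- The damped matrix. -/
def Bm (A : ℕ → ℕ → ℕ) (u v : ℕ) : ℕ := A u v * (P.Pg - 1)

/-- The inflow of the damped matrix. -/
def inf (A : ℕ → ℕ → ℕ) (n : ℕ → ℕ) (v : ℕ) : ℕ := ∑ u ∈ range P.N, n u / P.PQ * P.Bm A u v

/-- The accepting vertex and the vertices with a large inflow. -/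
def k0 (A : ℕ → ℕ → ℕ) (n : ℕ → ℕ) (v : ℕ) : Bool :=
  decide (v + 1 = P.N ∨ P.R * n v < P.inf A n v)

/-- The lossy walk. -/
def wk1 (A : ℕ → ℕ → ℕ) (n : ℕ → ℕ) (k : ℕ → Bool) : Wk :=
  ⟨P.N, P.PQ, P.om, P.p, P.Pd, P.D, P.M * (P.om + 1), n, P.Bm A, fun v => Nat.log 2 (n v),
    fun _ v => k v⟩

/-- The number of visits of the lossy walk. -/
def occ (A : ℕ → ℕ → ℕ) (n : ℕ → ℕ) (k : ℕ → Bool) (h : ℕ → ℕ → ℕ) (v : ℕ) : ℕ :=
  ∑ t ∈ range P.M, ∑ u ∈ range P.N, (P.wk1 A n k).cnt h (t + 1) u v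

/-- The rounded estimate of the number of visits. -/
def occR (dg : ℕ → ℕ) (δ : ℕ) (A : ℕ → ℕ → ℕ) (n : ℕ → ℕ) (k : ℕ → Bool) (v : ℕ) : ℕ :=
  P.PQ * (((∑ idx ∈ range P.Pe, P.occ A n k (P.seedN dg idx) v) - 3 * (P.p * P.Pe) * (δ + 1)) /
    (P.p * P.Pe * P.PQ))

/-- The heavy vertices. -/
def k1 (A : ℕ → ℕ → ℕ) (n oa : ℕ → ℕ) (v : ℕ) : Bool :=
  P.k0 A n v || decide (P.R * n v < oa v)

/-- The regular part of the matrix for the capacities `nh`. -/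
def Cm (A : ℕ → ℕ → ℕ) (k : ℕ → Bool) (nh : ℕ → ℕ) (u v : ℕ) : ℕ :=
  if k v = true then 0 else if P.inf A nh v ≤ nh v then P.Bm A u v
  else P.Bm A u v * nh v / P.inf A nh v

/-- The regular walk. -/
def wk2 (C : ℕ → ℕ → ℕ) (nh : ℕ → ℕ) : Wk :=
  ⟨P.N, P.PQ, P.om, P.p, P.Pd, P.D, P.M * (P.om + 1), nh, C, fun _ => P.Q, fun _ _ => false⟩

/-- The number of visits of the regular walk. -/
def grn (C : ℕ → ℕ → ℕ) (nh : ℕ → ℕ) (h : ℕ → ℕ → ℕ) (u v : ℕ) : ℕ :=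
  ∑ t ∈ range P.M, (P.wk2 C nh).cnt h t u v

/-- The first approximation of the Green matrix. -/
def x0 (dg : ℕ → ℕ) (C : ℕ → ℕ → ℕ) (nh : ℕ → ℕ) (u v : ℕ) : ℕ :=
  P.Pf * (∑ idx ∈ range P.Pe, P.grn C nh (P.seedN dg idx) u v) / (nh u * P.p * P.Pe)

/-- The positive terms of a Newton step. -/
def nwP (C Xp Xm : ℕ → ℕ → ℕ) (u v : ℕ) : ℕ :=
  2 * Xp u v * (P.Pf * P.PQ) +
    (∑ a ∈ range P.N, ∑ b ∈ range P.N, (Xp u a * C a b * Xp b v + Xm u a * C a b * Xm b v)) +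
    P.PQ * ∑ a ∈ range P.N, (Xp u a * Xm a v + Xm u a * Xp a v)

/-- The negative terms of a Newton step. -/
def nwM (C Xp Xm : ℕ → ℕ → ℕ) (u v : ℕ) : ℕ :=
  2 * Xm u v * (P.Pf * P.PQ) +
    (∑ a ∈ range P.N, ∑ b ∈ range P.N, (Xp u a * C a b * Xm b v + Xm u a * C a b * Xp b v)) +
    P.PQ * ∑ a ∈ range P.N, (Xp u a * Xp a v + Xm u a * Xm a v)

/-- A Newton step, on positive and negative parts. -/
def nw (C : ℕ → ℕ → ℕ) (X : (ℕ → ℕ → ℕ) × (ℕ → ℕ → ℕ)) : (ℕ → ℕ → ℕ) × (ℕ → ℕ → ℕ) :=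
  (fun u v => if u < P.N ∧ v < P.N then
      (P.nwP C X.1 X.2 u v - P.nwM C X.1 X.2 u v) / (P.Pf * P.PQ) else 0,
    fun u v => if u < P.N ∧ v < P.N then
      (P.nwM C X.1 X.2 u v - P.nwP C X.1 X.2 u v) / (P.Pf * P.PQ) else 0)

/-- The matrix of the next stage. -/
def newA (δ : ℕ) (A C : ℕ → ℕ → ℕ) (X : (ℕ → ℕ → ℕ) × (ℕ → ℕ → ℕ)) (u v : ℕ) : ℕ :=
  if u < P.N ∧ v < P.N then
    ((∑ a ∈ range P.N, X.1 u a * (A a v * P.Pg - C a v)) -
      (∑ a ∈ range P.N, X.2 u a * (A a v * P.Pg - C a v)) - 3 * P.E3 * (δ + 1)) / (P.Pf * P.Pg)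
  else 0

/-- The numbers of names of the next stage. -/
def newn (A : ℕ → ℕ → ℕ) (n : ℕ → ℕ) (k : ℕ → Bool) (nh : ℕ → ℕ) (v : ℕ) : ℕ :=
  if v < P.N then
    if k v = true ∨ v = 0 then n v else
      min (n v) (2 ^ (Nat.log 2 (P.PQ + n v / P.Pg +
        ∑ u ∈ range P.N, nh u / P.PQ * (P.Bm A u v - P.Cm A k nh u v)) + 1))
  else 0

/-- The heavy vertices which the algorithm finds. -/
def aK (dg : ℕ → ℕ) (δ : ℕ → ℕ) (A : ℕ → ℕ → ℕ) (n : ℕ → ℕ) : ℕ → Bool :=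
  P.k1 A n (P.occR dg (δ 0) A n (P.k0 A n))

/-- The capacities which the algorithm finds. -/
def aH (dg : ℕ → ℕ) (δ : ℕ → ℕ) (A : ℕ → ℕ → ℕ) (n : ℕ → ℕ) (v : ℕ) : ℕ :=
  n v + P.occR dg (δ 1) A n (P.aK dg δ A n) v

/-- The regular part which the algorithm finds. -/
def aC (dg : ℕ → ℕ) (δ : ℕ → ℕ) (A : ℕ → ℕ → ℕ) (n : ℕ → ℕ) : ℕ → ℕ → ℕ :=
  P.Cm A (P.aK dg δ A n) (P.aH dg δ A n)

/-- The start of the Newton iteration. -/
def aX0 (dg : ℕ → ℕ) (δ : ℕ → ℕ) (A : ℕ → ℕ → ℕ) (n : ℕ → ℕ) :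
    (ℕ → ℕ → ℕ) × (ℕ → ℕ → ℕ) :=
  (fun u v => if u < P.N ∧ v < P.N then P.x0 dg (P.aC dg δ A n) (P.aH dg δ A n) u v else 0,
    fun _ _ => 0)

/-- The approximations of the Green matrix. -/
def aX (dg : ℕ → ℕ) (δ : ℕ → ℕ) (A : ℕ → ℕ → ℕ) (n : ℕ → ℕ) (l : ℕ) :
    (ℕ → ℕ → ℕ) × (ℕ → ℕ → ℕ) :=
  (P.nw (P.aC dg δ A n))^[l] (P.aX0 dg δ A n)

/-- One stage of the algorithm with the random digits `dg` and the shifts `δ 0`, `δ 1`, `δ 2`. -/
def stage (dg : ℕ → ℕ) (δ : ℕ → ℕ) (s : (ℕ → ℕ → ℕ) × (ℕ → ℕ)) : (ℕ → ℕ → ℕ) × (ℕ → ℕ) :=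
  (P.newA (δ 2) s.1 (P.aC dg δ s.1 s.2) (P.aX dg δ s.1 s.2 P.nl),
    P.newn s.1 s.2 (P.aK dg δ s.1 s.2) (P.aH dg δ s.1 s.2))

/-- The state after `j` stages; the stage number `j` uses the shifts `sh (3 j + c)`. -/
def stages (dg sh : ℕ → ℕ) (s : (ℕ → ℕ → ℕ) × (ℕ → ℕ)) : ℕ → (ℕ → ℕ → ℕ) × (ℕ → ℕ)
  | 0 => s
  | j + 1 => P.stage dg (fun c => sh (3 * j + c)) (stages dg sh s j)

end Par

/-! ### Layers and tables -/

/-- The content of a table. -/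
structure Dat where
  /-- parameters -/
  P : Par
  /-- number of the layer -/
  j : ℕ
  /-- random digits -/
  dg : ℕ → ℕ
  /-- shifts -/
  sh : ℕ → ℕ
  /-- number of digits and shifts which are stored -/
  len : ℕ
  /-- matrix -/
  A : ℕ → ℕ → ℕ
  /-- numbers of names -/
  n : ℕ → ℕ
  /-- approximation of the Green matrix -/
  X : (ℕ → ℕ → ℕ) × (ℕ → ℕ → ℕ)

namespace Dat

/-- The shifts of the current stage. -/
def δ (d : Dat) (c : ℕ) : ℕ := d.sh (3 * (d.j / (d.P.nl + 2)) + c)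

/-- One layer of the computation. -/
def layer (d : Dat) : Dat :=
  if d.j % (d.P.nl + 2) = 0 then { d with j := d.j + 1, X := d.P.aX0 d.dg d.δ d.A d.n }
  else if d.j % (d.P.nl + 2) ≤ d.P.nl then
    { d with j := d.j + 1, X := d.P.nw (d.P.aC d.dg d.δ d.A d.n) d.X }
  else
    { d with
      j := d.j + 1
      A := d.P.newA (d.δ 2) d.A (d.P.aC d.dg d.δ d.A d.n) d.X
      n := d.P.newn d.A d.n (d.P.aK d.dg d.δ d.A d.n) (d.P.aH d.dg d.δ d.A d.n) }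

/-- The scalar entries of the table. -/
def hd (d : Dat) (i : ℕ) : ℕ :=
  if i = 0 then d.P.N else if i = 1 then d.P.Pq else if i = 2 then d.P.Pg else
  if i = 3 then d.P.Q else if i = 4 then d.P.om else if i = 5 then d.P.p else
  if i = 6 then d.P.Pd else if i = 7 then d.P.D else if i = 8 then d.P.K else
  if i = 9 then d.P.e else if i = 10 then d.P.Pe else if i = 11 then d.P.Pf else
  if i = 12 then d.P.nl else if i = 13 then d.P.E3 else if i = 14 then d.j else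
  if i = 15 then d.len else 0

/-- The table of the data. -/
def enc (d : Dat) (k : ℕ) : ℕ :=
  if k % 8 = 0 then d.hd (k / 8) else if k % 8 = 1 then d.dg (k / 8) else
  if k % 8 = 2 then d.sh (k / 8) else if k % 8 = 3 then d.A (k / 8 / d.P.N) (k / 8 % d.P.N) else
  if k % 8 = 4 then d.n (k / 8) else if k % 8 = 5 then d.X.1 (k / 8 / d.P.N) (k / 8 % d.P.N) else
  d.X.2 (k / 8 / d.P.N) (k / 8 % d.P.N)

/-- The data of a table. -/
def dec (T : ℕ → ℕ) : Dat where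
  P := ⟨T 0, T 8, T 16, T 24, T 32, T 40, T 48, T 56, T 64, T 72, T 80, T 88, T 96, T 104⟩
  j := T 112
  len := T 120
  dg i := if i < T 120 then T (8 * i + 1) else 0
  sh i := if i < T 120 then T (8 * i + 2) else 0
  A u v := if u < T 0 ∧ v < T 0 then T (8 * (u * T 0 + v) + 3) else 0
  n v := if v < T 0 then T (8 * v + 4) else 0
  X := (fun u v => if u < T 0 ∧ v < T 0 then T (8 * (u * T 0 + v) + 5) else 0,
    fun u v => if u < T 0 ∧ v < T 0 then T (8 * (u * T 0 + v) + 6) else 0)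

/-- The data fit into a table with cells of `lam` bits. -/
structure Fits (d : Dat) (lam : ℕ) : Prop where
  size : 8 * (16 + d.len + d.P.N * d.P.N) * lam ≤ 2 ^ lam
  hd : ∀ i, d.hd i < 2 ^ lam
  dg : ∀ i, d.dg i < 2 ^ lam ∧ (d.len ≤ i → d.dg i = 0)
  sh : ∀ i, d.sh i < 2 ^ lam ∧ (d.len ≤ i → d.sh i = 0)
  A : ∀ u v, d.A u v < 2 ^ lam ∧ (¬(u < d.P.N ∧ v < d.P.N) → d.A u v = 0)
  n : ∀ v, d.n v < 2 ^ lam ∧ (¬v < d.P.N → d.n v = 0)
  X1 : ∀ u v, d.X.1 u v < 2 ^ lam ∧ (¬(u < d.P.N ∧ v < d.P.N) → d.X.1 u v = 0)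
  X2 : ∀ u v, d.X.2 u v < 2 ^ lam ∧ (¬(u < d.P.N ∧ v < d.P.N) → d.X.2 u v = 0)

end Dat

/-- The transducer on tables. -/
def Phi (T : ℕ → ℕ) : ℕ → ℕ := (Dat.dec T).layer.enc

end Vale.Agent.P313.F43
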