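import Vale.Agent.P313.F43.CanFacts

/-! The canonical stage keeps the invariant and the value, and decreases the potential. -/

namespace Vale.Agent.P313.F43

open Finset Matrix

namespace Par

variable {P : Par} {q g d : ℕ} {s : (ℕ → ℕ → ℕ) × (ℕ → ℕ)} {δ : ℕ → ℕ}

namespace CanP

theorem Bm_cast (hP : P.WF q g d) (A : ℕ → ℕ → ℕ) (u v : ℕ) :
    (P.Bm A u v : ℝ) = A u v * (P.Pg - 1) := by
  rw [Bm, Nat.cast_mul, Nat.cast_sub (Pg_pos hP), Nat.cast_one]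

theorem mat_nonneg (N : ℕ) (A : ℕ → ℕ → ℕ) (e : ℕ) (u v : Fin N) : 0 ≤ mat N A e u v := by
  rw [mat]
  positivity

theorem mat_le (hP : P.WF q g d) {A C : ℕ → ℕ → ℕ} (h : ∀ u v, C u v ≤ P.Bm A u v)
    (u v : Fin P.N) : mat P.N C P.PQ u v ≤ mat P.N A P.Pq u v := by
  have h1 : (0 : ℝ) < P.Pq := by exact_mod_cast Pq_pos hP
  have h2 : (0 : ℝ) < P.Pg := by exact_mod_cast Pg_pos hP
  have h3 : (C u v : ℝ) ≤ P.Bm A u v := by exact_mod_cast h u v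
  rw [Bm_cast hP] at h3
  rw [mat, mat, PQ, Nat.cast_mul, div_le_div_iff₀ (by positivity) h1]
  have h4 : (0 : ℝ) ≤ A u v := by positivity
  nlinarith [mul_le_mul_of_nonneg_right h3 h1.le, mul_nonneg h4 h1.le]

theorem newAC_le (hP : P.WF q g d) (e : ℕ) {A C : ℕ → ℕ → ℕ} (u v : Fin P.N)
    (h : 0 ≤ P.Aex A C u v) : mat P.N (P.newAC e A C) P.Pq u v ≤ P.Aex A C u v := by
  have h1 : (0 : ℝ) < P.Pq := by exact_mod_cast Pq_pos hP
  have h2 : (0 : ℝ) < P.Pg := by exact_mod_cast Pg_pos hP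
  have h3 : (0 : ℝ) < P.Pf := by rw [hP.Pf_eq]; positivity
  rw [mat, newAC, dif_pos ⟨u.2, v.2⟩, div_le_iff₀ h1]
  refine le_trans (Nat.cast_le.2 (Nat.floor_le_floor (b := P.Aex A C u v * P.Pq) ?_))
    (Nat.floor_le (by positivity))
  rw [div_le_iff₀ (by positivity), PQ, Nat.cast_mul]
  have : (0 : ℝ) ≤ 3 * P.E3 * (e + 1) := by positivity
  change _ * P.Aex A C u v - _ ≤ _
  linarith

theorem le_newAC (hP : P.WF q g d) {e : ℕ} (he : e < 2 ^ (q - 2)) {A C : ℕ → ℕ → ℕ}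
    (u v : Fin P.N) : P.Aex A C u v - mat P.N (P.newAC e A C) P.Pq u v ≤ 2 / P.Pq := by
  have h1 : (0 : ℝ) < P.Pq := by exact_mod_cast Pq_pos hP
  have h2 : (0 : ℝ) < P.Pg := by exact_mod_cast Pg_pos hP
  have h3 : (0 : ℝ) < P.Pf := by rw [hP.Pf_eq]; positivity
  have h4 : 3 * P.E3 * (e + 1) ≤ P.Pf * P.Pg := by
    have h5 : 2 ≤ q := by
      have h6 := hP.N_le
      have h7 : 2 ^ (2 * g + 10) ≤ 2 ^ q :=
        le_trans (Nat.le_mul_of_pos_left _ (by have := hP.two_le; omega)) h6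
      have := (Nat.pow_le_pow_iff_right (by norm_num)).1 h7
      omega
    have h8 : P.Pf * P.Pg = P.E3 * (2 ^ (q - 2) * 4) := by
      rw [hP.Pf_eq, hP.Pg_eq, hP.E3_eq, ← pow_add, show 4 = 2 ^ 2 by norm_num, ← pow_add,
        ← pow_add]
      congr 1
      have := hP.q_lt
      omega
    rw [h8]
    nlinarith [Nat.zero_le P.E3]
  have h5 : (3 * P.E3 * (e + 1) : ℝ) ≤ P.Pf * P.Pg := by exact_mod_cast h4
  have h6 := Nat.lt_floor_add_one
    (((P.Pf * P.PQ : ℝ) * P.Aex A C u v - 3 * P.E3 * (e + 1)) / (P.Pf * P.Pg))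
  rw [mat, newAC, dif_pos ⟨u.2, v.2⟩, sub_le_iff_le_add, ← add_div, le_div_iff₀ h1]
  change _ ≤ 2 + (⌊((P.Pf * P.PQ : ℝ) * P.Aex A C u v - _) / _⌋₊ : ℝ)
  generalize ⌊((P.Pf * P.PQ : ℝ) * P.Aex A C u v - _) / _⌋₊ = z at h6 ⊢
  rw [div_lt_iff₀ (by positivity), PQ, Nat.cast_mul] at h6
  refine le_of_mul_le_mul_right ?_ (mul_pos h3 h2)
  linarith

theorem mu_eq (A : ℕ → ℕ → ℕ) (v z : Fin P.N) (hz : (z : ℕ) = 0) :
    P.mu A v = gr (mat P.N A P.Pq) z v := by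
  rw [mu, dif_pos v.2]
  congr 1
  exact Fin.ext hz.symm

theorem dom' (hP : P.WF q g d) (hs : P.Inv s) (z : Fin P.N) (hz : (z : ℕ) = 0) (u v : Fin P.N)
    {c : ℝ} (hc : 0 ≤ c) (h : c ≤ s.1 u v * P.Pg) :
    (P.Pq * P.Pq : ℝ) * gr (mat P.N s.1 P.Pq) z u * c ≤ s.2 u * c := by
  by_cases hu : (u : ℕ) + 1 < P.N
  · rw [← mu_eq _ u z hz]
    exact mul_le_mul_of_nonneg_right (hs.dom u hu) hc
  · have h1 := hs.sub.tri u v (Fin.le_def.2 (by have := v.2; omega))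
    have h2 : (0 : ℝ) < P.Pq := by exact_mod_cast Pq_pos hP
    rw [mat, div_eq_zero_iff, or_iff_left h2.ne'] at h1
    rw [h1, zero_mul] at h
    rw [le_antisymm h hc, mul_zero, mul_zero]

theorem cast_div_PQ (hP : P.WF q g d) {a : ℕ} (h : P.PQ ∣ a) :
    ((a / P.PQ : ℕ) : ℝ) = a / P.PQ :=
  Nat.cast_div h (by exact_mod_cast (PQ_pos hP).ne')

theorem cast_div_Pg (hP : P.WF q g d) {a : ℕ} (h : P.PQ ∣ a) :
    ((a / P.Pg : ℕ) : ℝ) = a / P.Pg :=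
  Nat.cast_div ((Dvd.intro_left _ rfl).trans h) (by exact_mod_cast (Pg_pos hP).ne')

theorem k_last (A : ℕ → ℕ → ℕ) (n : ℕ → ℕ) {v : ℕ} (hv : v + 1 = P.N) : P.cK δ A n v = true := by
  simp [cK, k1, k0, hv]

/-- the exact next matrix is dominated at the light vertices -/
theorem dom_light (hP : P.WF q g d) (hs : P.Inv s) (z : Fin P.N) (hz : (z : ℕ) = 0) (v : Fin P.N)
    (hv : (v : ℕ) + 1 < P.N) (hv0 : (v : ℕ) ≠ 0) :
    (P.Pq * P.Pq : ℝ) * gr (P.Aex s.1 (P.cC δ s.1 s.2)) z v ≤ ((s.2 v / P.Pg +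
      ∑ u ∈ range P.N, P.cH δ s.1 s.2 u / P.PQ * (P.Bm s.1 u v - P.cC δ s.1 s.2 u v) : ℕ) : ℝ) := by
  obtain ⟨f1, -, -, f4⟩ := hP.cH_facts (δ := δ) hs
  have h1 : (0 : ℝ) < P.Pq := by exact_mod_cast Pq_pos hP
  have h2 : (0 : ℝ) < P.Pg := by exact_mod_cast Pg_pos hP
  have hz' : z ≠ v := fun e => hv0 (e ▸ hz)
  have h3 := hs.sub.gr_row z v
  rw [if_neg hz', zero_add] at h3
  have h4 := hs.dom v hv
  rw [mu_eq _ v z hz] at h4
  rw [Aex, (hs.sub.next (mat_nonneg _ _ _) (mat_le hP f4)).2, mul_sub, mul_one, Matrix.sub_apply,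
    mul_apply, Nat.cast_add, cast_div_Pg hP (dvd_n hP hs v.2), Nat.cast_sum,
    ← Fin.sum_univ_eq_sum_range (fun u => ((P.cH δ s.1 s.2 u / P.PQ *
      (P.Bm s.1 u v - P.cC δ s.1 s.2 u v) : ℕ) : ℝ))]
  have h5 : ∀ u : Fin P.N, (P.Pq * P.Pq : ℝ) * (gr (mat P.N s.1 P.Pq) z u *
      (mat P.N s.1 P.Pq u v * (1 - 1 / P.Pg) - mat P.N (P.cC δ s.1 s.2) P.PQ u v)) ≤
      ((P.cH δ s.1 s.2 u / P.PQ * (P.Bm s.1 u v - P.cC δ s.1 s.2 u v) : ℕ) : ℝ) := by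
    intro u
    have e1 : (P.cC δ s.1 s.2 u v : ℝ) ≤ P.Bm s.1 u v := by exact_mod_cast f4 u v
    have e2 : (s.2 u : ℝ) ≤ P.cH δ s.1 s.2 u := by exact_mod_cast (f1 u u.2).2.1
    have e3 : (0 : ℝ) ≤ P.cC δ s.1 s.2 u v := by positivity
    have e4 : (0 : ℝ) ≤ s.1 u v := by positivity
    have e5 := dom' hP hs z hz u v (sub_nonneg.2 e1) (by rw [Bm_cast hP]; linarith)
    have e6 := mul_le_mul_of_nonneg_right e2 (sub_nonneg.2 e1)
    rw [Nat.cast_mul, cast_div_PQ hP (f1 u u.2).1, Nat.cast_sub (f4 u v), div_mul_eq_mul_div,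
      le_div_iff₀ (by exact_mod_cast PQ_pos hP)]
    refine le_trans (le_of_eq ?_) (e5.trans e6)
    rw [mat, mat, Bm_cast hP, PQ, Nat.cast_mul]
    field_simp
  have h6 := sum_le_sum fun u (_ : u ∈ univ) => h5 u
  rw [← mul_sum] at h6
  simp only [mul_sub, sum_sub_distrib, ← mul_assoc, ← sum_mul, mul_one, ← h3] at h6
  have h7 : (P.Pq * P.Pq : ℝ) * gr (mat P.N s.1 P.Pq) z v * (1 / P.Pg) ≤ s.2 v / P.Pg := by
    rw [mul_one_div]
    exact div_le_div_of_nonneg_right h4 h2.le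
  rw [mul_sub]
  linarith

theorem newn_le (A : ℕ → ℕ → ℕ) (n : ℕ → ℕ) (k : ℕ → Bool) (nh : ℕ → ℕ) (v : ℕ) :
    P.newn A n k nh v ≤ n v := by
  rw [newn]
  split_ifs
  · exact le_rfl
  · exact min_le_left _ _
  · exact Nat.zero_le _

theorem tot_le_pot (hP : P.WF q g d) (hs : P.Inv s) :
    P.tot s.2 ≤ P.pot s.2 + 2 * (P.Pq * P.Pq) := by
  have h2 := hP.two_le
  have h1 : ∀ v ∈ range P.N, s.2 v ≤ (if v = 0 ∨ v + 1 = P.N then 0 else s.2 v) +
      ((if 0 = v then P.Pq * P.Pq else 0) + if P.N - 1 = v then P.Pq * P.Pq else 0) := by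
    intro v hv
    have := hs.le v (mem_range.1 hv)
    split_ifs <;> omega
  refine (sum_le_sum h1).trans ?_
  rw [sum_add_distrib, sum_add_distrib, sum_ite_eq, sum_ite_eq, pot, if_pos (mem_range.2 (by omega)),
    if_pos (mem_range.2 (by omega))]
  omega

theorem inf_cast (hP : P.WF q g d) (A : ℕ → ℕ → ℕ) {n : ℕ → ℕ} (hn : ∀ v < P.N, P.PQ ∣ n v)
    (v : ℕ) : (P.inf A n v : ℝ) = ∑ u : Fin P.N, (n u : ℝ) * (P.Bm A u v / P.PQ) := by
  rw [inf, Nat.cast_sum, ← Fin.sum_univ_eq_sum_range fun u => ((n u / P.PQ * P.Bm A u v : ℕ) : ℝ)]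
  refine sum_congr rfl fun u _ => ?_
  rw [Nat.cast_mul, cast_div_PQ hP (hn u u.2)]
  ring

theorem sum_inf (hP : P.WF q g d) (hs : P.Inv s) :
    ∑ v ∈ range P.N, P.inf s.1 s.2 v ≤ P.tot s.2 := by
  simp only [inf]
  rw [sum_comm, tot]
  refine sum_le_sum fun u hu => ?_
  rw [← mul_sum]
  exact (Nat.mul_le_mul_left _ ((row_B hP hs (mem_range.1 hu)).trans (Nat.sub_le _ _))).trans
    (Nat.div_mul_le_self _ _)

theorem sum_occC (hP : P.WF q g d) (e : ℕ) (A : ℕ → ℕ → ℕ) (n : ℕ → ℕ) (k : ℕ → Bool) :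
    ∑ v ∈ range P.N, P.occC e A n k v ≤ P.M * P.tot n := by
  have h := (sum_le_sum fun v (_ : v ∈ range P.N) => occC_le hP e A n k v).trans
    (sum_occV hP.prime.pos A n k)
  exact_mod_cast h

/-- the heavy vertices have few names -/
theorem sum_heavy (hP : P.WF q g d) (hs : P.Inv s) :
    P.Pg * ∑ v ∈ range P.N, (if P.cK δ s.1 s.2 v = true ∧ v + 1 ≠ P.N then s.2 v else 0) ≤
      2 * P.tot s.2 := by
  have h1 : ∀ v ∈ range P.N, P.R * (if P.cK δ s.1 s.2 v = true ∧ v + 1 ≠ P.N then s.2 v else 0) ≤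
      P.inf s.1 s.2 v + P.occC (δ 0) s.1 s.2 (P.k0 s.1 s.2) v := by
    intro v _
    split_ifs with h
    · have h2 := h.1
      simp only [cK, k1, k0, Bool.or_eq_true, decide_eq_true_eq] at h2
      have := h.2
      omega
    · exact Nat.zero_le _
  have h2 := sum_le_sum h1
  rw [← mul_sum, sum_add_distrib] at h2
  have h3 := sum_inf hP hs
  have h4 := sum_occC hP (δ 0) s.1 s.2 (P.k0 s.1 s.2)
  have h5 : 0 < P.M := Nat.mul_pos (Pg_pos hP) (Pg_pos hP)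
  have h6 := Nat.mul_le_mul_right (P.tot s.2) h5
  refine Nat.le_of_mul_le_mul_left ?_ h5
  rw [← mul_assoc]
  change P.R * _ ≤ _
  linarith

/-- the overflow at a light vertex -/
theorem ovf_le (A : ℕ → ℕ → ℕ) {k : ℕ → Bool} (nh : ℕ → ℕ) {v : ℕ} (hk : ¬k v = true) :
    ∑ u ∈ range P.N, nh u / P.PQ * (P.Bm A u v - P.Cm A k nh u v) ≤
      (P.inf A nh v - nh v) + ∑ u ∈ range P.N, nh u / P.PQ := by
  simp only [Cm, if_neg hk]
  split_ifs with h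
  · simp
  have h0 : 0 < P.inf A nh v := Nat.zero_lt_of_lt (not_le.1 h)
  refine Nat.le_of_mul_le_mul_left ?_ h0
  have h1 : ∀ u ∈ range P.N, P.inf A nh v * (nh u / P.PQ *
      (P.Bm A u v - P.Bm A u v * nh v / P.inf A nh v)) ≤
      nh u / P.PQ * P.Bm A u v * (P.inf A nh v - nh v) + P.inf A nh v * (nh u / P.PQ) := by
    intro u _
    rw [mul_left_comm, mul_assoc, mul_comm (P.inf A nh v) (nh u / P.PQ), ← mul_add]
    refine Nat.mul_le_mul_left _ ?_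
    have h2 := Nat.lt_mul_div_succ (P.Bm A u v * nh v) h0
    rw [Nat.mul_sub, Nat.mul_sub, mul_comm (P.Bm A u v) (P.inf A nh v)]
    rw [mul_add] at h2
    omega
  rw [mul_sum, mul_add]
  refine (sum_le_sum h1).trans (le_of_eq ?_)
  rw [sum_add_distrib, ← sum_mul, ← mul_sum]
  rfl

theorem sum_vecMul_le {N : ℕ} {B : Matrix (Fin N) (Fin N) ℝ} {r : ℝ} (h0 : ∀ u v, 0 ≤ B u v)
    (hr : ∀ u, ∑ v, B u v ≤ r) (x : Fin N → ℝ) : ∑ v, |(x ᵥ* B) v| ≤ r * ∑ u, |x u| := by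
  have h1 : ∀ v, |(x ᵥ* B) v| ≤ ∑ u, |x u| * B u v := fun v => by
    rw [vecMul, dotProduct]
    refine (abs_sum_le_sum_abs _ _).trans (le_of_eq (sum_congr rfl fun u _ => ?_))
    rw [abs_mul, abs_of_nonneg (h0 u v)]
  refine (sum_le_sum fun v _ => h1 v).trans ?_
  rw [sum_comm, mul_sum]
  refine sum_le_sum fun u _ => ?_
  rw [← mul_sum, mul_comm r]
  exact mul_le_mul_of_nonneg_left (hr u) (abs_nonneg _)

theorem sum_vecMul_pow_le {N : ℕ} {B : Matrix (Fin N) (Fin N) ℝ} {r : ℝ} (hr0 : 0 ≤ r)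
    (h0 : ∀ u v, 0 ≤ B u v) (hr : ∀ u, ∑ v, B u v ≤ r) (x : Fin N → ℝ) (t : ℕ) :
    ∑ v, |(x ᵥ* B ^ t) v| ≤ r ^ t * ∑ u, |x u| := by
  induction t with
  | zero => simp
  | succ t ih =>
    rw [pow_succ, ← vecMul_vecMul, pow_succ', mul_assoc]
    exact (sum_vecMul_le h0 hr _).trans (mul_le_mul_of_nonneg_left ih hr0)

theorem damp_le {G : ℝ} (hG : 1 ≤ G) {M : ℕ} (hM : G * G ≤ M) : (1 - 1 / G) ^ M ≤ 1 / G := by
  have h0 : 0 < G := by linarith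
  have h1 : 0 ≤ 1 - 1 / G := by rw [sub_nonneg, div_le_one h0]; exact hG
  have h2 : 1 + M * (1 / G) ≤ (1 + 1 / G) ^ M := one_add_mul_le_pow (by
    have : 0 < 1 / G := by positivity
    linarith) M
  have h3 : (1 - 1 / G) ^ M * (1 + 1 / G) ^ M ≤ 1 := by
    rw [← mul_pow]
    refine pow_le_one₀ (by positivity) ?_
    nlinarith [sq_nonneg (1 / G)]
  have h4 : G ≤ 1 + M * (1 / G) := by
    rw [mul_one_div]
    have := (le_div_iff₀ h0).2 hM
    linarith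
  rw [le_div_iff₀ h0]
  exact (mul_le_mul_of_nonneg_left (h4.trans h2) (pow_nonneg h1 M)).trans h3

/-- the excess of the inflow over the capacities at the light vertices -/
theorem sum_excess (hP : P.WF q g d) (hs : P.Inv s) (hδ : δ 1 < 2 ^ (q - 2))
    (h : ∑ v : Fin P.N, |P.occV s.1 s.2 (P.cK δ s.1 s.2) v -
      ∑ t ∈ range P.M, ((fun u : Fin P.N => (s.2 u : ℝ)) ᵥ* mat P.N
        (fun u v => if P.cK δ s.1 s.2 v = true then 0 else P.Bm s.1 u v) P.PQ ^ (t + 1)) v| ≤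
      2 * (P.tot s.2 : ℝ) / P.Pg) :
    ((∑ v ∈ range P.N, if P.cK δ s.1 s.2 v = true then 0 else
      (P.inf s.1 (P.cH δ s.1 s.2) v - P.cH δ s.1 s.2 v) : ℕ) : ℝ) ≤
      5 * (P.tot s.2 : ℝ) / P.Pg + 4 * (P.N * P.PQ) := by
  obtain ⟨f1, -, -, -⟩ := hP.cH_facts (δ := δ) hs
  have p1 : (0 : ℝ) < P.Pq := by exact_mod_cast Pq_pos hP
  have p2 : (1 : ℝ) ≤ P.Pg := by exact_mod_cast Pg_pos hP
  have p3 : (0 : ℝ) < P.PQ := by exact_mod_cast PQ_pos hP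
  set B := mat P.N (fun u v => if P.cK δ s.1 s.2 v = true then 0 else P.Bm s.1 u v) P.PQ with hB
  set x : Fin P.N → ℝ := fun u => (s.2 u : ℝ) with hx
  have b0 : ∀ u v, 0 ≤ B u v := mat_nonneg _ _ _
  have b1 : ∀ u, ∑ v, B u v ≤ 1 - 1 / P.Pg := fun u => by
    have e1 : ∑ v ∈ range P.N, (if P.cK δ s.1 s.2 v = true then 0 else P.Bm s.1 u v) ≤
        P.PQ - P.Pq := (sum_le_sum fun v _ => by split_ifs <;> simp).trans (row_B hP hs u.2)
    have e2 := (Nat.cast_le (α := ℝ)).2 e1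
    rw [Nat.cast_sub (show P.Pq ≤ P.PQ from Nat.le_mul_of_pos_right _ (Pg_pos hP)), Nat.cast_sum,
      ← Fin.sum_univ_eq_sum_range
        fun v => ((if P.cK δ s.1 s.2 v = true then 0 else P.Bm s.1 u v : ℕ) : ℝ)] at e2
    simp only [hB, mat]
    rw [← sum_div, div_le_iff₀ p3]
    refine e2.trans (le_of_eq ?_)
    rw [PQ, Nat.cast_mul]
    field_simp
  have b2 : 0 ≤ 1 - 1 / (P.Pg : ℝ) := by rw [sub_nonneg, div_le_one (by linarith)]; exact p2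
  have b3 : ∀ u, ∑ v, B u v ≤ 1 := fun u => (b1 u).trans (sub_le_self _ (by positivity))
  set y : Fin P.N → ℝ := ∑ t ∈ range P.M, x ᵥ* B ^ (t + 1) with hy
  set e : Fin P.N → ℝ := fun v => P.occC (δ 1) s.1 s.2 (P.cK δ s.1 s.2) v - y v with he
  have e1 : ∑ v, |e v| ≤ 2 * (P.tot s.2 : ℝ) / P.Pg + 2 * (P.N * P.PQ) := by
    have e2 : ∀ v : Fin P.N, |e v| ≤ |P.occV s.1 s.2 (P.cK δ s.1 s.2) v - y v| + 2 * P.PQ := by
      intro v
      have a1 := occC_le hP (δ 1) s.1 s.2 (P.cK δ s.1 s.2) v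
      have a2 := le_occC hP hδ s.1 s.2 (P.cK δ s.1 s.2) v
      have a3 := le_abs_self (P.occV s.1 s.2 (P.cK δ s.1 s.2) v - y v)
      have a4 := neg_abs_le (P.occV s.1 s.2 (P.cK δ s.1 s.2) v - y v)
      rw [abs_le]
      simp only [he]
      constructor <;> linarith
    refine (sum_le_sum fun v _ => e2 v).trans ?_
    simp only [hy, Finset.sum_apply]
    rw [sum_add_distrib]
    refine add_le_add h (le_of_eq ?_)
    simp only [sum_const, card_univ, Fintype.card_fin, nsmul_eq_mul]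
    ring
  have e3 : (x + y) ᵥ* B = y + x ᵥ* B ^ (P.M + 1) := by
    rw [hy, add_vecMul, sum_vecMul, ← sum_range_succ fun t => x ᵥ* B ^ (t + 1), sum_range_succ',
      add_comm]
    simp only [vecMul_vecMul, ← pow_succ, zero_add, pow_one]
  have e4 : ∀ v : Fin P.N, ((if P.cK δ s.1 s.2 v = true then 0 else
      (P.inf s.1 (P.cH δ s.1 s.2) v - P.cH δ s.1 s.2 v) : ℕ) : ℝ) ≤
      |(x ᵥ* B ^ (P.M + 1)) v| + (|(e ᵥ* B) v| + |e v|) := by
    intro v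
    split_ifs with hk
    · rw [Nat.cast_zero]
      positivity
    rcases le_total (P.inf s.1 (P.cH δ s.1 s.2) v) (P.cH δ s.1 s.2 v) with a0 | a0
    · rw [Nat.sub_eq_zero_of_le a0, Nat.cast_zero]
      positivity
    have a1 : ∀ u : Fin P.N, (P.cH δ s.1 s.2 u : ℝ) = (x + y + e) u := fun u => by
      simp only [cH, Nat.cast_add, Pi.add_apply, he, hx]
      ring
    have a2 : (P.inf s.1 (P.cH δ s.1 s.2) v : ℝ) = ((x + y + e) ᵥ* B) v := by
      rw [inf_cast hP _ fun v hv => (f1 v hv).1, vecMul, dotProduct]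
      refine sum_congr rfl fun u _ => ?_
      rw [a1, hB, mat, if_neg hk]
    rw [Nat.cast_sub a0, a1, a2, add_vecMul, e3]
    have a3 := le_abs_self ((x ᵥ* B ^ (P.M + 1)) v)
    have a4 := le_abs_self ((e ᵥ* B) v)
    have a5 := neg_abs_le (e v)
    have a6 : 0 ≤ x v := Nat.cast_nonneg _
    simp only [Pi.add_apply]
    linarith
  rw [Nat.cast_sum, ← Fin.sum_univ_eq_sum_range fun v => ((if P.cK δ s.1 s.2 v = true then 0 else
    (P.inf s.1 (P.cH δ s.1 s.2) v - P.cH δ s.1 s.2 v) : ℕ) : ℝ)]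
  refine (sum_le_sum fun v _ => e4 v).trans ?_
  rw [sum_add_distrib, sum_add_distrib]
  have e5 := sum_vecMul_le b0 b3 e
  have e6 := sum_vecMul_pow_le b2 b0 b1 x (P.M + 1)
  have e7 : ∑ u, |x u| = P.tot s.2 := by
    rw [tot, Nat.cast_sum, ← Fin.sum_univ_eq_sum_range fun v => (s.2 v : ℝ)]
    exact sum_congr rfl fun u _ => abs_of_nonneg (Nat.cast_nonneg _)
  have e8 := damp_le p2 (M := P.M + 1) (by rw [M]; push_cast; linarith)
  have e9 := mul_le_mul_of_nonneg_right e8 (Nat.cast_nonneg (α := ℝ) (P.tot s.2))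
  rw [e7] at e6
  have e10 : 1 / (P.Pg : ℝ) * P.tot s.2 = P.tot s.2 / P.Pg := by ring
  rw [mul_div_assoc] at e1 ⊢
  linarith

theorem pot_le (hP : P.WF q g d) (hs : P.Inv s) (hδ : δ 1 < 2 ^ (q - 2))
    (h : ∑ v : Fin P.N, |P.occV s.1 s.2 (P.cK δ s.1 s.2) v -
      ∑ t ∈ range P.M, ((fun u : Fin P.N => (s.2 u : ℝ)) ᵥ* mat P.N
        (fun u v => if P.cK δ s.1 s.2 v = true then 0 else P.Bm s.1 u v) P.PQ ^ (t + 1)) v| ≤
      2 * (P.tot s.2 : ℝ) / P.Pg) :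
    (P.pot (P.stageC δ s).2 : ℝ) ≤ 32 / P.Pg * (P.pot s.2 + 2 * (P.Pq * P.Pq)) := by
  have p1 : (0 : ℝ) < P.Pq := by exact_mod_cast Pq_pos hP
  have p2 : (1 : ℝ) ≤ P.Pg := by exact_mod_cast Pg_pos hP
  have p3 : (0 : ℝ) < P.Pg := by linarith
  have h2 := hP.two_le
  obtain ⟨U, hU⟩ : ∃ U, U = ∑ u ∈ range P.N, P.cH δ s.1 s.2 u / P.PQ := ⟨_, rfl⟩
  have a1 : ∀ v ∈ range P.N, (if v = 0 ∨ v + 1 = P.N then 0 else (P.stageC δ s).2 v) ≤
      (if P.cK δ s.1 s.2 v = true ∧ v + 1 ≠ P.N then s.2 v else 0) +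
      2 * (P.PQ + U + s.2 v / P.Pg + if P.cK δ s.1 s.2 v = true then 0 else
        (P.inf s.1 (P.cH δ s.1 s.2) v - P.cH δ s.1 s.2 v)) := by
    intro v hv
    by_cases b1 : v = 0 ∨ v + 1 = P.N
    · rw [if_pos b1]
      exact Nat.zero_le _
    rw [if_neg b1]
    by_cases hk : P.cK δ s.1 s.2 v = true
    · rw [if_pos ⟨hk, fun e => b1 (Or.inr e)⟩]
      exact (newn_le _ _ _ _ v).trans (Nat.le_add_right _ _)
    have b2 := ovf_le (P := P) s.1 (P.cH δ s.1 s.2) hk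
    simp only [stageC, newn, if_pos (mem_range.1 hv)]
    rw [if_neg (fun e => e.elim hk fun e => b1 (Or.inl e)), if_neg hk, if_neg fun e => hk e.1,
      zero_add]
    refine (min_le_right _ _).trans ?_
    rw [pow_succ']
    refine Nat.mul_le_mul_left 2 ((Nat.pow_log_le_self 2 ?_).trans ?_)
    · exact (Nat.add_pos_left (Nat.add_pos_left (PQ_pos hP) _) _).ne'
    · omega
  have a2 := sum_le_sum a1
  rw [sum_add_distrib, ← mul_sum, sum_add_distrib, sum_add_distrib, sum_const, card_range,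
    smul_eq_mul] at a2
  have a3 := sum_heavy (δ := δ) hP hs
  have a4 := sum_excess hP hs hδ h
  have a5 : P.Pg * ∑ v ∈ range P.N, s.2 v / P.Pg ≤ P.tot s.2 := by
    rw [mul_sum]
    exact sum_le_sum fun v _ => Nat.mul_div_le _ _
  have a6 : P.PQ * U ≤ P.tot s.2 + P.M * P.tot s.2 := by
    rw [hU, mul_sum]
    refine (sum_le_sum fun v _ => Nat.mul_div_le _ _).trans ?_
    simp only [cH]
    rw [sum_add_distrib]
    exact Nat.add_le_add_left (sum_occC hP _ _ _ _) _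
  have a7 : P.Pq * P.Pq ≤ P.tot s.2 := by
    rw [← hs.zero]
    exact single_le_sum (f := s.2) (fun _ _ => Nat.zero_le _) (mem_range.2 (by omega))
  have a8 := NM_le hP
  have a9 : P.Pg * (P.N * P.PQ) * 1024 ≤ P.tot s.2 := by
    refine le_trans (le_of_eq ?_) ((Nat.mul_le_mul_right P.Pq a8).trans a7)
    rw [PQ, M]
    ring
  have a10 : P.Pg * (P.N * U) ≤ P.tot s.2 := by
    refine Nat.le_of_mul_le_mul_left ?_ (Pq_pos hP)
    have c1 := Nat.mul_le_mul_left P.N a6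
    have c2 := Nat.mul_le_mul_right (P.tot s.2) a8
    have c3 := Nat.mul_le_mul_right (P.N * P.tot s.2) (Nat.mul_pos (Pg_pos hP) (Pg_pos hP))
    rw [PQ] at c1
    change _ ≤ P.M * _ at c3
    nlinarith [Nat.zero_le (P.N * P.M * P.tot s.2)]
  have a11 := tot_le_pot hP hs
  rw [div_mul_eq_mul_div, le_div_iff₀' p3]
  rw [← sub_le_iff_le_add, le_div_iff₀' p3] at a4
  have c2 := mul_le_mul_of_nonneg_left ((Nat.cast_le (α := ℝ)).2 a2) p3.le
  have c3 := (Nat.cast_le (α := ℝ)).2 a3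
  have c5 := (Nat.cast_le (α := ℝ)).2 a5
  have c9 := (Nat.cast_le (α := ℝ)).2 a9
  have c10 := (Nat.cast_le (α := ℝ)).2 a10
  have c11 := (Nat.cast_le (α := ℝ)).2 a11
  have c0 : (0 : ℝ) ≤ P.tot s.2 := Nat.cast_nonneg _
  simp only [Nat.cast_add, Nat.cast_mul, Nat.cast_ofNat] at c2 c3 c5 c9 c10 c11
  rw [pot]
  linarith

end CanP

open CanP

theorem WF.stageC_inv (hP : P.WF q g d) (hs : P.Inv s) (hδ : ∀ c < 3, δ c < 2 ^ (q - 2)) :
    P.Inv (P.stageC δ s) ∧ P.mu (P.stageC δ s).1 (P.N - 1) ≤ P.mu s.1 (P.N - 1) ∧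
      P.mu s.1 (P.N - 1) - 2 * (P.N : ℝ) ^ 2 / P.Pq ≤ P.mu (P.stageC δ s).1 (P.N - 1) := by
  obtain ⟨f1, -, -, f4⟩ := hP.cH_facts (δ := δ) hs
  obtain ⟨g1, g2⟩ := hs.sub.next (mat_nonneg _ _ _) (mat_le hP f4)
  have g3 := fun u v => newAC_le hP (δ 2) (A := s.1) (C := P.cC δ s.1 s.2) u v (g1.nonneg u v)
  have g4 := g1.gr_mono (mat_nonneg _ _ _) g3
  have g5 := g1.gr_sub_le (mat_nonneg _ _ _) g3 (le_newAC hP (hδ 2 (by norm_num)))
  have h2 := hP.two_le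
  let z : Fin P.N := ⟨0, by omega⟩
  let l : Fin P.N := ⟨P.N - 1, by omega⟩
  have g6 : ∀ v, gr (P.Aex s.1 (P.cC δ s.1 s.2)) z v = gr (mat P.N s.1 P.Pq) z v -
      ∑ u, gr (mat P.N s.1 P.Pq) z u * mat P.N (P.cC δ s.1 s.2) P.PQ u v := fun v => by
    rw [Aex, g2, mul_sub, mul_one, Matrix.sub_apply, mul_apply]
  have g7 : gr (P.Aex s.1 (P.cC δ s.1 s.2)) z l = gr (mat P.N s.1 P.Pq) z l := by
    rw [g6, sum_eq_zero, sub_zero]
    intro u _
    rw [mat, cC, Cm, if_pos (k_last _ _ (by simp only [l]; omega)), Nat.cast_zero, zero_div, mul_zero]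
  refine ⟨⟨g1.mono (mat_nonneg _ _ _) g3, fun u v h => dif_neg h, fun v h => if_neg h,
    fun v hv => ?_, fun v hv => ?_, fun v hv => (newn_le _ _ _ _ v).trans (hs.le v hv), ?_,
    fun v hv => ?_⟩, ?_, ?_⟩
  · obtain ⟨w, hw⟩ := hs.pow v hv
    simp only [stageC, newn, if_pos hv]
    split_ifs
    · exact ⟨w, hw⟩
    · rcases min_choice (s.2 v) (2 ^ _) with h | h <;> rw [h]
      exacts [⟨w, hw⟩, ⟨_, rfl⟩]
  · simp only [stageC, newn, if_pos hv]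
    split_ifs
    · exact hs.ge v hv
    · exact le_min (hs.ge v hv) (le_trans ((Nat.le_add_right _ _).trans (Nat.le_add_right _ _))
        (Nat.lt_pow_succ_log_self (by norm_num) _).le)
  · simp only [stageC, newn, if_pos (show 0 < P.N by omega), or_true, if_true]
    exact hs.zero
  · have hv' : v < P.N := by omega
    have e0 : (0 : ℝ) ≤ P.Pq * P.Pq := by positivity
    have e1 := mul_le_mul_of_nonneg_left (g4 z ⟨v, hv'⟩) e0
    have e2 : gr (P.Aex s.1 (P.cC δ s.1 s.2)) z ⟨v, hv'⟩ ≤ gr (mat P.N s.1 P.Pq) z ⟨v, hv'⟩ := by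
      rw [g6]
      exact sub_le_self _ (sum_nonneg fun u _ =>
        mul_nonneg (hs.sub.gr_nonneg _ _) (mat_nonneg _ _ _ _ _))
    have e3 := hs.dom v hv
    rw [mu_eq _ ⟨v, hv'⟩ z rfl] at e3
    have e4 := (mul_le_mul_of_nonneg_left e2 e0).trans e3
    rw [mu_eq _ ⟨v, hv'⟩ z rfl]
    refine e1.trans ?_
    simp only [stageC, newn, if_pos hv']
    split_ifs with h
    · exact e4
    · rw [Nat.cast_min]
      refine le_min e4 ((dom_light hP hs z rfl ⟨v, hv'⟩ hv fun e => h (Or.inr e)).trans ?_)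
      refine Nat.cast_le.2 (le_trans ?_ (Nat.lt_pow_succ_log_self (by norm_num) _).le)
      simp only [cC]
      omega
  · rw [mu_eq _ l z rfl, mu_eq _ l z rfl, ← g7]
    exact g4 z l
  · rw [mu_eq _ l z rfl, mu_eq _ l z rfl, ← g7]
    have e1 := g5 z l
    have e2 : (P.N : ℝ) ^ 2 * (2 / P.Pq) = 2 * (P.N : ℝ) ^ 2 / P.Pq := by ring
    rw [e2] at e1
    exact sub_le_comm.1 e1

theorem WF.mu_approx (hP : P.WF q g d) (hs : P.Inv s) :
    (s.1 0 (P.N - 1) : ℝ) / P.Pq ≤ P.mu s.1 (P.N - 1) ∧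
      P.mu s.1 (P.N - 1) ≤ (s.1 0 (P.N - 1) : ℝ) / P.Pq + P.pot s.2 / (P.Pq * P.Pq) := by
  have h2 := hP.two_le
  have h1 : (0 : ℝ) < P.Pq := by exact_mod_cast Pq_pos hP
  let z : Fin P.N := ⟨0, by omega⟩
  let l : Fin P.N := ⟨P.N - 1, by omega⟩
  have h3 : z ≠ l := fun e => by have := congrArg Fin.val e; simp only [z, l] at this; omega
  rw [mu_eq _ l z rfl, hs.sub.gr_row, if_neg h3, zero_add, ← add_sum_erase _ _ (mem_univ z),
    hs.sub.gr_diag, one_mul]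
  refine ⟨le_add_of_nonneg_right (sum_nonneg fun u _ =>
    mul_nonneg (hs.sub.gr_nonneg _ _) (hs.sub.nonneg _ _)), add_le_add le_rfl ?_⟩
  rw [pot, Nat.cast_sum, ← Fin.sum_univ_eq_sum_range
    (fun v => ((if v = 0 ∨ v + 1 = P.N then 0 else s.2 v : ℕ) : ℝ)), sum_div]
  refine le_trans (sum_le_sum fun u hu => ?_) (sum_le_sum_of_subset_of_nonneg (erase_subset z _)
    fun _ _ _ => by positivity)
  have h4 : (u : ℕ) ≠ 0 := fun e => (mem_erase.1 hu).1 (Fin.ext e)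
  by_cases h5 : (u : ℕ) + 1 = P.N
  · rw [hs.sub.tri u l (Fin.le_def.2 (by simp only [l]; omega)), mul_zero]
    positivity
  · have h6 := hs.dom u (by have := u.2; omega)
    rw [mu_eq _ u z rfl] at h6
    rw [if_neg (by omega), le_div_iff₀' (by positivity)]
    refine le_trans (mul_le_mul_of_nonneg_left (mul_le_of_le_one_right (hs.sub.gr_nonneg _ _) ?_)
      (by positivity)) h6
    exact (single_le_sum (fun v _ => hs.sub.nonneg u v) (mem_univ l)).trans (hs.sub.row u)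

end Par

end Vale.Agent.P313.F43
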