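import Mathlib

/-! The abstract generator: a program whose labels are recycled by hash functions. -/

namespace Vale.Agent.P313.F43

open Finset

/-- A program with states `X`, extended states `Y` and labels in `ZMod p`. -/
structure Prog (X Y : Type) (p : ℕ) where
  /-- one step at a given time -/
  step : ℕ → X → ZMod p → Y × ZMod p
  /-- forget the part of the extended state which is dropped -/
  pi : Y → X
  /-- fingerprints -/
  fp : ZMod p → Y → ZMod p
  /-- valid states at a given time -/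
  S : ℕ → Finset X
  /-- valid extended states at a given time -/
  SY : ℕ → Finset Y

/-- The seed of one level. -/
abbrev Sd (p : ℕ) : Type := Fin 6 → ZMod p

variable {X Y : Type} {p : ℕ}

namespace Prog

/-- The program is well formed up to the time `H`, fingerprints collide for at most `D` points. -/
structure WF (P : Prog X Y p) (H D : ℕ) : Prop where
  mem : ∀ τ < H, ∀ x ∈ P.S τ, ∀ i, (P.step τ x i).1 ∈ P.SY (τ + 1)
  inj : ∀ τ < H, ∀ x ∈ P.S τ, ∀ x' ∈ P.S τ, ∀ i i', P.step τ x i = P.step τ x' i' →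
    x = x' ∧ i = i'
  pi_mem : ∀ τ ≤ H, ∀ y ∈ P.SY τ, P.pi y ∈ P.S τ
  fp_card : ∀ τ ≤ H, ∀ y ∈ P.SY τ, ∀ y' ∈ P.SY τ, y ≠ y' →
    Nat.card {γ : ZMod p // P.fp γ y = P.fp γ y'} ≤ D

/-- The new label. -/
def hash (P : Prog X Y p) (s : Sd p) (y : Y) (d : ZMod p) : ZMod p :=
  s 0 + (if s 1 = 0 then 1 else s 1) * d + s 2 * P.fp (s 3) y + s 4 * P.fp (s 5) y

/-- `2 ^ k` steps from the time `τ` on. -/
def node (P : Prog X Y p) : (k : ℕ) → (Fin k → Sd p) → ℕ → X → ZMod p → Y × ZMod p
  | 0, _, τ, x, i => P.step τ x i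
  | k + 1, h, τ, x, i =>
    node P k (Fin.init h) (τ + 2 ^ k) (P.pi (node P k (Fin.init h) τ x i).1)
      (P.hash (h (Fin.last k)) (node P k (Fin.init h) τ x i).1 (node P k (Fin.init h) τ x i).2)

variable [NeZero p] [DecidableEq X]

/-- One step with a fresh label, on measures. -/
noncomputable def push (P : Prog X Y p) (τ : ℕ) (ν : X → ℝ) (z : X) : ℝ :=
  ∑ x ∈ P.S τ, ∑ i : ZMod p, if P.pi (P.step τ x i).1 = z then ν x / p else 0

/-- `n` steps with fresh labels from the time `τ` on. -/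
noncomputable def ideal (P : Prog X Y p) (τ : ℕ) (ν : X → ℝ) : ℕ → X → ℝ
  | 0 => ν
  | n + 1 => P.push (τ + n) (ideal P τ ν n)

/-- `2 ^ k` steps with recycled labels from the time `τ` on, on measures. -/
noncomputable def act (P : Prog X Y p) (k : ℕ) (h : Fin k → Sd p) (τ : ℕ) (ν : X → ℝ) (z : X) :
    ℝ :=
  ∑ x ∈ P.S τ, ∑ i : ZMod p, if P.pi (P.node k h τ x i).1 = z then ν x / p else 0

end Prog

end Vale.Agent.P313.F43
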