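import Mathlib

/-! Acyclic substochastic matrices and weighted norms. -/

namespace Vale.Agent.P313.F43

open Finset Matrix

variable {N : ℕ}

/-- Strictly upper triangular substochastic matrices. -/
structure Sub (A : Matrix (Fin N) (Fin N) ℝ) : Prop where
  nonneg : ∀ u v, 0 ≤ A u v
  row : ∀ u, ∑ v, A u v ≤ 1
  tri : ∀ u v, v ≤ u → A u v = 0

/-- The Green matrix. -/
def gr (A : Matrix (Fin N) (Fin N) ℝ) : Matrix (Fin N) (Fin N) ℝ := ∑ t ∈ range N, A ^ t

/-- The weighted norm of a row vector. -/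
noncomputable def nrm (w x : Fin N → ℝ) : ℝ := √(∑ v, x v ^ 2 / w v)

/-- A bound for the operator norm of a matrix acting on row vectors. -/
def Bd (w : Fin N → ℝ) (M : Matrix (Fin N) (Fin N) ℝ) (a : ℝ) : Prop :=
  ∀ x, nrm w (x ᵥ* M) ≤ a * nrm w x

/-- The real matrix with the numerators `A` and the denominator `den`. -/
noncomputable def mat (N : ℕ) (A : ℕ → ℕ → ℕ) (den : ℕ) : Matrix (Fin N) (Fin N) ℝ :=
  fun u v => (A u v : ℝ) / den

end Vale.Agent.P313.F43
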