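import Vale.Agent.P313.F43.Alg
import Vale.Agent.P313.F43.GenDef
import Vale.Agent.P313.F43.LinDef

/-! The objects of the analysis: the walk as an abstract program, the canonical stage. -/

namespace Vale.Agent.P313.F43

open Finset Matrix

/-- Seeds as a function on natural numbers. -/
def hN {K p : ℕ} (h : Fin K → Fin 6 → Fin p) (k c : ℕ) : ℕ :=
  if hk : k < K ∧ c < 6 then (h ⟨k, hk.1⟩ ⟨c, hk.2⟩ : ℕ) else 0

/-- Seeds in `ZMod p` as a function on natural numbers. -/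
def hZ {K p : ℕ} (h : Fin K → Sd p) (k c : ℕ) : ℕ :=
  if hk : k < K ∧ c < 6 then (h ⟨k, hk.1⟩ ⟨c, hk.2⟩).val else 0

/-- A finite string as a function on natural numbers. -/
def dgN {T p : ℕ} (w : Fin T → Fin p) (i : ℕ) : ℕ := if h : i < T then (w ⟨i, h⟩ : ℕ) else 0

/-- The shift `δ` is bad for the value `y`, the accuracy `E` and the grid `Δ`. -/
def badSh (y E Δ : ℝ) (δ : ℕ) : Prop :=
  ∃ y' : ℝ, |y' - y| ≤ E ∧ ⌊(y' - 3 * E * (δ + 1)) / Δ⌋₊ ≠ ⌊(y - 3 * E * (δ + 1)) / Δ⌋₊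

namespace Wk

variable (W : Wk)

/-- The walk is well formed for the horizon `H`; the dropped parts are at most `Em`. -/
structure WF (Q d H Em : ℕ) : Prop where
  prime : W.p.Prime
  odd : 2 < W.p
  PQ_eq : W.PQ = 2 ^ Q
  Pd_eq : W.Pd = 2 ^ d
  D_eq : W.D = 4 * d
  Q_le : ∀ v < W.N, Q ≤ W.rot v
  rot_le : ∀ v < W.N, W.rot v ≤ W.om
  dvd : ∀ v < W.N, 2 ^ W.rot v ∣ W.n v
  pos : ∀ v < W.N, 0 < W.n v
  row : ∀ u < W.N, W.cdf u W.N ≤ W.PQ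
  col : ∀ t, ∀ v < W.N, W.kill t v = false → W.off W.N v ≤ (Em + 1) * W.n v
  H_lt : H < W.Pd
  N_le : W.N ≤ W.Pd
  n_le : ∀ v < W.N, W.n v ≤ W.Pd
  Em_lt : Em < W.Pd

/-- The valid states. -/
def SS (τ : ℕ) : Finset WS :=
  (range (τ + 1) ×ˢ (range W.N).sigma fun v => range (W.n v)).image
    fun z => (z.1, z.2.1, z.2.2)

/-- The walk as an abstract program. -/
def prog (Em : ℕ) : Prog WS (WS × ℕ) W.p where
  step τ s i := ((W.step τ s i.val).1, ((W.step τ s i.val).2 : ZMod W.p))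
  pi y := y.1
  fp γ y := (fpN W.p W.D γ.val (W.code y) : ZMod W.p)
  S := W.SS
  SY τ := W.SS τ ×ˢ range (Em + 1)

/-- The probability to survive the swap steps. -/
noncomputable def rho : ℝ := ((W.p - 1 : ℝ) / W.p) ^ W.om

/-- The alive mass at a vertex. -/
def al (ν : WS → ℝ) (v : ℕ) : ℝ := ∑ x ∈ range (W.n v), ν (0, v, x)

/-- The ideal alive masses after `t` moves, for the initial masses `a`. -/
noncomputable def vm (a : ℕ → ℝ) : ℕ → ℕ → ℝ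
  | 0 => a
  | t + 1 => fun v => if W.kill (t + 1) v = true then 0 else
      W.rho * ∑ u ∈ range W.N, vm a t u * W.B u v / W.PQ

end Wk

namespace Par

variable (P : Par)

/-- The conditions on the parameters. -/
structure WF (q g d : ℕ) : Prop where
  two_le : 2 ≤ P.N
  Pq_eq : P.Pq = 2 ^ q
  Pg_eq : P.Pg = 2 ^ g
  Q_eq : P.Q = q + g
  om_eq : P.om = 2 * q
  prime : P.p.Prime
  Pd_eq : P.Pd = 2 ^ d
  D_eq : P.D = 4 * d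
  Pe_eq : P.Pe = P.p ^ P.e
  Pf_eq : P.Pf = 2 ^ (8 * d)
  E3_eq : P.E3 = 2 ^ (8 * d + g - q)
  g_ge : 20 ≤ g
  N_le : P.N * 2 ^ (2 * g + 10) ≤ 2 ^ q
  M_le : 2 ^ (2 * g) * (2 * q + 1) ≤ 2 ^ P.K
  D_le : 4 * d ≤ 2 ^ P.K
  K_lt : P.K < d
  q_lt : 3 * q < d
  p_ge : 2 ^ (16 * P.K) ≤ P.p
  Pe_ge : 2 ^ (10 * d) ≤ P.Pe
  nl_ge : 6 * d ≤ (g - 3) * 2 ^ P.nl

/-- The average over all seeds. -/
noncomputable def avg (f : (ℕ → ℕ → ℕ) → ℝ) : ℝ :=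
  Finset.expect univ fun h : Fin P.K → Fin 6 → Fin P.p => f (hN h)

/-- The average over the sampled seeds. -/
noncomputable def smp (dg : ℕ → ℕ) (f : (ℕ → ℕ → ℕ) → ℝ) : ℝ :=
  (∑ idx ∈ range P.Pe, f (P.seedN dg idx)) / P.Pe

/-- The number of random digits. -/
def T0 : ℕ := 12 * P.K + P.e

/-- The expected number of visits of the lossy walk. -/
noncomputable def occV (A : ℕ → ℕ → ℕ) (n : ℕ → ℕ) (k : ℕ → Bool) (v : ℕ) : ℝ :=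
  P.avg fun h => (P.occ A n k h v : ℝ) / P.p

/-- The canonical rounded number of visits. -/
noncomputable def occC (δ : ℕ) (A : ℕ → ℕ → ℕ) (n : ℕ → ℕ) (k : ℕ → Bool) (v : ℕ) : ℕ :=
  P.PQ * ⌊(P.occV A n k v - 3 * 1 * (δ + 1)) / P.PQ⌋₊

/-- The canonical heavy vertices. -/
noncomputable def cK (δ : ℕ → ℕ) (A : ℕ → ℕ → ℕ) (n : ℕ → ℕ) : ℕ → Bool :=
  P.k1 A n (P.occC (δ 0) A n (P.k0 A n))

/-- The canonical capacities. -/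
noncomputable def cH (δ : ℕ → ℕ) (A : ℕ → ℕ → ℕ) (n : ℕ → ℕ) (v : ℕ) : ℕ :=
  n v + P.occC (δ 1) A n (P.cK δ A n) v

/-- The canonical regular part. -/
noncomputable def cC (δ : ℕ → ℕ) (A : ℕ → ℕ → ℕ) (n : ℕ → ℕ) : ℕ → ℕ → ℕ :=
  P.Cm A (P.cK δ A n) (P.cH δ A n)

/-- The averaged approximation of the Green matrix. -/
noncomputable def grV (C : ℕ → ℕ → ℕ) (nh : ℕ → ℕ) : Matrix (Fin P.N) (Fin P.N) ℝ :=
  fun u v => P.avg fun h => (P.grn C nh h u v : ℝ) / (nh u * P.p)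

/-- The exact matrix of the next stage. -/
noncomputable def Aex (A C : ℕ → ℕ → ℕ) : Matrix (Fin P.N) (Fin P.N) ℝ :=
  gr (mat P.N C P.PQ) * (mat P.N A P.Pq - mat P.N C P.PQ)

/-- The canonical matrix of the next stage. -/
noncomputable def newAC (δ : ℕ) (A C : ℕ → ℕ → ℕ) (u v : ℕ) : ℕ :=
  if h : u < P.N ∧ v < P.N then
    ⌊((P.Pf * P.PQ : ℝ) * P.Aex A C ⟨u, h.1⟩ ⟨v, h.2⟩ - 3 * P.E3 * (δ + 1)) / (P.Pf * P.Pg)⌋₊
  else 0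

/-- The canonical stage. -/
noncomputable def stageC (δ : ℕ → ℕ) (s : (ℕ → ℕ → ℕ) × (ℕ → ℕ)) : (ℕ → ℕ → ℕ) × (ℕ → ℕ) :=
  (P.newAC (δ 2) s.1 (P.cC δ s.1 s.2), P.newn s.1 s.2 (P.cK δ s.1 s.2) (P.cH δ s.1 s.2))

/-- The canonical state after `j` stages. -/
noncomputable def stagesC (sh : ℕ → ℕ) (s : (ℕ → ℕ → ℕ) × (ℕ → ℕ)) :
    ℕ → (ℕ → ℕ → ℕ) × (ℕ → ℕ)
  | 0 => s
  | j + 1 => P.stageC (fun c => sh (3 * j + c)) (stagesC sh s j)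

/-- The probability to visit `v` from the vertex `0`. -/
noncomputable def mu (A : ℕ → ℕ → ℕ) (v : ℕ) : ℝ :=
  if h : v < P.N then gr (mat P.N A P.Pq) ⟨0, by omega⟩ ⟨v, h⟩ else 0

/-- The total number of names. -/
def tot (n : ℕ → ℕ) : ℕ := ∑ v ∈ range P.N, n v

/-- The potential: the names of the vertices other than the first and the last one. -/
def pot (n : ℕ → ℕ) : ℕ := ∑ v ∈ range P.N, if v = 0 ∨ v + 1 = P.N then 0 else n v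

/-- The invariant of the stages. -/
structure Inv (s : (ℕ → ℕ → ℕ) × (ℕ → ℕ)) : Prop where
  sub : Sub (mat P.N s.1 P.Pq)
  A_out : ∀ u v, ¬(u < P.N ∧ v < P.N) → s.1 u v = 0
  n_out : ∀ v, ¬v < P.N → s.2 v = 0
  pow : ∀ v < P.N, ∃ w, s.2 v = 2 ^ w
  ge : ∀ v < P.N, P.PQ ≤ s.2 v
  le : ∀ v < P.N, s.2 v ≤ P.Pq * P.Pq
  zero : s.2 0 = P.Pq * P.Pq
  dom : ∀ v, v + 1 < P.N → (P.Pq * P.Pq : ℝ) * P.mu s.1 v ≤ s.2 v

/-- The shifts are good for the canonical values. -/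
def GoodSh (δ : ℕ → ℕ) (s : (ℕ → ℕ → ℕ) × (ℕ → ℕ)) : Prop :=
  (∀ v < P.N, ¬badSh (P.occV s.1 s.2 (P.k0 s.1 s.2) v) 1 P.PQ (δ 0)) ∧
  (∀ v < P.N, ¬badSh (P.occV s.1 s.2 (P.cK δ s.1 s.2) v) 1 P.PQ (δ 1)) ∧
  ∀ u v : Fin P.N, ¬badSh ((P.Pf * P.PQ : ℝ) * P.Aex s.1 (P.cC δ s.1 s.2) u v) P.E3
    (P.Pf * P.Pg) (δ 2)

/-- The random digits give good estimates of the canonical values. -/
def GoodDg (dg δ : ℕ → ℕ) (s : (ℕ → ℕ → ℕ) × (ℕ → ℕ)) : Prop :=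
  (∀ v < P.N, |P.smp dg (fun h => (P.occ s.1 s.2 (P.k0 s.1 s.2) h v : ℝ) / P.p) -
    P.occV s.1 s.2 (P.k0 s.1 s.2) v| ≤ 1) ∧
  (∀ v < P.N, |P.smp dg (fun h => (P.occ s.1 s.2 (P.cK δ s.1 s.2) h v : ℝ) / P.p) -
    P.occV s.1 s.2 (P.cK δ s.1 s.2) v| ≤ 1) ∧
  ∀ u v : Fin P.N, |P.smp dg (fun h => (P.grn (P.cC δ s.1 s.2) (P.cH δ s.1 s.2) h u v : ℝ) /
    (P.cH δ s.1 s.2 u * P.p)) - P.grV (P.cC δ s.1 s.2) (P.cH δ s.1 s.2) u v| ≤ 1 / (P.Pd : ℝ) ^ 2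

/-- The run with the digits `dg` and the shifts `sh` is correct. -/
def RunOK (d r : ℕ) (s : (ℕ → ℕ → ℕ) × (ℕ → ℕ)) (dg sh : ℕ → ℕ) : Prop :=
  (∀ j ≤ r, P.Inv (P.stages dg sh s j)) ∧
  (∀ j < r, ∀ l ≤ P.nl, ∀ u v,
    (P.aX dg (fun c => sh (3 * j + c)) (P.stages dg sh s j).1 (P.stages dg sh s j).2 l).1 u v <
      2 ^ (11 * d) ∧
    (P.aX dg (fun c => sh (3 * j + c)) (P.stages dg sh s j).1 (P.stages dg sh s j).2 l).2 u v <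
      2 ^ (11 * d)) ∧
  |((P.stages dg sh s r).1 0 (P.N - 1) : ℝ) / P.Pq - P.mu s.1 (P.N - 1)| ≤ 1 / 50

end Par

end Vale.Agent.P313.F43
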