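import Vale.Agent.P313.F43.LinDef

/-! Linear algebra of acyclic substochastic matrices, weighted norms and the Newton iteration. -/

namespace Vale.Agent.P313.F43

open Finset Matrix

variable {N : ℕ} {A A' C M M' : Matrix (Fin N) (Fin N) ℝ} {w x : Fin N → ℝ}

/-! ### The Green matrix -/

theorem Sub.pow_tri (hA : Sub A) (t : ℕ) (u v : Fin N) (h : (v : ℕ) < u + t) : (A ^ t) u v = 0 := by
  induction t generalizing v with
  | zero =>
    have h1 : u ≠ v := fun e => by rw [e] at h; omega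
    rw [pow_zero, one_apply_ne h1]
  | succ t ih =>
    rw [pow_succ, mul_apply]
    refine sum_eq_zero fun k _ => ?_
    by_cases hk : (k : ℕ) < u + t
    · rw [ih k hk, zero_mul]
    · rw [hA.tri k v (Fin.le_def.2 (by omega)), mul_zero]

theorem Sub.pow_card (hA : Sub A) : A ^ N = 0 := by
  ext u v
  exact hA.pow_tri N u v (by have := v.2; omega)

theorem Sub.pow_nonneg (hA : Sub A) (t : ℕ) (u v : Fin N) : 0 ≤ (A ^ t) u v := by
  induction t generalizing v with
  | zero =>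
    rw [pow_zero, one_apply]
    split_ifs <;> norm_num
  | succ t ih =>
    rw [pow_succ, mul_apply]
    exact sum_nonneg fun k _ => mul_nonneg (ih k) (hA.nonneg k v)

theorem Sub.gr_mul (hA : Sub A) : gr A * (1 - A) = 1 := by
  rw [gr, geom_sum_mul_neg, hA.pow_card, sub_zero]

theorem Sub.mul_gr (hA : Sub A) : (1 - A) * gr A = 1 := by
  rw [gr, mul_neg_geom_sum, hA.pow_card, sub_zero]

theorem Sub.gr_nonneg (hA : Sub A) (u v : Fin N) : 0 ≤ gr A u v := by
  rw [gr, Matrix.sum_apply]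
  exact sum_nonneg fun t _ => hA.pow_nonneg t u v

theorem Sub.gr_tri (hA : Sub A) (u v : Fin N) (h : v < u) : gr A u v = 0 := by
  rw [gr, Matrix.sum_apply]
  exact sum_eq_zero fun t _ => hA.pow_tri t u v (by have := Fin.lt_def.1 h; omega)

theorem Sub.gr_row (hA : Sub A) (s v : Fin N) :
    gr A s v = (if s = v then 1 else 0) + ∑ u, gr A s u * A u v := by
  have h := congrFun (congrFun hA.gr_mul s) v
  rw [mul_sub, mul_one, Matrix.sub_apply, mul_apply, one_apply] at h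
  linarith

theorem Sub.gr_col (hA : Sub A) (s v : Fin N) :
    gr A s v = (if s = v then 1 else 0) + ∑ u, A s u * gr A u v := by
  have h := congrFun (congrFun hA.mul_gr s) v
  rw [sub_mul, one_mul, Matrix.sub_apply, mul_apply, one_apply] at h
  linarith

theorem Sub.gr_diag (hA : Sub A) (v : Fin N) : gr A v v = 1 := by
  rw [hA.gr_col, if_pos rfl, sum_eq_zero, add_zero]
  intro k _
  rcases le_or_gt k v with h | h
  · rw [hA.tri v k h, zero_mul]
  · rw [hA.gr_tri k v h, mul_zero]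

theorem Sub.gr_le_one (hA : Sub A) (u v : Fin N) : gr A u v ≤ 1 := by
  induction u using WellFoundedGT.induction with
  | ind u ih =>
    by_cases h : u = v
    · rw [h, hA.gr_diag]
    rw [hA.gr_col, if_neg h, zero_add]
    refine le_trans (sum_le_sum fun k _ => ?_) (hA.row u)
    rcases le_or_gt k u with hk | hk
    · rw [hA.tri u k hk, zero_mul]
    · exact mul_le_of_le_one_right (hA.nonneg u k) (ih k hk)

theorem Sub.mono (hA : Sub A) (h0 : ∀ u v, 0 ≤ C u v) (h : ∀ u v, C u v ≤ A u v) : Sub C :=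
  ⟨h0, fun u => (sum_le_sum fun v _ => h u v).trans (hA.row u),
    fun u v huv => le_antisymm ((h u v).trans (hA.tri u v huv).le) (h0 u v)⟩

theorem Sub.next (hA : Sub A) (h0 : ∀ u v, 0 ≤ C u v) (h : ∀ u v, C u v ≤ A u v) :
    Sub (gr C * (A - C)) ∧ gr (gr C * (A - C)) = gr A * (1 - C) := by
  have hC := hA.mono h0 h
  have hD : Sub (gr C * (A - C)) := by
    refine ⟨fun u v => ?_, fun u => ?_, fun u v huv => ?_⟩
    · rw [mul_apply]
      exact sum_nonneg fun k _ => mul_nonneg (hC.gr_nonneg u k) (sub_nonneg.2 (h k v))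
    · have h1 : ∑ v, (gr C * (1 - C)) u v = 1 := by
        rw [hC.gr_mul]
        simp [one_apply]
      rw [← h1]
      simp only [mul_apply]
      rw [sum_comm, sum_comm (f := fun v k => gr C u k * (1 - C) k v)]
      refine sum_le_sum fun k _ => ?_
      rw [← mul_sum, ← mul_sum]
      refine mul_le_mul_of_nonneg_left ?_ (hC.gr_nonneg u k)
      have h2 : ∑ v, (1 : Matrix (Fin N) (Fin N) ℝ) k v = 1 := by simp [one_apply]
      simp only [Matrix.sub_apply, sum_sub_distrib, h2]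
      linarith [hA.row k]
    · rw [mul_apply]
      refine sum_eq_zero fun k _ => ?_
      rcases le_or_gt u k with hk | hk
      · rw [Matrix.sub_apply, hA.tri k v (huv.trans hk), hC.tri k v (huv.trans hk), sub_zero, mul_zero]
      · rw [hC.gr_tri u k hk, zero_mul]
  refine ⟨hD, ?_⟩
  have h1 : 1 - gr C * (A - C) = gr C * (1 - A) := by
    conv_lhs => rw [← hC.gr_mul]
    rw [← mul_sub]
    congr 1
    abel
  have h2 : gr A * (1 - C) * (1 - gr C * (A - C)) = 1 := by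
    rw [h1, mul_assoc, ← mul_assoc (1 - C), hC.mul_gr, one_mul, hA.gr_mul]
  calc gr (gr C * (A - C)) = gr A * (1 - C) * (1 - gr C * (A - C)) * gr (gr C * (A - C)) := by
        rw [h2, one_mul]
    _ = _ := by rw [mul_assoc, hD.mul_gr, mul_one]

theorem Sub.gr_sub (hA : Sub A) (hC : Sub C) : gr A - gr C = gr A * (A - C) * gr C := by
  have h1 : A - C = (1 - C) - (1 - A) := by abel
  rw [h1, mul_sub, sub_mul, mul_assoc, hC.mul_gr, hA.gr_mul, mul_one, one_mul]

theorem Sub.gr_mono (hA : Sub A) (h0 : ∀ u v, 0 ≤ C u v) (h : ∀ u v, C u v ≤ A u v)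
    (u v : Fin N) : gr C u v ≤ gr A u v := by
  have hC := hA.mono h0 h
  rw [← sub_nonneg, ← Matrix.sub_apply, hA.gr_sub hC, mul_apply]
  refine sum_nonneg fun k _ => mul_nonneg ?_ (hC.gr_nonneg k v)
  rw [mul_apply]
  exact sum_nonneg fun l _ => mul_nonneg (hA.gr_nonneg u l) (sub_nonneg.2 (h l k))

theorem Sub.gr_sub_le (hA : Sub A) (h0 : ∀ u v, 0 ≤ C u v) (h : ∀ u v, C u v ≤ A u v) {e : ℝ}
    (he : ∀ u v, A u v - C u v ≤ e) (u v : Fin N) : gr A u v - gr C u v ≤ N ^ 2 * e := by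
  have hC := hA.mono h0 h
  rw [← Matrix.sub_apply, hA.gr_sub hC, mul_apply]
  have h1 : ∀ k, (gr A * (A - C)) u k * gr C k v ≤ N * e := fun k => by
    have h2 : 0 ≤ (gr A * (A - C)) u k := by
      rw [mul_apply]
      exact sum_nonneg fun l _ => mul_nonneg (hA.gr_nonneg u l) (sub_nonneg.2 (h l k))
    refine (mul_le_of_le_one_right h2 (hC.gr_le_one k v)).trans ?_
    rw [mul_apply]
    refine (sum_le_card_nsmul _ _ e fun l _ => ?_).trans (by simp)
    exact (mul_le_of_le_one_left (sub_nonneg.2 (h l k)) (hA.gr_le_one u l)).trans (he l k)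
  refine (sum_le_card_nsmul _ _ _ fun k _ => h1 k).trans (le_of_eq ?_)
  simp only [card_univ, Fintype.card_fin, nsmul_eq_mul]
  ring

/-! ### The weighted norm -/

theorem nrm_nonneg (w x : Fin N → ℝ) : 0 ≤ nrm w x := Real.sqrt_nonneg _

theorem nrm_zero (w : Fin N → ℝ) : nrm w 0 = 0 := by simp [nrm]

theorem nrm_sq (hw : ∀ v, 0 < w v) (x : Fin N → ℝ) : nrm w x ^ 2 = ∑ v, x v ^ 2 / w v :=
  Real.sq_sqrt (sum_nonneg fun v _ => div_nonneg (sq_nonneg _) (hw v).le)

theorem nrm_eq_norm (hw : ∀ v, 0 < w v) (x : Fin N → ℝ) :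
    nrm w x = ‖(WithLp.toLp 2 fun v => x v / √(w v) : EuclideanSpace ℝ (Fin N))‖ := by
  rw [EuclideanSpace.norm_eq, nrm]
  congr 1
  refine sum_congr rfl fun v _ => ?_
  rw [Real.norm_eq_abs, sq_abs, div_pow, Real.sq_sqrt (hw v).le]

theorem nrm_add_le (hw : ∀ v, 0 < w v) (x y : Fin N → ℝ) : nrm w (x + y) ≤ nrm w x + nrm w y := by
  rw [nrm_eq_norm hw, nrm_eq_norm hw, nrm_eq_norm hw]
  refine le_trans (le_of_eq ?_) (norm_add_le _ _)
  congr 1
  ext v
  simp [add_div]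

theorem nrm_smul (c : ℝ) (x : Fin N → ℝ) : nrm w (c • x) = |c| * nrm w x := by
  rw [nrm, nrm, ← Real.sqrt_sq_eq_abs, ← Real.sqrt_mul (sq_nonneg c), mul_sum]
  congr 1
  refine sum_congr rfl fun v _ => ?_
  rw [Pi.smul_apply, smul_eq_mul, mul_pow, mul_div_assoc]

theorem nrm_neg (x : Fin N → ℝ) : nrm w (-x) = nrm w x := by
  simp [nrm]

theorem nrm_sub_le (hw : ∀ v, 0 < w v) (x y : Fin N → ℝ) : nrm w (x - y) ≤ nrm w x + nrm w y := by
  rw [sub_eq_add_neg, ← nrm_neg y]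
  exact nrm_add_le hw _ _

theorem nrm_sum_le (hw : ∀ v, 0 < w v) {I : Type*} (s : Finset I) (f : I → Fin N → ℝ) :
    nrm w (∑ i ∈ s, f i) ≤ ∑ i ∈ s, nrm w (f i) :=
  le_sum_of_subadditive (nrm w) (nrm_zero w).le (nrm_add_le hw) s f

theorem nrm_expect_le (hw : ∀ v, 0 < w v) {I : Type*} [Fintype I] (f : I → Fin N → ℝ) :
    nrm w (Finset.expect univ f) ≤ Finset.expect univ fun i => nrm w (f i) := by
  have h1 : Finset.expect univ f = ((Fintype.card I : ℝ)⁻¹) • ∑ i, f i := by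
    funext v
    rw [expect_apply, Fintype.expect_eq_sum_div_card, Pi.smul_apply, Finset.sum_apply,
      smul_eq_mul, div_eq_inv_mul]
  rw [h1, nrm_smul, Fintype.expect_eq_sum_div_card, div_eq_inv_mul, abs_of_nonneg (by positivity)]
  exact mul_le_mul_of_nonneg_left (nrm_sum_le hw _ _) (by positivity)

theorem abs_le_nrm (hw : ∀ v, 0 < w v) (x : Fin N → ℝ) (v : Fin N) :
    |x v| ≤ √(w v) * nrm w x := by
  rw [nrm, ← Real.sqrt_mul (hw v).le]
  refine Real.abs_le_sqrt ?_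
  rw [← div_le_iff₀' (hw v)]
  exact single_le_sum (f := fun v => x v ^ 2 / w v)
    (fun u _ => div_nonneg (sq_nonneg _) (hw u).le) (mem_univ v)

/-! ### Operator bounds -/

variable {a b : ℝ}

theorem Bd.mono (h : Bd w M a) (hab : a ≤ b) : Bd w M b :=
  fun x => (h x).trans (mul_le_mul_of_nonneg_right hab (nrm_nonneg w x))

theorem Bd.one : Bd w 1 1 := fun x => by simp

theorem Bd.zero : Bd w 0 0 := fun x => by simp [nrm_zero]

theorem Bd.mul (h : Bd w M a) (h' : Bd w M' b) (hb : 0 ≤ b) : Bd w (M * M') (a * b) := fun x => by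
  rw [← vecMul_vecMul]
  refine (h' _).trans ((mul_le_mul_of_nonneg_left (h x) hb).trans (le_of_eq ?_))
  ring

theorem Bd.add (hw : ∀ v, 0 < w v) (h : Bd w M a) (h' : Bd w M' b) : Bd w (M + M') (a + b) :=
  fun x => by
    rw [vecMul_add, add_mul]
    exact (nrm_add_le hw _ _).trans (add_le_add (h x) (h' x))

theorem Bd.sub (hw : ∀ v, 0 < w v) (h : Bd w M a) (h' : Bd w M' b) : Bd w (M - M') (a + b) :=
  fun x => by
    rw [vecMul_sub, add_mul]
    exact (nrm_sub_le hw _ _).trans (add_le_add (h x) (h' x))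

theorem Bd.neg (h : Bd w M a) : Bd w (-M) a := fun x => by
  rw [vecMul_neg, nrm_neg]
  exact h x

theorem Bd.smul (h : Bd w M a) (c : ℝ) : Bd w (c • M) (|c| * a) := fun x => by
  rw [vecMul_smul, nrm_smul, mul_assoc]
  exact mul_le_mul_of_nonneg_left (h x) (abs_nonneg c)

theorem Bd.pow (h : Bd w M a) (ha : 0 ≤ a) (t : ℕ) : Bd w (M ^ t) (a ^ t) := by
  induction t with
  | zero => simpa using Bd.one
  | succ t ih => rw [pow_succ, pow_succ]; exact ih.mul h ha

theorem Bd.sum (hw : ∀ v, 0 < w v) {I : Type*} (s : Finset I) {F : I → Matrix (Fin N) (Fin N) ℝ}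
    {c : I → ℝ} (h : ∀ i ∈ s, Bd w (F i) (c i)) : Bd w (∑ i ∈ s, F i) (∑ i ∈ s, c i) := by
  classical
  induction s using Finset.induction_on with
  | empty => simpa using Bd.zero
  | insert i s hi ih =>
    rw [sum_insert hi, sum_insert hi]
    exact (h i (mem_insert_self _ _)).add hw (ih fun j hj => h j (mem_insert_of_mem hj))

theorem Bd.of_sq (hw : ∀ v, 0 < w v) (ha : 0 ≤ a)
    (h : ∀ x : Fin N → ℝ, ∑ v, (x ᵥ* M) v ^ 2 / w v ≤ a ^ 2 * ∑ v, x v ^ 2 / w v) : Bd w M a :=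
  fun x => by
    refine le_of_sq_le_sq ?_ (mul_nonneg ha (nrm_nonneg _ _))
    rw [mul_pow, nrm_sq hw, nrm_sq hw]
    exact h x

/-- Cauchy-Schwarz with weights -/
theorem sq_sum_le (hw : ∀ v, 0 < w v) (x c : Fin N → ℝ) (hc : ∀ u, 0 ≤ c u) :
    (∑ u, x u * c u) ^ 2 ≤ (∑ u, x u ^ 2 / w u * c u) * ∑ u, w u * c u := by
  refine sum_sq_le_sum_mul_sum_of_sq_le_mul _ (fun u _ => ?_) (fun u _ => ?_) fun u _ => ?_
  · exact mul_nonneg (div_nonneg (sq_nonneg _) (hw u).le) (hc u)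
  · exact mul_nonneg (hw u).le (hc u)
  · have := (hw u).ne'
    exact le_of_eq (by field_simp)

theorem Bd.of_entry {lo hi e : ℝ} (hlo : 0 < lo) (hw : ∀ v, lo ≤ w v ∧ w v ≤ hi)
    (h : ∀ u v, |M u v| ≤ e) : Bd w M (N * e * √(hi / lo)) := by
  have hw0 : ∀ v, 0 < w v := fun v => hlo.trans_le (hw v).1
  rcases Nat.eq_zero_or_pos N with h0 | h0
  · subst h0
    intro x
    simp [nrm]
  have he : 0 ≤ e := (abs_nonneg _).trans (h ⟨0, h0⟩ ⟨0, h0⟩)
  have hhi : 0 ≤ hi := (hw0 ⟨0, h0⟩).le.trans (hw ⟨0, h0⟩).2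
  refine Bd.of_sq hw0 (by positivity) fun x => ?_
  set S := ∑ v, x v ^ 2 / w v with hS
  have hS0 : 0 ≤ S := sum_nonneg fun v _ => div_nonneg (sq_nonneg _) (hw0 v).le
  have h1 : (∑ u, |x u|) ^ 2 ≤ S * (N * hi) := by
    have h2 := sq_sum_le hw0 (fun u => |x u|) (fun _ => 1) fun _ => zero_le_one
    simp only [mul_one, sq_abs] at h2
    refine h2.trans (mul_le_mul_of_nonneg_left ?_ hS0)
    exact (sum_le_card_nsmul _ _ hi fun u _ => (hw u).2).trans (by simp)
  have h3 : ∀ v, (x ᵥ* M) v ^ 2 / w v ≤ e ^ 2 * (S * (N * hi)) / lo := fun v => by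
    have h4 : |(x ᵥ* M) v| ≤ e * ∑ u, |x u| := by
      rw [vecMul, dotProduct, mul_sum]
      refine (abs_sum_le_sum_abs _ _).trans (sum_le_sum fun u _ => ?_)
      rw [abs_mul, mul_comm]
      exact mul_le_mul_of_nonneg_right (h u v) (abs_nonneg _)
    have h5 : (x ᵥ* M) v ^ 2 ≤ e ^ 2 * (S * (N * hi)) := by
      rw [← sq_abs]
      refine (pow_le_pow_left₀ (abs_nonneg _) h4 2).trans ?_
      rw [mul_pow]
      exact mul_le_mul_of_nonneg_left h1 (sq_nonneg e)
    exact div_le_div₀ (by positivity) h5 hlo (hw v).1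
  refine (sum_le_card_nsmul _ _ _ fun v _ => h3 v).trans (le_of_eq ?_)
  rw [mul_pow, Real.sq_sqrt (by positivity)]
  simp only [card_univ, Fintype.card_fin, nsmul_eq_mul]
  ring

theorem Bd.entry {lo hi : ℝ} (hlo : 0 < lo) (hw : ∀ v, lo ≤ w v ∧ w v ≤ hi) (h : Bd w M a)
    (ha : 0 ≤ a) (u v : Fin N) : |M u v| ≤ a * √(hi / lo) := by
  have hw0 : ∀ v, 0 < w v := fun v => hlo.trans_le (hw v).1
  have h1 := h (Pi.single u 1)
  have h2 : nrm w (Pi.single u 1) = √(1 / w u) := by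
    rw [nrm, sum_eq_single u (fun k _ hk => by simp [hk]) (by simp)]
    simp
  have h3 := abs_le_nrm hw0 (Pi.single u 1 ᵥ* M) v
  rw [h2] at h1
  have h4 : (Pi.single u 1 ᵥ* M) v = M u v := by simp
  rw [h4] at h3
  have h5 : √(w v) * √(1 / w u) ≤ √(hi / lo) := by
    rw [← Real.sqrt_mul (hw0 v).le, mul_one_div]
    exact Real.sqrt_le_sqrt (div_le_div₀ ((hw0 v).le.trans (hw v).2) (hw v).2 hlo (hw u).1)
  calc |M u v| ≤ √(w v) * (a * √(1 / w u)) :=
        h3.trans (mul_le_mul_of_nonneg_left h1 (Real.sqrt_nonneg _))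
    _ = a * (√(w v) * √(1 / w u)) := by ring
    _ ≤ _ := mul_le_mul_of_nonneg_left h5 ha

theorem Bd.of_doubly (hw : ∀ v, 0 < w v) (h0 : ∀ u v, 0 ≤ C u v) {rho : ℝ} (hrho : 0 ≤ rho)
    (hr : ∀ u, ∑ v, C u v ≤ rho) (hc : ∀ v, ∑ u, w u * C u v ≤ w v) : Bd w C √rho := by
  refine Bd.of_sq hw (Real.sqrt_nonneg _) fun x => ?_
  have h1 : ∀ v, (x ᵥ* C) v ^ 2 / w v ≤ ∑ u, x u ^ 2 / w u * C u v := fun v => by
    rw [div_le_iff₀ (hw v)]
    refine (sq_sum_le hw x (fun u => C u v) fun u => h0 u v).trans ?_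
    exact mul_le_mul_of_nonneg_left (hc v)
      (sum_nonneg fun u _ => mul_nonneg (div_nonneg (sq_nonneg _) (hw u).le) (h0 u v))
  refine (sum_le_sum fun v _ => h1 v).trans ?_
  rw [sum_comm, Real.sq_sqrt hrho, mul_sum]
  refine sum_le_sum fun u _ => ?_
  rw [← mul_sum, mul_comm rho]
  exact mul_le_mul_of_nonneg_left (hr u) (div_nonneg (sq_nonneg _) (hw u).le)

theorem Bd.gr (hw : ∀ v, 0 < w v) (hB : Bd w C 1) : Bd w (gr C) N := by
  have h := Bd.sum hw (range N) (F := fun t => C ^ t) (c := fun _ => 1)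
    fun t _ => by simpa using hB.pow zero_le_one t
  simpa [F43.gr] using h

/-- The Newton iteration with rounding errors. -/
theorem newton {lo hi e b : ℝ} (hlo : 0 < lo) (hw : ∀ v, lo ≤ w v ∧ w v ≤ hi) (hC : Sub C)
    (hB : Bd w C 1) (X : ℕ → Matrix (Fin N) (Fin N) ℝ) (hb0 : 0 ≤ b) (_hb : b ≤ 1 / 4)
    (h0 : Bd w (1 - (1 - C) * X 0) b) (he0 : 0 ≤ e) (he : N * e * √(hi / lo) ≤ 1 / 16)
    (hs : ∀ l u v, |X (l + 1) u v - ((2 : ℝ) • X l - X l * (1 - C) * X l) u v| ≤ e)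
    (l : ℕ) (u v : Fin N) :
    |X l u v - gr C u v| ≤
      N * ((2 * b) ^ (2 ^ l) / 2 + 4 * (N * e * √(hi / lo))) * √(hi / lo) := by
  have hw0 : ∀ v, 0 < w v := fun v => hlo.trans_le (hw v).1
  have hE : ∀ l, Bd w (X (l + 1) - ((2 : ℝ) • X l - X l * (1 - C) * X l)) (N * e * √(hi / lo)) :=
    fun l => Bd.of_entry hlo hw (hs l)
  have he1 : 0 ≤ N * e * √(hi / lo) := by positivity
  generalize N * e * √(hi / lo) = d at hE he he1 ⊢
  have key : ∀ l, Bd w (1 - (1 - C) * X l) ((2 * b) ^ (2 ^ l) / 2 + 4 * d) := by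
    intro l
    induction l with
    | zero => exact h0.mono (by norm_num; linarith)
    | succ l ih =>
      have hy : 0 ≤ (2 * b) ^ (2 ^ l) := by positivity
      have h1 : 1 - (1 - C) * X (l + 1) = (1 - (1 - C) * X l) * (1 - (1 - C) * X l) -
          (1 - C) * (X (l + 1) - ((2 : ℝ) • X l - X l * (1 - C) * X l)) := by
        rw [two_smul]
        noncomm_ring
      rw [h1]
      refine ((ih.mul ih (by positivity)).sub hw0
        ((Bd.one.sub hw0 hB).mul (hE l) he1)).mono ?_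
      rw [pow_succ 2 l, pow_mul]
      generalize (2 * b) ^ (2 ^ l) = y at hy
      nlinarith [sq_nonneg (y / 2 - 4 * d), mul_nonneg he1 (sub_nonneg.2 he)]
  have h2 : X l - gr C = -(gr C * (1 - (1 - C) * X l)) := by
    rw [mul_sub, mul_one, ← mul_assoc, hC.gr_mul, one_mul, neg_sub]
  have hy : 0 ≤ (2 * b) ^ (2 ^ l) / 2 + 4 * d := by positivity
  rw [← Matrix.sub_apply, h2]
  exact (((hB.gr hw0).mul (key l) hy).neg).entry hlo hw (by positivity) u v

end Vale.Agent.P313.F43
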