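import Vale.Agent.P313.F43.CanDef
import Vale.Agent.P313.F43.Lin

/-! Elementary properties of the canonical capacities and of the canonical regular part. -/

namespace Vale.Agent.P313.F43

open Finset Matrix

namespace Par

variable {P : Par} {q g d : ℕ} {s : (ℕ → ℕ → ℕ) × (ℕ → ℕ)} {δ : ℕ → ℕ}

namespace CanP

theorem sum_cnt (W : Wk) (h : ℕ → ℕ → ℕ) (t u : ℕ) :
    ∑ v ∈ range W.N, W.cnt h t u v ≤ W.n u * W.p := by
  simp only [Wk.cnt]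
  rw [sum_comm]
  refine (sum_le_card_nsmul _ _ W.p fun x _ => ?_).trans (by simp)
  rw [sum_comm]
  refine (sum_le_card_nsmul _ _ 1 fun i _ => ?_).trans (by simp)
  generalize (W.run h (0, u, x) i (t * (W.om + 1))).1 = z
  refine le_trans (sum_le_sum (g := fun v => if z.2.1 = v then 1 else 0) fun v _ => ?_) ?_
  · split_ifs with h1 h2 <;> simp_all
  · rw [sum_ite_eq]
    split_ifs <;> simp

theorem occV_nonneg (A : ℕ → ℕ → ℕ) (n : ℕ → ℕ) (k : ℕ → Bool) (v : ℕ) :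
    0 ≤ P.occV A n k v :=
  expect_nonneg fun _ _ => by positivity

theorem sum_occV (hp : 0 < P.p) (A : ℕ → ℕ → ℕ) (n : ℕ → ℕ) (k : ℕ → Bool) :
    ∑ v ∈ range P.N, P.occV A n k v ≤ P.M * P.tot n := by
  have h0 : (0 : ℝ) < P.p := by exact_mod_cast hp
  have : Nonempty (Fin P.p) := ⟨⟨0, hp⟩⟩
  simp only [occV, avg]
  rw [← expect_sum_comm]
  refine expect_le univ_nonempty fun h _ => ?_
  rw [← sum_div, div_le_iff₀ h0]
  have h1 : ∑ v ∈ range P.N, P.occ A n k (hN h) v ≤ P.M * P.tot n * P.p := by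
    simp only [occ]
    rw [sum_comm]
    refine (sum_le_card_nsmul _ _ (P.tot n * P.p) fun t _ => ?_).trans
      (by simp [mul_assoc])
    rw [sum_comm, tot, sum_mul]
    exact sum_le_sum fun u _ => sum_cnt (P.wk1 A n k) (hN h) (t + 1) u
  exact_mod_cast h1

theorem Pq_pos (hP : P.WF q g d) : 0 < P.Pq := by rw [hP.Pq_eq]; positivity

theorem Pg_pos (hP : P.WF q g d) : 0 < P.Pg := by rw [hP.Pg_eq]; positivity

theorem PQ_pos (hP : P.WF q g d) : 0 < P.PQ := Nat.mul_pos (Pq_pos hP) (Pg_pos hP)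

theorem PQ_eq (hP : P.WF q g d) : P.PQ = 2 ^ (q + g) := by rw [PQ, hP.Pq_eq, hP.Pg_eq, pow_add]

theorem NM_le (hP : P.WF q g d) : P.N * P.M * 1024 ≤ P.Pq := by
  have h := hP.N_le
  rw [M, hP.Pq_eq, hP.Pg_eq]
  rw [pow_add, two_mul, pow_add] at h
  linarith

theorem occC_le (hP : P.WF q g d) (e : ℕ) (A : ℕ → ℕ → ℕ) (n : ℕ → ℕ) (k : ℕ → Bool) (v : ℕ) :
    (P.occC e A n k v : ℝ) ≤ P.occV A n k v := by
  have h0 : (0 : ℝ) < P.PQ := by exact_mod_cast PQ_pos hP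
  have h1 := occV_nonneg (P := P) A n k v
  have h2 : ⌊(P.occV A n k v - 3 * 1 * (e + 1)) / P.PQ⌋₊ ≤ ⌊P.occV A n k v / P.PQ⌋₊ :=
    Nat.floor_le_floor (div_le_div_of_nonneg_right (by
      have : (0 : ℝ) ≤ 3 * 1 * (e + 1) := by positivity
      linarith) h0.le)
  have h3 : (⌊P.occV A n k v / P.PQ⌋₊ : ℝ) ≤ P.occV A n k v / P.PQ := Nat.floor_le (by positivity)
  rw [occC, Nat.cast_mul, ← le_div_iff₀' h0]
  exact le_trans (by exact_mod_cast h2) h3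

theorem le_occC (hP : P.WF q g d) {e : ℕ} (he : e < 2 ^ (q - 2)) (A : ℕ → ℕ → ℕ) (n : ℕ → ℕ)
    (k : ℕ → Bool) (v : ℕ) : P.occV A n k v - 2 * P.PQ ≤ P.occC e A n k v := by
  have h0 : (0 : ℝ) < P.PQ := by exact_mod_cast PQ_pos hP
  have h1 := Nat.lt_floor_add_one ((P.occV A n k v - 3 * 1 * (e + 1)) / P.PQ)
  have h2 : 3 * (e + 1) ≤ P.PQ := by
    have h3 : 2 ^ (q - 2 + 2) ≤ 2 ^ (q + g) :=
      Nat.pow_le_pow_right (by norm_num) (by have := hP.g_ge; omega)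
    rw [PQ_eq hP]
    rw [pow_add] at h3
    omega
  have h4 : (3 * (e + 1) : ℝ) ≤ P.PQ := by exact_mod_cast h2
  rw [div_lt_iff₀ h0] at h1
  rw [occC, Nat.cast_mul]
  linarith

theorem dvd_n (hP : P.WF q g d) (hs : P.Inv s) {v : ℕ} (hv : v < P.N) : P.PQ ∣ s.2 v := by
  obtain ⟨w, hw⟩ := hs.pow v hv
  have h := hs.ge v hv
  rw [hw, PQ_eq hP] at h ⊢
  exact pow_dvd_pow 2 ((Nat.pow_le_pow_iff_right (by norm_num)).1 h)

theorem tot_le (hs : P.Inv s) : P.tot s.2 ≤ P.N * (P.Pq * P.Pq) :=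
  (sum_le_card_nsmul _ _ _ fun v hv => hs.le v (mem_range.1 hv)).trans (by simp)

theorem row_A (hP : P.WF q g d) (hs : P.Inv s) {u : ℕ} (hu : u < P.N) :
    ∑ v ∈ range P.N, s.1 u v ≤ P.Pq := by
  have h0 : (0 : ℝ) < P.Pq := by exact_mod_cast Pq_pos hP
  have h := hs.sub.row ⟨u, hu⟩
  simp only [mat] at h
  rw [← sum_div, div_le_one h0, Fin.sum_univ_eq_sum_range (fun v => (s.1 u v : ℝ))] at h
  exact_mod_cast h

theorem row_B (hP : P.WF q g d) (hs : P.Inv s) {u : ℕ} (hu : u < P.N) :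
    ∑ v ∈ range P.N, P.Bm s.1 u v ≤ P.PQ - P.Pq := by
  simp only [Bm]
  rw [← sum_mul, PQ, ← Nat.mul_sub_one]
  exact Nat.mul_le_mul_right _ (row_A hP hs hu)

theorem Cm_le (A : ℕ → ℕ → ℕ) (k : ℕ → Bool) (nh : ℕ → ℕ) (u v : ℕ) :
    P.Cm A k nh u v ≤ P.Bm A u v := by
  rw [Cm]
  split_ifs with h1 h2
  · exact Nat.zero_le _
  · exact le_rfl
  · exact Nat.div_le_of_le_mul (by rw [mul_comm]; exact Nat.mul_le_mul_right _ (not_le.1 h2).le)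

theorem col_Cm (A : ℕ → ℕ → ℕ) (k : ℕ → Bool) (nh : ℕ → ℕ) (v : ℕ) :
    ∑ u ∈ range P.N, nh u / P.PQ * P.Cm A k nh u v ≤ nh v := by
  simp only [Cm]
  split_ifs with h1 h2
  · simp
  · exact h2
  · refine Nat.le_of_mul_le_mul_left ?_ (Nat.zero_lt_of_lt (not_le.1 h2))
    rw [mul_sum]
    conv_rhs => rw [inf, sum_mul]
    refine sum_le_sum fun u _ => ?_
    rw [mul_left_comm, mul_assoc]
    exact Nat.mul_le_mul_left _ (Nat.mul_div_le _ _)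

end CanP

open CanP in
theorem WF.cH_facts (hP : P.WF q g d) (hs : P.Inv s) :
    (∀ v < P.N, P.PQ ∣ P.cH δ s.1 s.2 v ∧ s.2 v ≤ P.cH δ s.1 s.2 v ∧
      P.cH δ s.1 s.2 v ≤ 2 ^ (3 * q)) ∧
    (∀ u < P.N, ∑ v ∈ range P.N, P.cC δ s.1 s.2 u v ≤ P.PQ - P.Pq) ∧
    (∀ v < P.N, ∑ u ∈ range P.N, P.cH δ s.1 s.2 u / P.PQ * P.cC δ s.1 s.2 u v ≤ P.cH δ s.1 s.2 v) ∧
    ∀ u v, P.cC δ s.1 s.2 u v ≤ P.Bm s.1 u v := by
  refine ⟨fun v hv => ⟨Dvd.dvd.add (dvd_n hP hs hv) (Dvd.intro _ rfl), Nat.le_add_right _ _, ?_⟩,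
    fun u hu => (sum_le_sum fun v _ => Cm_le _ _ _ u v).trans (row_B hP hs hu),
    fun v _ => col_Cm _ _ _ v, fun u v => Cm_le _ _ _ u v⟩
  have h1 : (P.occC (δ 1) s.1 s.2 (P.cK δ s.1 s.2) v : ℝ) ≤ P.M * P.tot s.2 :=
    (occC_le hP _ _ _ _ v).trans ((single_le_sum (f := fun v => P.occV s.1 s.2 _ v)
      (fun v _ => occV_nonneg _ _ _ v) (mem_range.2 hv)).trans (sum_occV hP.prime.pos _ _ _))
  have h2 : P.occC (δ 1) s.1 s.2 (P.cK δ s.1 s.2) v ≤ P.M * P.tot s.2 := by exact_mod_cast h1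
  have h3 := Nat.mul_le_mul_left P.M (tot_le hs)
  have h4 := Nat.mul_le_mul_right (P.Pq * P.Pq) (NM_le hP)
  have h5 := hs.le v hv
  have h6 : 1 ≤ P.N * P.M :=
    Nat.mul_pos (Nat.zero_lt_of_lt hv) (Nat.mul_pos (Pg_pos hP) (Pg_pos hP))
  have h7 := Nat.mul_le_mul_right (P.Pq * P.Pq) h6
  have h8 : 2 ^ (3 * q) = P.Pq * (P.Pq * P.Pq) := by rw [hP.Pq_eq]; ring
  rw [cH, h8]
  nlinarith

end Par

end Vale.Agent.P313.F43
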