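import Vale.Agent.P313.F43.OccW

/-! The estimate of the occupation measure. -/

namespace Vale.Agent.P313.F43

open Finset Matrix

theorem occ_one_sub_pow {x : ℝ} (h1 : x ≤ 1) (m : ℕ) : 1 - (1 - x) ^ m ≤ m * x := by
  have := one_add_mul_le_pow (a := -x) (by linarith) m
  rw [← sub_eq_add_neg] at this
  linarith

theorem Wk.one_sub_rho_pow_le {W : Wk} (hp : 1 ≤ W.p) (t : ℕ) :
    1 - W.rho ^ t ≤ (t * W.om : ℝ) / W.p := by
  have h1 : (1 : ℝ) ≤ W.p := by exact_mod_cast hp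
  have h2 : W.rho = (1 - 1 / (W.p : ℝ)) ^ W.om := by
    rw [Wk.rho]
    congr 1
    field_simp
  rw [h2, ← pow_mul]
  refine (occ_one_sub_pow ((div_le_one (by linarith)).2 h1) _).trans (le_of_eq ?_)
  push_cast
  ring

/-- The ideal masses in terms of matrices. -/
theorem Wk.vm_eq_mat (W : Wk) (k : ℕ → Bool) (a : ℕ → ℝ) (t : ℕ) (v : Fin W.N) :
    (W.wk fun _ v => k v).vm a t v = W.rho ^ t * ((fun u : Fin W.N => a u) ᵥ*
      mat W.N (fun u v => if k v = true then 0 else W.B u v) W.PQ ^ t) v := by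
  induction t generalizing v with
  | zero => simp [Wk.vm]
  | succ t ih =>
    rw [Wk.vm_succ, Wk.pre, pow_succ (mat _ _ _), ← vecMul_vecMul, vecMul, dotProduct]
    by_cases h : k v = true
    · simp [h, mat]
    · rw [if_neg h, ← Fin.sum_univ_eq_sum_range
        (fun u => (W.wk fun _ v => k v).vm a t u * W.B u v / W.PQ), mul_sum, mul_sum]
      refine sum_congr rfl fun u _ => ?_
      have e : mat W.N (fun u v => if k v = true then 0 else W.B u v) W.PQ u v =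
          (W.B u v : ℝ) / W.PQ := by simp [mat, h]
      rw [ih u, e]
      ring

theorem sum_vecMul_pow_le {N : ℕ} {B : Matrix (Fin N) (Fin N) ℝ} (h0 : ∀ u v, 0 ≤ B u v)
    (h1 : ∀ u, ∑ v, B u v ≤ 1) {a : Fin N → ℝ} (ha : ∀ u, 0 ≤ a u) (t : ℕ) :
    (∀ v, 0 ≤ (a ᵥ* B ^ t) v) ∧ ∑ v, (a ᵥ* B ^ t) v ≤ ∑ v, a v := by
  induction t with
  | zero => simpa using ha
  | succ t ih =>
    rw [pow_succ, ← vecMul_vecMul]
    generalize a ᵥ* B ^ t = b at ih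
    simp only [vecMul, dotProduct]
    refine ⟨fun v => sum_nonneg fun u _ => mul_nonneg (ih.1 u) (h0 u v), le_trans ?_ ih.2⟩
    rw [sum_comm]
    refine sum_le_sum fun u _ => ?_
    rw [← mul_sum]
    exact mul_le_of_le_one_right (ih.1 u) (h1 u)

namespace Par

variable {P : Par} {q g d : ℕ} {s : (ℕ → ℕ → ℕ) × (ℕ → ℕ)}

theorem occ_le (A : ℕ → ℕ → ℕ) (n : ℕ → ℕ) (k : ℕ → Bool) (h : ℕ → ℕ → ℕ) :
    ∑ v ∈ range P.N, P.occ A n k h v ≤ P.M * P.tot n * P.p := by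
  simp only [occ]
  rw [sum_comm, mul_assoc]
  refine (sum_le_card_nsmul _ _ (P.tot n * P.p) fun t _ => ?_).trans (by simp)
  rw [sum_comm, tot, sum_mul]
  exact sum_le_sum fun u _ => Wk.sum_cnt_le (W := P.wk1 A n k) h (t + 1) u

theorem occV_nonneg (A : ℕ → ℕ → ℕ) (n : ℕ → ℕ) (k : ℕ → Bool) (v : ℕ) :
    0 ≤ P.occV A n k v := expect_nonneg fun _ _ => by positivity

theorem sum_occV_le (A : ℕ → ℕ → ℕ) (n : ℕ → ℕ) (k : ℕ → Bool) :
    ∑ v ∈ range P.N, P.occV A n k v ≤ P.M * P.tot n := by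
  simp only [occV, avg]
  rw [← expect_sum_comm]
  rcases isEmpty_or_nonempty (Fin P.K → Fin 6 → Fin P.p) with h | h
  · rw [univ_eq_empty, expect_empty]
    positivity
  · refine expect_le univ_nonempty fun h _ => ?_
    rw [← sum_div, ← Nat.cast_sum]
    refine div_le_of_le_mul₀ (Nat.cast_nonneg _) (by positivity) ?_
    exact_mod_cast occ_le A n k (hN h)

theorem occV_eq (A : ℕ → ℕ → ℕ) (n : ℕ → ℕ) (k k' : ℕ → Bool) (v : ℕ) :
    P.occV A n k v = ∑ t ∈ range P.M, (P.wk1 A n k').ea P.K (fun _ v => k v) (t + 1) v := by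
  simp only [occV, avg, Wk.ea]
  rw [← expect_sum_comm]
  refine expect_congr rfl fun h _ => ?_
  rw [← sum_div, occ]
  push_cast
  rfl

theorem WF.g_le (hP : P.WF q g d) : 2 * g + 10 ≤ q := by
  have h1 := hP.N_le
  have h2 := hP.two_le
  exact (Nat.pow_le_pow_iff_right (by omega : 1 < 2)).1
    ((Nat.le_mul_of_pos_left _ (by omega)).trans h1)

theorem WF.N_le_q (hP : P.WF q g d) : P.N ≤ 2 ^ q :=
  (Nat.le_mul_of_pos_right _ (by positivity)).trans hP.N_le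

theorem WF.PQ_eq (hP : P.WF q g d) : P.PQ = 2 ^ (q + g) := by
  rw [PQ, hP.Pq_eq, hP.Pg_eq, pow_add]

theorem WF.M_eq (hP : P.WF q g d) : P.M = 2 ^ (2 * g) := by
  rw [M, hP.Pg_eq, two_mul, pow_add]

theorem WF.R_eq (hP : P.WF q g d) : P.R = 2 ^ (3 * g) := by
  rw [R, hP.Pg_eq, ← pow_add, ← pow_add]
  congr 1
  omega

theorem WF.M_om_le (hP : P.WF q g d) : P.M * (P.om + 1) ≤ 2 ^ P.K := by
  rw [hP.M_eq, hP.om_eq]
  exact hP.M_le

theorem WF.K_ge (hP : P.WF q g d) : 2 * g ≤ P.K :=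
  (Nat.pow_le_pow_iff_right (by omega : 1 < 2)).1
    ((Nat.le_mul_of_pos_right _ (by omega)).trans hP.M_le)

theorem WF.two_lt_p (hP : P.WF q g d) : 2 < P.p := by
  have h1 := hP.K_ge
  have h2 := hP.g_ge
  exact lt_of_lt_of_le (by norm_num : 2 < 2 ^ 2)
    ((Nat.pow_le_pow_right (by omega) (by omega)).trans hP.p_ge)

theorem WF.D_sq_le (hP : P.WF q g d) : P.D ^ 2 ≤ P.p := by
  refine le_trans ?_ hP.p_ge
  rw [hP.D_eq]
  refine (Nat.pow_le_pow_left hP.D_le 2).trans ?_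
  rw [← pow_mul]
  exact Nat.pow_le_pow_right (by omega) (by omega)

theorem WF.row_le (hP : P.WF q g d) (hs : P.Inv s) {u : ℕ} (hu : u < P.N) :
    ∑ v ∈ range P.N, s.1 u v ≤ P.Pq := by
  have h1 := hs.sub.row ⟨u, hu⟩
  have h2 : (0 : ℝ) < P.Pq := by rw [hP.Pq_eq]; positivity
  simp only [mat] at h1
  rw [← sum_div, div_le_one h2, Fin.sum_univ_eq_sum_range (fun v => (s.1 u v : ℝ))] at h1
  exact_mod_cast h1

theorem WF.rowB_le (hP : P.WF q g d) (hs : P.Inv s) {u : ℕ} (hu : u < P.N) :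
    ∑ v ∈ range P.N, P.Bm s.1 u v ≤ P.PQ := by
  simp only [Bm]
  rw [← sum_mul]
  exact Nat.mul_le_mul (hP.row_le hs hu) (Nat.sub_le _ _)

theorem WF.wk1_wf (hP : P.WF q g d) (hs : P.Inv s) :
    (P.wk1 s.1 s.2 (P.k0 s.1 s.2)).WF (q + g) d (2 ^ P.K) P.R ∧
      ∀ v < P.N, s.2 v = 2 ^ Nat.log 2 (s.2 v) := by
  have hl : ∀ v < P.N, s.2 v = 2 ^ Nat.log 2 (s.2 v) := fun v hv => by
    obtain ⟨w, hw⟩ := hs.pow v hv
    rw [hw, Nat.log_pow (by omega)]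
  have hZ : P.Pq * P.Pq = 2 ^ (2 * q) := by rw [hP.Pq_eq, two_mul, pow_add]
  have h1 := hP.g_le
  have h2 := hP.q_lt
  refine ⟨⟨hP.prime, hP.two_lt_p, hP.PQ_eq, hP.Pd_eq, hP.D_eq, fun v hv => ?_, fun v hv => ?_,
    fun v hv => (hl v hv).symm.dvd, fun v hv => ?_, fun u hu => hP.rowB_le hs hu,
    fun t v hv hk => ?_, ?_, ?_, fun v hv => ?_, ?_⟩, hl⟩
  · refine Nat.le_log_of_pow_le (b := 2) (by omega) ?_
    rw [← hP.PQ_eq]
    exact hs.ge v hv
  · change Nat.log 2 (s.2 v) ≤ P.om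
    rw [hP.om_eq, ← Nat.log_pow (by omega : 1 < 2) (2 * q), ← hZ]
    exact Nat.log_mono_right (hs.le v hv)
  · change 0 < s.2 v
    rw [hl v hv]
    positivity
  · have h3 : ¬(v + 1 = P.N ∨ P.R * s.2 v < P.inf s.1 s.2 v) := by simpa [wk1, k0] using hk
    have h4 : P.inf s.1 s.2 v ≤ P.R * s.2 v := by omega
    exact h4.trans (Nat.mul_le_mul_right _ (Nat.le_succ _))
  · change 2 ^ P.K < P.Pd
    rw [hP.Pd_eq]
    exact Nat.pow_lt_pow_right (by omega) hP.K_lt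
  · change P.N ≤ P.Pd
    rw [hP.Pd_eq]
    exact hP.N_le_q.trans (Nat.pow_le_pow_right (by omega) (by omega))
  · change s.2 v ≤ P.Pd
    rw [hP.Pd_eq]
    exact (hs.le v hv).trans (hZ.le.trans (Nat.pow_le_pow_right (by omega) (by omega)))
  · change P.R < P.Pd
    rw [hP.Pd_eq, hP.R_eq]
    exact Nat.pow_lt_pow_right (by omega) (by omega)

theorem num_zeta {X G R D p T : ℝ} (hX : 64 ≤ X) (hG : 2 ≤ G) (hGX : G * G ≤ X)
    (hR : R = G * G * G) (hD0 : 0 ≤ D) (hD : D ≤ X) (hT0 : 0 ≤ T) (hT : T ≤ X ^ 2)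
    (hp : X ^ 16 ≤ p) :
    √((X + 1) * ((R + 1) * (2 * (R + 2))) * (T + D ^ 2) / p) ≤ 6 / X ^ 5 := by
  have h0 : 0 < X := by linarith
  have hR8 : 8 ≤ R := by rw [hR]; nlinarith [mul_le_mul hG hG (by norm_num) (by linarith)]
  have hR2 : R * R ≤ X ^ 3 := by
    have : R * R = (G * G) ^ 3 := by rw [hR]; ring
    rw [this]
    exact pow_le_pow_left₀ (by positivity) hGX 3
  have h1 : (R + 1) * (2 * (R + 2)) ≤ 8 * X ^ 3 := by nlinarith
  have h2 : T + D ^ 2 ≤ 2 * X ^ 2 := by nlinarith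
  have h3 : (X + 1) * ((R + 1) * (2 * (R + 2))) * (T + D ^ 2) ≤ 2 * X * (8 * X ^ 3) * (2 * X ^ 2) :=
    mul_le_mul (mul_le_mul (by linarith) h1 (by positivity) (by positivity)) h2 (by positivity)
      (by positivity)
  refine Real.sqrt_le_iff.2 ⟨by positivity, ?_⟩
  refine (div_le_div₀ (by positivity) h3 (by positivity) hp).trans ?_
  rw [div_pow, div_le_div_iff₀ (by positivity) (by positivity)]
  have : 0 < X ^ 16 := by positivity
  nlinarith

theorem WF.occV_approx (hP : P.WF q g d) (hs : P.Inv s) {oa : ℕ → ℕ}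
    (hoa : ∀ v < P.N, P.occV s.1 s.2 (P.k0 s.1 s.2) v - 2 * P.PQ ≤ oa v) :
    ∑ v : Fin P.N, |P.occV s.1 s.2 (P.k1 s.1 s.2 oa) v -
      ∑ t ∈ range P.M, ((fun u : Fin P.N => (s.2 u : ℝ)) ᵥ*
        mat P.N (fun u v => if P.k1 s.1 s.2 oa v = true then 0 else P.Bm s.1 u v) P.PQ ^ (t + 1)) v| ≤
      2 * (P.tot s.2 : ℝ) / P.Pg := by
  obtain ⟨hW, hl⟩ := hP.wk1_wf hs
  set W := P.wk1 s.1 s.2 (P.k0 s.1 s.2) with hWd
  set k1 := P.k1 s.1 s.2 oa with hk1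
  set B1 := mat P.N (fun u v => if k1 v = true then 0 else P.Bm s.1 u v) P.PQ with hB1
  have hp : 1 ≤ P.p := hP.prime.one_lt.le
  have hΨ : (P.tot s.2 : ℝ) = ∑ v ∈ range P.N, (s.2 v : ℝ) := by simp [tot]
  have hΨ0 : (0 : ℝ) ≤ P.tot s.2 := Nat.cast_nonneg _
  have hK := hP.K_ge
  have hg := hP.g_ge
  have hX : (64 : ℝ) ≤ 2 ^ P.K := by
    have : 2 ^ 6 ≤ 2 ^ P.K := Nat.pow_le_pow_right (by omega) (by omega)
    exact_mod_cast this
  have hG : (2 : ℝ) ≤ P.Pg := by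
    have : 2 ^ 1 ≤ 2 ^ g := Nat.pow_le_pow_right (by omega) (by omega)
    rw [hP.Pg_eq]
    exact_mod_cast this
  have hMo : (P.M : ℝ) * (P.om + 1) ≤ 2 ^ P.K := by exact_mod_cast hP.M_om_le
  have hM : (P.M : ℝ) = P.Pg * P.Pg := by simp [M]
  have hM0 : (1 : ℝ) ≤ P.M := by nlinarith
  have ho0 : (0 : ℝ) ≤ P.om := Nat.cast_nonneg _
  have hMX : (P.M : ℝ) ≤ 2 ^ P.K := by nlinarith
  have hpX : ((2 : ℝ) ^ P.K) ^ 16 ≤ P.p := by
    rw [← pow_mul, mul_comm]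
    exact_mod_cast hP.p_ge
  have hz := num_zeta (R := P.R) (D := P.D) (T := 3 ^ P.K) hX hG (hM ▸ hMX) (by simp [R])
    (Nat.cast_nonneg _) (by rw [hP.D_eq]; exact_mod_cast hP.D_le) (by positivity)
    (by rw [← pow_mul, mul_comm, pow_mul]; exact pow_le_pow_left₀ (by norm_num) (by norm_num) _) hpX
  have hθ : (1 : ℝ) ≤ 2 * (P.R + 2) := by
    have : (0 : ℝ) ≤ P.R := Nat.cast_nonneg _
    linarith
  have key : ∀ t ≤ P.M, ∑ v ∈ range P.N, |W.ea P.K (fun _ v => k1 v) t v -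
      (W.wk fun _ v => k1 v).vm (fun u => W.n u) t v| ≤
      (3 * t + 1) * (12 * P.tot s.2 / ((2 : ℝ) ^ P.K) ^ 4) := by
    intro t ht
    refine Wk.two_pass hW hl hP.D_sq_le hθ le_rfl hP.M_om_le (fun t v hv => ?_)
      (fun t h0 h1 v hv h2 => ?_) ?_ ht
    · have : P.k0 s.1 s.2 v = true := hv
      simp [hk1, Par.k1, this]
    · have h3 : oa v ≤ P.R * s.2 v := by
        have h4 : ¬P.R * s.2 v < oa v := by
          intro h5
          simp [hk1, Par.k1, h5] at h2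
        omega
      have h4 : (oa v : ℝ) ≤ P.R * s.2 v := by exact_mod_cast h3
      have h5 : (P.PQ : ℝ) ≤ s.2 v := by exact_mod_cast hs.ge v hv
      have h6 := hoa v hv
      obtain ⟨t, rfl⟩ : ∃ t', t = t' + 1 := ⟨t - 1, by omega⟩
      have h7 : W.ea P.K W.kill (t + 1) v ≤ P.occV s.1 s.2 (P.k0 s.1 s.2) v := by
        rw [occV_eq _ _ _ (P.k0 s.1 s.2)]
        exact single_le_sum (f := fun t => W.ea P.K W.kill (t + 1) v)
          (fun t _ => Wk.ea_nonneg _ _ _) (mem_range.2 (by omega))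
      change _ ≤ 2 * (P.R + 2 : ℝ) * s.2 v / 2
      linarith
    · change 2 ^ (P.K + 1) * (∑ v ∈ range P.N, (s.2 v : ℝ)) * √((2 ^ P.K + 1) *
        ((P.R + 1) * (2 * (P.R + 2))) * (3 ^ P.K + (P.D : ℝ) ^ 2) / P.p) ≤ _
      rw [← hΨ, pow_succ]
      refine (mul_le_mul_of_nonneg_left hz (by positivity)).trans (le_of_eq ?_)
      field_simp
      ring
  have hB0 : ∀ u v, 0 ≤ B1 u v := fun u v => by simp only [hB1, mat]; positivity
  have hBr : ∀ u, ∑ v, B1 u v ≤ 1 := by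
    intro u
    have h1 : ((∑ v ∈ range P.N, P.Bm s.1 u v : ℕ) : ℝ) ≤ P.PQ := by
      exact_mod_cast hP.rowB_le hs u.2
    simp only [hB1, mat]
    rw [← sum_div]
    refine div_le_one_of_le₀ (le_trans ?_ h1) (Nat.cast_nonneg _)
    rw [Nat.cast_sum, ← Fin.sum_univ_eq_sum_range (fun v => (P.Bm s.1 u v : ℝ))]
    refine sum_le_sum fun v _ => ?_
    split_ifs <;> simp
  have key2 : ∀ t < P.M, ∑ v : Fin P.N, |W.ea P.K (fun _ v => k1 v) (t + 1) v -
      ((fun u : Fin P.N => (s.2 u : ℝ)) ᵥ* B1 ^ (t + 1)) v| ≤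
      4 * P.M * (12 * P.tot s.2 / ((2 : ℝ) ^ P.K) ^ 4) + P.M * P.om / P.p * P.tot s.2 := by
    intro t ht
    have h1 := key (t + 1) ht
    obtain ⟨h2, h3⟩ := sum_vecMul_pow_le hB0 hBr (a := fun u : Fin P.N => (s.2 u : ℝ))
      (fun u => Nat.cast_nonneg _) (t + 1)
    rw [Fin.sum_univ_eq_sum_range (fun v => (s.2 v : ℝ)), ← hΨ] at h3
    rw [← Fin.sum_univ_eq_sum_range (fun v => |W.ea P.K (fun _ v => k1 v) (t + 1) v -
      (W.wk fun _ v => k1 v).vm (fun u => W.n u) (t + 1) v|)] at h1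
    have h4 := Wk.one_sub_rho_pow_le (W := W) hp (t + 1)
    have h5 : W.rho ^ (t + 1) ≤ 1 := pow_le_one₀ (Wk.rho_nonneg hp) (Wk.rho_le_one hp)
    have ht' : ((t + 1 : ℕ) : ℝ) ≤ P.M := by exact_mod_cast ht
    have h6 : 1 - W.rho ^ (t + 1) ≤ P.M * P.om / P.p :=
      h4.trans (div_le_div_of_nonneg_right (mul_le_mul_of_nonneg_right ht' ho0) (Nat.cast_nonneg _))
    have h7 : ∀ v : Fin P.N, |W.ea P.K (fun _ v => k1 v) (t + 1) v -
        ((fun u : Fin P.N => (s.2 u : ℝ)) ᵥ* B1 ^ (t + 1)) v| ≤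
        |W.ea P.K (fun _ v => k1 v) (t + 1) v -
          (W.wk fun _ v => k1 v).vm (fun u => W.n u) (t + 1) v| +
        (1 - W.rho ^ (t + 1)) * ((fun u : Fin P.N => (s.2 u : ℝ)) ᵥ* B1 ^ (t + 1)) v := by
      intro v
      have e : (W.wk fun _ v => k1 v).vm (fun u => W.n u) (t + 1) v = W.rho ^ (t + 1) *
          ((fun u : Fin P.N => (s.2 u : ℝ)) ᵥ* B1 ^ (t + 1)) v :=
        W.vm_eq_mat k1 (fun u => W.n u) (t + 1) v
      rw [e]
      have h8 := mul_nonneg (sub_nonneg.2 h5) (h2 v)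
      have h9 := le_abs_self (W.ea P.K (fun _ v => k1 v) (t + 1) v - W.rho ^ (t + 1) *
          ((fun u : Fin P.N => (s.2 u : ℝ)) ᵥ* B1 ^ (t + 1)) v)
      have h10 := neg_abs_le (W.ea P.K (fun _ v => k1 v) (t + 1) v - W.rho ^ (t + 1) *
          ((fun u : Fin P.N => (s.2 u : ℝ)) ᵥ* B1 ^ (t + 1)) v)
      rw [abs_le]
      constructor <;> linarith
    refine (sum_le_sum fun v _ => h7 v).trans ?_
    rw [sum_add_distrib, ← mul_sum]
    refine add_le_add (h1.trans (mul_le_mul_of_nonneg_right (by linarith) (by positivity))) ?_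
    exact mul_le_mul h6 h3 (sum_nonneg fun v _ => h2 v) (by positivity)
  have h1 : ∀ v : Fin P.N, |P.occV s.1 s.2 k1 v -
      ∑ t ∈ range P.M, ((fun u : Fin P.N => (s.2 u : ℝ)) ᵥ* B1 ^ (t + 1)) v| ≤
      ∑ t ∈ range P.M, |W.ea P.K (fun _ v => k1 v) (t + 1) v -
        ((fun u : Fin P.N => (s.2 u : ℝ)) ᵥ* B1 ^ (t + 1)) v| := by
    intro v
    rw [occV_eq _ _ _ (P.k0 s.1 s.2), ← sum_sub_distrib]
    exact abs_sum_le_sum_abs _ _
  refine (sum_le_sum fun v _ => h1 v).trans ?_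
  rw [sum_comm]
  refine (sum_le_card_nsmul _ _ _ fun t ht => key2 t (mem_range.1 ht)).trans ?_
  rw [card_range, nsmul_eq_mul]
  generalize (2 : ℝ) ^ P.K = X at hX hMo hMX hpX
  have hGX : (P.Pg : ℝ) ≤ X := by nlinarith
  have hX0 : 0 < X := by linarith
  have e1 : (P.M : ℝ) * (4 * P.M * (12 * P.tot s.2 / X ^ 4)) ≤ P.tot s.2 / P.Pg := by
    have h2 : (P.M : ℝ) * (4 * P.M * (12 * P.tot s.2 / X ^ 4)) =
        48 * (P.M * P.M) / X ^ 4 * P.tot s.2 := by ring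
    rw [h2, div_eq_inv_mul (P.tot s.2 : ℝ)]
    refine mul_le_mul_of_nonneg_right ?_ hΨ0
    rw [inv_eq_one_div, div_le_div_iff₀ (by positivity) (by linarith)]
    have h3 : (P.M : ℝ) * P.M * P.Pg ≤ X * X * X :=
      mul_le_mul (mul_le_mul hMX hMX (by linarith) hX0.le) hGX (by linarith) (by positivity)
    have h4 : 0 < X * X * X := by positivity
    nlinarith
  have e2 : (P.M : ℝ) * (P.M * P.om / P.p * P.tot s.2) ≤ P.tot s.2 / P.Pg := by
    have h2 : (P.M : ℝ) * (P.M * P.om / P.p * P.tot s.2) =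
        P.M * (P.M * P.om) / P.p * P.tot s.2 := by ring
    have h5 : (0 : ℝ) < P.p := by exact_mod_cast hp
    rw [h2, div_eq_inv_mul (P.tot s.2 : ℝ)]
    refine mul_le_mul_of_nonneg_right ?_ hΨ0
    rw [inv_eq_one_div, div_le_div_iff₀ h5 (by linarith)]
    have h3 : (P.M : ℝ) * (P.M * P.om) * P.Pg ≤ X * X * X :=
      mul_le_mul (mul_le_mul hMX (by nlinarith) (by positivity) hX0.le) hGX (by linarith)
        (by positivity)
    have h4 : X ^ 3 ≤ X ^ 16 := pow_le_pow_right₀ (by linarith) (by norm_num)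
    nlinarith
  rw [mul_add, mul_div_assoc 2]
  linarith

end Par

end Vale.Agent.P313.F43
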