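import Vale.Agent.P313.F43.Can
import Vale.Agent.P313.F43.Occ

/-! The potential decreases in a canonical stage. -/

namespace Vale.Agent.P313.F43

namespace Par

variable {P : Par} {q g d : ℕ} {s : (ℕ → ℕ → ℕ) × (ℕ → ℕ)} {δ : ℕ → ℕ}

theorem WF.stageC_pot (hP : P.WF q g d) (hs : P.Inv s) (hδ : ∀ c < 3, δ c < 2 ^ (q - 2)) :
    (P.pot (P.stageC δ s).2 : ℝ) ≤ 32 / P.Pg * (P.pot s.2 + 2 * (P.Pq * P.Pq)) :=
  CanP.pot_le hP hs (hδ 1 (by omega))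
    (hP.occV_approx hs fun v _ => CanP.le_occC hP (hδ 0 (by omega)) _ _ _ v)

end Par

end Vale.Agent.P313.F43
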