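import Vale.Agent.Lib.Space.SPNat

/-! Tables of numbers written on a binary word, and iterated transducers on such tables. -/

namespace Vale.Agent.P313.F43

open Finset Vale.Agent.Lib.Space

/-- The cell number `k` of the word `y`; a cell has `log₂ |y|` bits. -/
def cell (y : List Bool) (k : ℕ) : ℕ :=
  ∑ j ∈ range (Nat.log 2 y.length), (y.getD (k * Nat.log 2 y.length + j) false).toNat * 2 ^ j

/-- The word of length `2 ^ lam` which holds the table `T` in cells of `lam` bits. -/
def wordOf (lam : ℕ) (T : ℕ → ℕ) : List Bool :=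
  (List.range (2 ^ lam)).map fun i => (T (i / lam)).testBit (i % lam)

/-- The table which is read back from the word of `T`. -/
def trunc (lam : ℕ) (T : ℕ → ℕ) : ℕ → ℕ := cell (wordOf lam T)

/-- The budget of a word is its length. -/
def lenB : Bud Bool := ⟨List.length⟩

/-- The table after `j` applications of the transducer `Φ`. -/
def tabs (Φ : (ℕ → ℕ) → ℕ → ℕ) (lam : ℕ) (T0 : ℕ → ℕ) : ℕ → ℕ → ℕ
  | 0 => trunc lam T0
  | j + 1 => trunc lam (Φ (tabs Φ lam T0 j))

end Vale.Agent.P313.F43
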