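import Vale.Agent.P313.F43.CanDef
import Vale.Agent.P313.F43.Cell

/-! The parameters as functions of the number of vertices, and the decision procedure. -/

namespace Vale.Agent.P313.F43

open Finset

/-- number of bits of `N` -/
def pL (N : ℕ) : ℕ := Nat.log 2 N + 1

/-- about `L ^ (2 / 3)` -/
def pg (N : ℕ) : ℕ := 20 + ∑ j ∈ range (pL N + 1), if j ^ 3 < pL N ^ 2 then 1 else 0

/-- number of stages -/
def pr (N : ℕ) : ℕ := (pL N + 10) / (pg N - 5) + 1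

/-- precision of the matrices -/
def pq (N : ℕ) : ℕ := 3 * pL N + 2 * pg N + 20

/-- number of levels of the generator -/
def pK (N : ℕ) : ℕ := 2 * pg N + (Nat.log 2 (2 * pq N + 1) + 1)

/-- bits of a digit of the code -/
def pd (N : ℕ) : ℕ := 3 * pq N + pK N + 1

/-- the prime -/
def pp (N : ℕ) : ℕ := Nat.find (Nat.exists_infinite_primes (2 ^ (16 * pK N)))

/-- digits of a sample index -/
def pe (N : ℕ) : ℕ := 10 * pd N / (16 * pK N) + 1

/-- Newton steps -/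
def pnl (N : ℕ) : ℕ := Nat.log 2 (6 * pd N / (pg N - 3)) + 1

/-- bits of a cell -/
def plam (N : ℕ) : ℕ := 12 * pd N + 17 * pK N + 20

/-- number of layers -/
def pJ (N : ℕ) : ℕ := pr N * (pnl N + 2)

/-- number of shifts -/
def pS (N : ℕ) : ℕ := 2 ^ (pq N - 2)

/-- The parameters. -/
def par (N : ℕ) : Par :=
  ⟨N, 2 ^ pq N, 2 ^ pg N, pq N + pg N, 2 * pq N, pp N, 2 ^ pd N, 4 * pd N, pK N, pe N,
    pp N ^ pe N, 2 ^ (8 * pd N), pnl N, 2 ^ (8 * pd N + pg N - pq N)⟩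

/-- The first state, for a matrix `A0` with the denominator `2`. -/
def st0 (N : ℕ) (A0 : ℕ → ℕ → ℕ) : (ℕ → ℕ → ℕ) × (ℕ → ℕ) :=
  (fun u v => if u < N ∧ v < N then A0 u v * 2 ^ (pq N - 1) else 0,
    fun v => if v < N then 2 ^ pq N * 2 ^ pq N else 0)

/-- The first `T` digits of `w` in base `b`. -/
def digs (T b w i : ℕ) : ℕ := if i < T then w / b ^ i % b else 0

/-- The first table, for the random numbers `w1`, `w2`. -/
def dat0 (N : ℕ) (A0 : ℕ → ℕ → ℕ) (w1 w2 : ℕ) : Dat :=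
  ⟨par N, 0, digs (par N).T0 (pp N) w1, digs (3 * pr N) (pS N) w2, (par N).T0 + 3 * pr N,
    (st0 N A0).1, (st0 N A0).2, (fun _ _ => 0, fun _ _ => 0)⟩

/-- The vote for the random numbers `w1`, `w2`. -/
def vote (N : ℕ) (A0 : ℕ → ℕ → ℕ) (w1 w2 : ℕ) : ℕ :=
  if 5 * 2 ^ pq N ≤ 12 * tabs Phi (plam N) (dat0 N A0 w1 w2).enc (pJ N) (8 * (N - 1) + 3) then 1
  else 0

/-- The decision. -/
def dec43 (N : ℕ) (A0 : ℕ → ℕ → ℕ) : Bool :=
  decide (pp N ^ (par N).T0 * pS N ^ (3 * pr N) <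
    2 * ∑ w1 ∈ range (pp N ^ (par N).T0), ∑ w2 ∈ range (pS N ^ (3 * pr N)), vote N A0 w1 w2)

/-- The budget. -/
def bud (N : ℕ) : ℕ :=
  2 ^ ((plam N + 1) * (pJ N + 1)) + pp N ^ (par N).T0 + pS N ^ (3 * pr N)

end Vale.Agent.P313.F43
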