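import Vale.Agent.P313.F43.SPAlg
import Vale.Agent.P313.F43.TopDef

/-! The decision procedure is computed with registers polynomially bounded in the budget. -/

set_option linter.unusedTactic false
set_option linter.unreachableTactic false

namespace Vale.Agent.P313.F43

open Finset Vale.Agent.Lib.Space

variable {A : Type} {α : Type} [Enc A α] {B : Bud A} {N : α → ℕ}

theorem sp_prime {q : α → ℕ} (hq : SP B q) : SP B fun a => decide (q a).Prime := by
  have h : SP B fun a => decide (2 ≤ q a ∧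
      (∑ m ∈ range (q a), if q a % m = 0 ∧ m ≠ 1 then 1 else 0) = 0) := by
    with_reducible repeat' first
        | assumption | exact SP.const _ | exact SP.id | apply SP1.intro | apply SP2.intro
        | apply SP.ite | apply SP.decide_or | apply SP.decide_and | apply SP.decide_true
        | apply SP.decide_eq | apply SP.decide_ne | apply SP.decide_lt | apply SP.decide_le
        | apply SP.decide_not | apply SP.or | apply SP.and | apply SP.sum_range | apply SP.div_pow
        | apply SP.min_pow | apply sp_log2 | apply SP.add | apply SP.sub | apply SP.mul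
        | apply SP.div | apply SP.mod | apply SP.min | apply SP.fst | apply SP.snd | apply SP.pair
        | (apply SP2.app; assumption) | (apply SP1.app; assumption) | (apply sp_app0; assumption)
  refine h.congr fun a => decide_eq_decide.2 ?_
  rw [Nat.prime_def_lt, sum_eq_zero_iff]
  refine and_congr_right fun _ => forall_congr' fun m => ?_
  rw [mem_range, Nat.dvd_iff_mod_eq_zero]
  refine imp_congr_right fun _ => ?_
  by_cases h1 : q a % m = 0 <;> by_cases h2 : m = 1 <;> simp [h1, h2]

theorem sp_pL (hN : SP B N) : SP B fun a => pL (N a) := (sp_log2 hN).add (SP.const 1)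

theorem sp_pg (hN : SP B N) : SP B fun a => pg (N a) := by
  have h := sp_pL hN
  exact (SP.const 20).add (SP.sum_range (h.add (SP.const 1)) (SP.ite
    ((SP.snd'.pow_const 3).decide_lt ((h.comp SP.fst').pow_const 2)) (SP.const 1) (SP.const 0)))

theorem sp_pr (hN : SP B N) : SP B fun a => pr (N a) :=
  (((sp_pL hN).add (SP.const 10)).div ((sp_pg hN).sub (SP.const 5))).add (SP.const 1)

theorem sp_pq (hN : SP B N) : SP B fun a => pq (N a) :=
  (((SP.const 3).mul (sp_pL hN)).add ((SP.const 2).mul (sp_pg hN))).add (SP.const 20)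

theorem sp_pK (hN : SP B N) : SP B fun a => pK (N a) :=
  ((SP.const 2).mul (sp_pg hN)).add
    ((sp_log2 (((SP.const 2).mul (sp_pq hN)).add (SP.const 1))).add (SP.const 1))

theorem sp_pd (hN : SP B N) : SP B fun a => pd (N a) :=
  (((SP.const 3).mul (sp_pq hN)).add (sp_pK hN)).add (SP.const 1)

theorem sp_pe (hN : SP B N) : SP B fun a => pe (N a) :=
  (((SP.const 10).mul (sp_pd hN)).div ((SP.const 16).mul (sp_pK hN))).add (SP.const 1)

theorem sp_pnl (hN : SP B N) : SP B fun a => pnl (N a) :=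
  (sp_log2 (((SP.const 6).mul (sp_pd hN)).div ((sp_pg hN).sub (SP.const 3)))).add (SP.const 1)

theorem sp_plam (hN : SP B N) : SP B fun a => plam (N a) :=
  (((SP.const 12).mul (sp_pd hN)).add ((SP.const 17).mul (sp_pK hN))).add (SP.const 20)

theorem sp_pJ (hN : SP B N) : SP B fun a => pJ (N a) :=
  (sp_pr hN).mul ((sp_pnl hN).add (SP.const 2))

theorem sp_T0 (hN : SP B N) : SP B fun a => (par (N a)).T0 :=
  ((SP.const 12).mul (sp_pK hN)).add (sp_pe hN)

theorem two_pow_le_bud {n e : ℕ} (he : e ≤ plam n) : 2 ^ e ≤ bud n :=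
  (Nat.pow_le_pow_right (by omega) (by nlinarith)).trans
    ((Nat.le_add_right _ _).trans (Nat.le_add_right _ _))

theorem pp_pow_le_bud {n e : ℕ} (he : e ≤ (par n).T0) : pp n ^ e ≤ bud n :=
  (Nat.pow_le_pow_right (Nat.find_spec (Nat.exists_infinite_primes (2 ^ (16 * pK n)))).2.pos
    he).trans ((Nat.le_add_left _ _).trans (Nat.le_add_right _ _))

theorem sp_two_pow (hb : PBd B fun a => bud (N a)) {e : α → ℕ} (he : SP B e)
    (h : ∀ a, e a ≤ plam (N a)) : SP B fun a => 2 ^ e a :=
  sp_pow (SP.const 2) he (hb.mono fun a => two_pow_le_bud (h a))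

theorem sp_pp (hN : SP B N) (hb : PBd B fun a => bud (N a)) : SP B fun a => pp (N a) := by
  have key : ∀ s k : ℕ, (fun s : ℕ => s + 1)^[k] s = s + k := by
    intro s k
    induction k with
    | zero => rfl
    | succ k ih => rw [Function.iterate_succ_apply', ih, add_assoc]
  refine SP.while' (init := fun a => 2 ^ (16 * pK (N a))) (step := fun _ s => s + 1)
    (cont := fun _ s => !decide s.Prime)
    (sp_two_pow hb ((SP.const 16).mul (sp_pK hN)) fun a => by unfold plam; omega)
    (SP.snd'.add (SP.const 1)) (sp_prime SP.snd').not hb fun x a _ => ?_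
  obtain ⟨h1, h2⟩ := Nat.find_spec (Nat.exists_infinite_primes (2 ^ (16 * pK (N a))))
  have h3 : 2 ^ (16 * pK (N a)) + (pp (N a) - 2 ^ (16 * pK (N a))) = pp (N a) :=
    Nat.add_sub_cancel' h1
  refine ⟨pp (N a) - 2 ^ (16 * pK (N a)), by rw [key, h3], ?_, fun k hk => ?_, fun k hk => ?_⟩
  · have h4 : (pp (N a)).Prime := h2
    rw [key, h3]
    simpa using h4
  · rw [key]
    have h4 := Nat.find_min (Nat.exists_infinite_primes (2 ^ (16 * pK (N a))))
      (m := 2 ^ (16 * pK (N a)) + k) (by unfold pp at hk h3; omega)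
    simpa using h4
  · rw [key, enc_nat]
    have h4 : pp (N a) ^ 1 ≤ bud (N a) := pp_pow_le_bud (by
      change 1 ≤ 12 * pK (N a) + pe (N a)
      exact (Nat.le_add_left 1 _).trans (Nat.le_add_left _ _))
    rw [pow_one] at h4
    omega

theorem sp_pp_pow (hN : SP B N) (hb : PBd B fun a => bud (N a)) {e : α → ℕ} (he : SP B e)
    (h : ∀ a, e a ≤ (par (N a)).T0) : SP B fun a => pp (N a) ^ e a :=
  sp_pow (sp_pp hN hb) he (hb.mono fun a => pp_pow_le_bud (h a))

theorem sp_pS (hN : SP B N) (hb : PBd B fun a => bud (N a)) : SP B fun a => pS (N a) :=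
  sp_two_pow hb ((sp_pq hN).sub (SP.const 2)) fun a => by unfold plam pd; omega

theorem spPar_par (hN : SP B N) (hb : PBd B fun a => bud (N a)) :
    SPPar B fun a => par (N a) :=
  ⟨hN, sp_two_pow hb (sp_pq hN) fun a => by unfold plam pd; omega,
    sp_two_pow hb (sp_pg hN) fun a => by unfold plam pK; omega, (sp_pq hN).add (sp_pg hN),
    (SP.const 2).mul (sp_pq hN), sp_pp hN hb,
    sp_two_pow hb (sp_pd hN) fun a => by unfold plam; omega, (SP.const 4).mul (sp_pd hN), sp_pK hN,
    sp_pe hN, sp_pp_pow hN hb (sp_pe hN) fun a => Nat.le_add_left _ _,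
    sp_two_pow hb ((SP.const 8).mul (sp_pd hN)) fun a => by unfold plam; omega, sp_pnl hN,
    sp_two_pow hb ((((SP.const 8).mul (sp_pd hN)).add (sp_pg hN)).sub (sp_pq hN)) fun a => by
      unfold plam pK; omega⟩

theorem sp_digs {T b w : α → ℕ} (hT : SP B T) (hb : SP B b) (hw : SP B w) :
    SP1 B fun a => digs (T a) (b a) (w a) := by
  unfold digs
  with_reducible repeat' first
      | assumption | exact SP.const _ | exact SP.id | apply SP1.intro | apply SP2.intro
      | apply SP.ite | apply SP.decide_or | apply SP.decide_and | apply SP.decide_true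
      | apply SP.decide_eq | apply SP.decide_ne | apply SP.decide_lt | apply SP.decide_le
      | apply SP.decide_not | apply SP.or | apply SP.and | apply SP.sum_range | apply SP.div_pow
      | apply SP.min_pow | apply sp_log2 | apply SP.add | apply SP.sub | apply SP.mul
      | apply SP.div | apply SP.mod | apply SP.min | apply SP.fst | apply SP.snd | apply SP.pair
      | (apply SP2.app; assumption) | (apply SP1.app; assumption) | (apply sp_app0; assumption)

theorem spDat_dat0 (hN : SP B N) (hb : PBd B fun a => bud (N a)) {A0 : α → ℕ → ℕ → ℕ}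
    (hA : SP2 B A0) {w1 w2 : α → ℕ} (h1 : SP B w1) (h2 : SP B w2) :
    SPDat B fun a => dat0 (N a) (A0 a) (w1 a) (w2 a) := by
  have h3 : SP B fun a => 3 * pr (N a) := (SP.const 3).mul (sp_pr hN)
  have h4 : SP B fun a => 2 ^ (pq (N a) - 1) :=
    sp_two_pow hb ((sp_pq hN).sub (SP.const 1)) fun a => by unfold plam pd; omega
  have h5 := (spPar_par hN hb).Pq
  refine ⟨spPar_par hN hb, SP.const 0, sp_digs (sp_T0 hN) (sp_pp hN hb) h1,
    sp_digs h3 (sp_pS hN hb) h2, (sp_T0 hN).add h3, ?_, ?_, SP.const 0, SP.const 0⟩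
  · exact SP.ite ((SP.snd'.fst.decide_lt (hN.comp SP.fst')).decide_and
      (SP.snd'.snd.decide_lt (hN.comp SP.fst'))) (SP.mul hA (h4.comp SP.fst')) (SP.const 0)
  · exact SP.ite (SP.snd'.decide_lt (hN.comp SP.fst')) ((h5.mul h5).comp SP.fst') (SP.const 0)

theorem sp_vote (hN : SP B N) (hb : PBd B fun a => bud (N a)) {A0 : α → ℕ → ℕ → ℕ}
    (hA : SP2 B A0) {w1 w2 : α → ℕ} (h1 : SP B w1) (h2 : SP B w2) :
    SP B fun a => vote (N a) (A0 a) (w1 a) (w2 a) :=
  SP.ite (((SP.const 5).mul (spPar_par hN hb).Pq).decide_le ((SP.const 12).mul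
    (sp_tabs sp_Phi (sp_plam hN) (sp_pJ hN)
      (((SP.const 8).mul (hN.sub (SP.const 1))).add (SP.const 3))
      (((spDat_dat0 hN hb hA h1 h2).comp SP.fst').enc SP.snd')
      (hb.mono fun _ => (Nat.le_add_right _ _).trans (Nat.le_add_right _ _)))))
    (SP.const 1) (SP.const 0)

theorem sp_dec43' (hN : SP B N) (hb : PBd B fun a => bud (N a)) {A0 : α → ℕ → ℕ → ℕ}
    (hA : SP2 B A0) : SP B fun a => dec43 (N a) (A0 a) := by
  have h1 : SP B fun a => pp (N a) ^ (par (N a)).T0 := sp_pp_pow hN hb (sp_T0 hN) fun _ => le_rfl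
  have h2 : SP B fun a => pS (N a) ^ (3 * pr (N a)) :=
    sp_pow (sp_pS hN hb) ((SP.const 3).mul (sp_pr hN)) (hb.mono fun _ => Nat.le_add_left _ _)
  exact (h1.mul h2).decide_lt ((SP.const 2).mul (SP.sum_range h1 (SP.sum_range (h2.comp SP.fst')
    (sp_vote (A0 := fun c : (α × ℕ) × ℕ => A0 c.1.1) (hN.comp SP.fst'.fst) (hb.comp SP.fst'.fst)
      (hA.app SP.fst'.fst.fst SP.snd'.fst SP.snd'.snd) SP.fst'.snd SP.snd'))))

theorem sp_dec43 {A : Type} {B : Bud A} {N : Inp A → ℕ} {A0 : Inp A → ℕ → ℕ → ℕ} (hN : SP B N)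
    (hA : SP B fun p : Inp A × ℕ × ℕ => A0 p.1 p.2.1 p.2.2) (hB : ∀ x, bud (N x) ≤ B.b x) :
    SP B fun x => dec43 (N x) (A0 x) :=
  sp_dec43' hN ((PBd.budget SP.id).mono hB) hA

end Vale.Agent.P313.F43
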