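import Vale.Agent.P313.F43.IterProg
import Vale.Agent.P313.F43.Cell

/-!
Iterated transducers: `J` applications of a logarithmic space transducer to a table of `2 ^ lam`
bits are evaluated in space `O(lam * J)`.
-/

namespace Vale.Agent.P313.F43

open Function Finset Vale.Agent.Lib.Space

theorem sum_testBit (x n : ℕ) : ∑ j ∈ range n, (x.testBit j).toNat * 2 ^ j = x % 2 ^ n := by
  induction n with
  | zero => simp [Nat.mod_one]
  | succ n ih => rw [sum_range_succ, ih, Nat.mod_pow_succ, Nat.toNat_testBit, mul_comm]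

theorem length_wordOf (lam : ℕ) (T : ℕ → ℕ) : (wordOf lam T).length = 2 ^ lam := by
  simp [wordOf]

theorem getD_wordOf (lam : ℕ) (T : ℕ → ℕ) (i : ℕ) : (wordOf lam T).getD i false =
    if i < 2 ^ lam then (T (i / lam)).testBit (i % lam) else false := by
  rw [List.getD_eq_getElem?_getD]
  split_ifs with h
  · simp [wordOf, h]
  · rw [List.getElem?_eq_none (by rw [length_wordOf]; omega)]
    rfl

theorem trunc_eq {lam k : ℕ} (T : ℕ → ℕ) (h : (k + 1) * lam ≤ 2 ^ lam) :
    trunc lam T k = T k % 2 ^ lam := by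
  rw [trunc, cell, length_wordOf, Nat.log_pow (by omega), ← sum_testBit]
  refine sum_congr rfl fun j hj => ?_
  have hj' := mem_range.1 hj
  have h1 : (k * lam + j) / lam = k := by
    rw [add_comm, Nat.add_mul_div_right _ _ (by omega), Nat.div_eq_of_lt hj', zero_add]
  have h2 : (k * lam + j) % lam = j := Nat.mul_add_mod_of_lt hj'
  rw [getD_wordOf, if_pos (by nlinarith), h1, h2]

section sp

variable {A : Type} {α : Type} [Enc A α] {B : Bud A}

theorem sp_testBit {x i : α → ℕ} (hx : SP B x) (hi : SP B i) :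
    SP B fun a => (x a).testBit (i a) :=
  (((SP.div_pow hx (SP.const 2) hi).mod (SP.const 2)).decide_eq (SP.const 1)).congr fun _ =>
    (Nat.testBit_eq_decide_div_mod_eq).symm

theorem sp_pow {b n : α → ℕ} (hb : SP B b) (hn : SP B n) (h : PBd B fun a => b a ^ n a) :
    SP B fun a => b a ^ n a := by
  have key : ∀ b k : ℕ, (fun s => s * b)^[k] 1 = b ^ k := by
    intro b k
    induction k with
    | zero => simp
    | succ k ih => rw [iterate_succ_apply', ih, pow_succ]
  refine (SP.iterate (step := fun a s => s * b a) hn (SP.const 1)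
    (SP.snd'.mul (hb.comp SP.fst')) (h.add (PBd.const 1)) fun x a _ k hk => ?_).congr
    fun a => key _ _
  rw [key, enc_nat]
  rcases Nat.eq_zero_or_pos (b a) with h0 | h0
  · rw [h0]
    cases k <;> simp
  · exact (Nat.pow_le_pow_right h0 hk).trans (Nat.le_add_right _ _)

theorem sp_log2 {n : α → ℕ} (hn : SP B n) : SP B fun a => Nat.log 2 (n a) := by
  have h1 : SP B fun a => ∑ j ∈ range (n a), if n a / 2 ^ (j + 1) = 0 then 0 else 1 :=
    SP.sum_range hn (SP.ite ((SP.div_pow (hn.comp SP.fst') (SP.const 2)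
      (SP.snd'.add (SP.const 1))).decide_eq (SP.const 0)) (SP.const 0) (SP.const 1))
  refine h1.congr fun a => ?_
  rcases Nat.eq_zero_or_pos (n a) with h0 | h0
  · simp [h0]
  have h2 : (range (n a)).filter (fun j => ¬ n a / 2 ^ (j + 1) = 0) = range (Nat.log 2 (n a)) := by
    ext j
    have h3 : j + 1 ≤ Nat.log 2 (n a) ↔ 2 ^ (j + 1) ≤ n a :=
      Nat.le_log_iff_pow_le (by omega) h0.ne'
    have h4 : Nat.log 2 (n a) < n a := Nat.log_lt_self 2 h0.ne'
    have h5 : n a / 2 ^ (j + 1) = 0 ↔ n a < 2 ^ (j + 1) := by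
      rw [Nat.div_eq_zero_iff]
      have : 0 < 2 ^ (j + 1) := by positivity
      omega
    simp only [mem_filter, mem_range, h5]
    omega
  rw [← card_range (Nat.log 2 (n a)), ← h2, card_filter]
  exact sum_congr rfl fun j _ => (ite_not _ _ _).symm

end sp

section word

variable {α : Type} [Enc Bool α] {B : Bud Bool}

theorem sp_getD {Y : α → Inp Bool} {i : α → ℕ} (hY : SP B Y) (hi : SP B i) :
    SP B fun a => (Y a).getD (i a) false := by
  refine (SP.inTest (fun s => match s with | .letter true => true | _ => false) hY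
    (hi.add (SP.const 1))).congr fun a => ?_
  rw [List.getD_eq_getElem?_getD]
  simp only [inAt]
  rcases (Y a)[i a]? with _ | _ | _ <;> rfl

@[fun_prop]
theorem sp_length {Y : α → Inp Bool} (hY : SP lenB Y) : SP lenB fun a => (Y a).length := by
  have key : ∀ k : ℕ, (fun s : ℕ => s + 1)^[k] 0 = k := by
    intro k
    induction k with
    | zero => rfl
    | succ k ih => rw [iterate_succ_apply', ih]
  refine SP.while' (init := fun _ => 0) (step := fun _ s => s + 1)
    (cont := fun a s => match inAt (Y a) (s + 1) with | .last => false | _ => true)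
    (bd := fun a => lenB.b (Y a)) (SP.const 0) (SP.snd'.add (SP.const 1))
    (SP.inTest (fun s => match s with | .last => false | _ => true) (hY.comp SP.fst')
      (SP.snd'.add (SP.const 1))) (PBd.budget hY) fun x a _ =>
    ⟨(Y a).length, (key _).symm, ?_, fun k hk => ?_, fun k hk => ?_⟩
  · rw [key]
    simp [inAt]
  · rw [key]
    simp [inAt, List.getElem?_eq_getElem hk]
  · rw [key]
    exact hk

@[fun_prop]
theorem sp_cell {α : Type} [Enc Bool α] {Y : α → Inp Bool} {k : α → ℕ} (hY : SP lenB Y)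
    (hk : SP lenB k) : SP lenB fun a => cell (Y a) (k a) := by
  have hl := sp_length hY
  have hg := sp_log2 hl
  have h1 : SP lenB fun a => ∑ j ∈ range (Nat.log 2 (Y a).length),
      ((Y a).getD (k a * Nat.log 2 (Y a).length + j) false).toNat *
        min (Y a).length (2 ^ j) :=
    SP.sum_range hg ((sp_getD (hY.comp SP.fst')
      (((hk.comp SP.fst').mul (hg.comp SP.fst')).add SP.snd')).toNat.mul
      (SP.min_pow (hl.comp SP.fst') (SP.const 2) SP.snd'))
  refine h1.congr fun a => sum_congr rfl fun j hj => ?_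
  have hj' := mem_range.1 hj
  have h0 : (Y a).length ≠ 0 := by
    intro h
    simp [h] at hj'
  rw [min_eq_right ((Nat.pow_le_pow_right (by omega) hj'.le).trans (Nat.pow_log_le_self 2 h0))]

end word

/-- The word which holds the table number `j`. -/
def words (Φ : (ℕ → ℕ) → ℕ → ℕ) (lam : ℕ) (T0 : ℕ → ℕ) : ℕ → List Bool
  | 0 => wordOf lam T0
  | j + 1 => wordOf lam (Φ (cell (words Φ lam T0 j)))

theorem tabs_eq (Φ : (ℕ → ℕ) → ℕ → ℕ) (lam : ℕ) (T0 : ℕ → ℕ) (j : ℕ) :
    tabs Φ lam T0 j = cell (words Φ lam T0 j) := by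
  induction j with
  | zero => rfl
  | succ j ih => rw [tabs, ih]; rfl

theorem length_words (Φ : (ℕ → ℕ) → ℕ → ℕ) (lam : ℕ) (T0 : ℕ → ℕ) (j : ℕ) :
    (words Φ lam T0 j).length = 2 ^ lam := by
  cases j <;> exact length_wordOf _ _

/-- The bits of the words. -/
def bits (Φ : (ℕ → ℕ) → ℕ → ℕ) (lam : ℕ) (T0 : ℕ → ℕ) : ℕ → ℕ → ℕ
  | 0, i => ((T0 (i / lam)).testBit (i % lam)).toNat
  | j + 1, i => ((Φ (cell (words Φ lam T0 j)) (i / lam)).testBit (i % lam)).toNat

theorem bits_le (Φ : (ℕ → ℕ) → ℕ → ℕ) (lam : ℕ) (T0 : ℕ → ℕ) (j i : ℕ) :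
    bits Φ lam T0 j i ≤ 1 := by
  cases j <;> exact Bool.toNat_le _

theorem getD_words (Φ : (ℕ → ℕ) → ℕ → ℕ) (lam : ℕ) (T0 : ℕ → ℕ) (j i : ℕ) :
    ((words Φ lam T0 j).getD i false).toNat = if i < 2 ^ lam then bits Φ lam T0 j i else 0 := by
  cases j <;> simp only [words, bits, getD_wordOf] <;> split_ifs <;> rfl

theorem symOf_bits (Φ : (ℕ → ℕ) → ℕ → ℕ) (lam : ℕ) (T0 : ℕ → ℕ) (j h : ℕ) :
    symOf (words Φ lam T0 j).length h (bits Φ lam T0 j (h - 1)) = inAt (words Φ lam T0 j) h := by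
  cases h with
  | zero => rfl
  | succ h =>
    have h1 := getD_words Φ lam T0 j h
    have h2 := length_words Φ lam T0 j
    simp only [symOf, inAt, Nat.add_one_ne_zero, if_false, Nat.add_sub_cancel]
    split_ifs with h3
    · rw [if_pos (by omega), List.getD_eq_getElem?_getD,
        List.getElem?_eq_getElem (by omega)] at h1
      rw [List.getElem?_eq_getElem (by omega), ← h1]
      simp only [Option.getD_some, Option.map_some]
      cases (words Φ lam T0 j)[h] <;> rfl
    · rw [List.getElem?_eq_none (by omega)]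
      rfl

theorem sp_bits {A α : Type} [Enc A α] {B : Bud A} {Φ : (ℕ → ℕ) → ℕ → ℕ}
    (hΦ : SP lenB fun p : Inp Bool × ℕ => Φ (cell p.1) p.2) {lam J i : α → ℕ} {T0 : α → ℕ → ℕ}
    (hlam : SP B lam) (hJ : SP B J) (hi : SP B i) (hT0 : SP B fun p : α × ℕ => T0 p.1 p.2)
    (hb : PBd B fun a => 2 ^ ((lam a + 1) * (J a + 1))) (hi' : ∀ a, i a ≤ 2 ^ lam a) :
    SP B fun a => bits Φ (lam a) (T0 a) (J a) (i a) := by
  have hψ : SP lenB fun p : Inp Bool × ℕ =>
      ((Φ (cell p.1) (p.2 / Nat.log 2 p.1.length)).testBit (p.2 % Nat.log 2 p.1.length)).toNat := by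
    have hg : SP lenB fun p : Inp Bool × ℕ => Nat.log 2 p.1.length := sp_log2 (sp_length SP.fst')
    exact (sp_testBit (hΦ.comp (SP.fst'.pair (SP.snd'.div hg))) (SP.snd'.mod hg)).toNat
  obtain ⟨c, hc⟩ := hψ.2
  obtain ⟨P, hP⟩ := hc (fun _ => 0) 1 fun _ => by omega
  have h2 : ∀ a, 2 ^ (lam a + 1) ≤ 2 ^ ((lam a + 1) * (J a + 1)) := fun a =>
    Nat.pow_le_pow_right (by omega) (Nat.le_mul_of_pos_right _ (by omega))
  have hN : SP B fun a => 2 ^ lam a := sp_pow (SP.const 2) hlam
    (hb.mono fun a => (Nat.pow_le_pow_right (by omega) (by omega)).trans (h2 a))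
  -- the base of the frames
  obtain ⟨e, he⟩ : ∃ e : ℕ, ∀ l : ℕ, pb c ((2 ^ l) ^ 2) < (2 * 2 ^ l) ^ e ∧
      size P < (2 * 2 ^ l) ^ e ∧ (2 ^ l) ^ 2 + 2 ≤ (2 * 2 ^ l) ^ e := by
    refine ⟨2 * c + size P + 2, fun l => ?_⟩
    have g1 : 1 ≤ 2 ^ l := Nat.one_le_two_pow
    have g2 : (2 ^ l) ^ 2 + 2 ≤ (2 * 2 ^ l) ^ 2 := by nlinarith
    refine ⟨?_, ?_, g2.trans (Nat.pow_le_pow_right (by omega) (by omega))⟩
    · refine lt_of_le_of_lt (Nat.pow_le_pow_left g2 c) ?_
      rw [← pow_mul]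
      exact Nat.pow_lt_pow_right (by omega) (by omega)
    · refine lt_of_lt_of_le (Nat.lt_two_pow_self (n := size P)) ?_
      exact (Nat.pow_le_pow_left (by omega) _).trans (Nat.pow_le_pow_right (by omega) (by omega))
  have hR : SP B fun a => (2 * 2 ^ lam a) ^ e := ((SP.const 2).mul hN).pow_const e
  have hR' : ∀ {γ : Type} [Enc A γ], SP B fun p : α × γ => (2 * 2 ^ lam p.1) ^ e :=
    hR.comp SP.fst'
  refine sp_tower (F := fun a => ((2 * 2 ^ lam a) ^ e) ^ (regs P + 2 + 2))
    (V := fun a => 2 ^ lam a)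
    (hlt := fun a f => decide (dig ((2 * 2 ^ lam a) ^ e) f 0 = size P))
    (out := fun a f => dig ((2 * 2 ^ lam a) ^ e) f 3)
    (q := fun a f => dig ((2 * 2 ^ lam a) ^ e) f 1 - 1)
    (ini := fun a v => setd ((2 * 2 ^ lam a) ^ e) 0 2 (v * v))
    (b0 := fun a v => ((T0 a (v / lam a)).testBit (v % lam a)).toNat)
    (G := fun a f v => stp ((2 * 2 ^ lam a) ^ e) (2 ^ lam a) v f P 0 (size P))
    (β := fun a j v => bits Φ (lam a) (T0 a) j v)
    (hR.pow_const _) hJ hi ((sp_dig hR' SP.snd' 0).decide_eq (SP.const _))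
    (sp_dig hR' SP.snd' 3) ((sp_dig hR' SP.snd' 1).sub (SP.const 1))
    (sp_setd hR' (SP.const 0) 2 (SP.snd'.mul SP.snd'))
    (sp_testBit (hT0.comp (SP.fst'.pair (SP.snd'.div (hlam.comp SP.fst'))))
      (SP.snd'.mod (hlam.comp SP.fst'))).toNat
    (sp_stp hR' (hN.comp SP.fst') SP.snd'.snd SP.snd'.fst P _ _) hN.pbd
    ((hb.pow (e * (regs P + 2 + 2))).mono fun a => ?_)
    (fun a => Nat.one_le_pow _ _ (by positivity)) hi' (fun _ _ => rfl)
    (fun a j v => (bits_le _ _ _ _ _).trans Nat.one_le_two_pow) fun a j v hv => ?_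
  · rw [← pow_succ', ← pow_mul, ← pow_mul, ← pow_mul, ← pow_mul]
    exact Nat.pow_le_pow_right (by omega) (by nlinarith [Nat.zero_le (lam a * e), Nat.zero_le e])
  · obtain ⟨e1, e2, e3⟩ := he (lam a)
    have hl := length_words Φ (lam a) (T0 a) j
    have g1 : 1 ≤ 2 ^ lam a := Nat.one_le_two_pow
    have hvv : v * v ≤ (2 ^ lam a) ^ 2 := by nlinarith
    have hNN : 2 ^ lam a ≤ (2 ^ lam a) ^ 2 := by nlinarith
    obtain ⟨h', E⟩ := hP (words Φ (lam a) (T0 a) j) 0 (update (fun _ => 0) 0 (v * v))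
      ((2 ^ lam a) ^ 2) (bits Φ (lam a) (T0 a) (j + 1) v)
      (fun i hi => by rw [update_of_ne (by omega)]) (fun _ => by simpa using hvv)
      (by simp only [lenB]; omega)
      ⟨(words Φ (lam a) (T0 a) j, v), ⟨rfl, trivial⟩, by
        simp only [update_self, enc_pair, enc_inp, enc_nat, Nat.pair]
        split_ifs with h
        · rfl
        · obtain rfl : v = 0 := by omega
          rfl, by simp only [hl, Nat.log_pow (show 1 < 2 by omega), enc_nat, bits]⟩
    have hs0 : ∀ i, (update (fun _ => 0) 0 (v * v) : ℕ → ℕ) i < (2 * 2 ^ lam a) ^ e := by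
      intro i
      rw [update_apply]
      split_ifs <;> omega
    have hs1 : ∀ i, update (update (fun _ => 0) 0 (v * v) : ℕ → ℕ) 1
        (bits Φ (lam a) (T0 a) (j + 1) v) i < (2 * 2 ^ lam a) ^ e := by
      intro i
      have := bits_le Φ (lam a) (T0 a) (j + 1) v
      rw [update_apply]
      split_ifs
      · omega
      · exact hs0 i
    have hh' : h' ≤ (words Φ (lam a) (T0 a) j).length + 1 := eval_head E (Nat.zero_le _)
    have hrun := run_of_eval (R := (2 * 2 ^ lam a) ^ e) (M := regs P + 2) (K := size P)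
      (G := fun f => stp ((2 * 2 ^ lam a) ^ e) (2 ^ lam a)
        (bits Φ (lam a) (T0 a) j (dig ((2 * 2 ^ lam a) ^ e) f 1 - 1)) f P 0 (size P))
      (ans := bits Φ (lam a) (T0 a) j) e1 e2 (by omega) (fun h _ => symOf_bits _ _ _ _ h) E 0
      (size P) (fun y _ _ => by rw [hl]) (by omega) (by omega) le_rfl (Nat.zero_le _) hs0
    have hini : setd ((2 * 2 ^ lam a) ^ e) 0 2 (v * v) =
        frame ((2 * 2 ^ lam a) ^ e) (regs P + 2) 0 (0, update (fun _ => 0) 0 (v * v)) := by
      have z : frame ((2 * 2 ^ lam a) ^ e) (regs P + 2) 0 (0, fun _ => 0) = 0 := by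
        rw [frame, code]
        refine sum_eq_zero fun i _ => ?_
        rcases i with _ | _ | i <;> simp
      have := setd_frame2 (R := (2 * 2 ^ lam a) ^ e) (M := regs P + 2) (b := 0)
        (c := (0, fun _ => 0)) (by omega) (by simp only; omega) (fun _ => by simp only; omega)
        (i := 0) (by omega) (v * v)
      rwa [z] at this
    rw [hini]
    refine ⟨_, hrun.mono fun f hg => ⟨hg.1, decide_eq_false hg.2.1.ne, ?_⟩, ?_, ?_⟩
    · have := hg.2.2
      omega
    · exact decide_eq_true (dig_frame0 (c := (h', _)) (M := regs P + 2) e2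
        (by simp only; omega) hs1)
    · rw [show 3 = 1 + 2 from rfl, dig_frame2 e2 (by simp only; omega) hs1 (by omega)]
      simp

/-- The iterated transducer. -/
theorem sp_tabs {A α : Type} [Enc A α] {B : Bud A} {Φ : (ℕ → ℕ) → ℕ → ℕ}
    (hΦ : SP lenB fun p : Inp Bool × ℕ => Φ (cell p.1) p.2) {lam J k : α → ℕ} {T0 : α → ℕ → ℕ}
    (hlam : SP B lam) (hJ : SP B J) (hk : SP B k) (hT0 : SP B fun p : α × ℕ => T0 p.1 p.2)
    (hb : PBd B fun a => 2 ^ ((lam a + 1) * (J a + 1))) :
    SP B fun a => tabs Φ (lam a) (T0 a) (J a) (k a) := by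
  have hN : SP B fun a => 2 ^ lam a := sp_pow (SP.const 2) hlam
    (hb.mono fun a => Nat.pow_le_pow_right (by omega) (by nlinarith))
  have hp : SP B fun p : α × ℕ => k p.1 * lam p.1 + p.2 :=
    ((hk.comp SP.fst').mul (hlam.comp SP.fst')).add SP.snd'
  have h1 : SP B fun p : α × ℕ =>
      bits Φ (lam p.1) (T0 p.1) (J p.1) (min (k p.1 * lam p.1 + p.2) (2 ^ lam p.1)) :=
    sp_bits hΦ (hlam.comp SP.fst') (hJ.comp SP.fst') (hp.min (hN.comp SP.fst'))
      (hT0.comp (SP.fst'.fst.pair SP.snd')) (hb.comp SP.fst') fun _ => min_le_right _ _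
  have h2 : SP B fun a => ∑ j ∈ range (lam a), (if k a * lam a + j < 2 ^ lam a then
      bits Φ (lam a) (T0 a) (J a) (min (k a * lam a + j) (2 ^ lam a)) else 0) *
        min (2 ^ lam a) (2 ^ j) :=
    SP.sum_range hlam ((SP.ite (hp.decide_lt (hN.comp SP.fst')) h1 (SP.const 0)).mul
      (SP.min_pow (hN.comp SP.fst') (SP.const 2) SP.snd'))
  refine h2.congr fun a => ?_
  rw [tabs_eq, cell, length_words, Nat.log_pow (by omega)]
  refine sum_congr rfl fun j hj => ?_
  rw [getD_words, min_eq_right (Nat.pow_le_pow_right (by omega) (mem_range.1 hj).le)]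
  split_ifs with h
  · rw [min_eq_left h.le]
  · rfl

end Vale.Agent.P313.F43
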