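import Vale.Agent.P313.F43.Top
import Vale.Agent.P313.F43.SPTop
import Vale.Agent.P313.Reduce

/-! Randomized logarithmic space is contained in deterministic space `log ^ (4 / 3) * log log`. -/

namespace Vale.Agent.P313.F43

open Vale.Agent.Lib.Space

theorem randLog_subset (A : Type) [Finite A] {a b : ℝ} (ha : a ≤ 1 / 3) (hb : 1 / 2 ≤ b) :
    RandLog A a b ⊆ SPACE A fun n => Real.log n ^ (4 / 3 : ℝ) * Real.log (Real.log n) := by
  rintro L ⟨M, hS, k, hk⟩
  obtain ⟨N, A0, c, hN, hA, hg, hB⟩ := Red.reduce M hS k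
  obtain ⟨h1, h2⟩ := hB ⟨fun x => bud (N x) + x.length⟩ fun x => Nat.le_add_left _ _
  refine SP.mem_SPACE (sp_dec43 h1 h2 fun x => Nat.le_add_right _ _) (fun x => ?_) ?_
  · obtain ⟨d1, d2⟩ := dec43_spec (hN x).1 (hA x)
    rw [hg] at d1 d2
    by_cases hx : x ∈ L
    · exact ⟨fun _ => hx, fun _ => d1 (hb.trans ((hk x).2.2 hx))⟩
    · rw [d2 (((hk x).2.1 hx).trans ha)]
      exact ⟨fun h => absurd h Bool.false_ne_true, fun h => absurd h hx⟩
  · obtain ⟨C, n0, hC⟩ := bud_bound c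
    exact ⟨C, n0, fun x hx => hC _ _ hx (hN x).2⟩

end Vale.Agent.P313.F43
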