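import Vale.Agent.P313.F43.GenLossy

/-! The two theorems on the abstract generator. -/

namespace Vale.Agent.P313.F43

open Finset

variable {X Y : Type} {p : ℕ} [Fact p.Prime] [DecidableEq X]

theorem Prog.regular (P : Prog X Y p) {K D : ℕ} (hP : P.WF (2 ^ K) D)
    (hpi : ∀ τ ≤ 2 ^ K, Set.InjOn P.pi (P.SY τ)) (ν : X → ℝ) :
    (Finset.expect univ fun h : Fin K → Sd p =>
      √(∑ z ∈ P.S (2 ^ K), (P.act K h 0 ν z - P.ideal 0 ν (2 ^ K) z) ^ 2)) ≤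
      2 ^ (K + 1) * √((1 + (D : ℝ) ^ 2) / p) * √(∑ x ∈ P.S 0, ν x ^ 2) := by
  have := hP.reg (fun τ hτ _ hy _ hy' e => hpi τ hτ hy hy' e) (k := K) (τ := 0) (by simp) ν
  simpa only [zero_add] using this

theorem Prog.lossy (P : Prog X Y p) {K D : ℕ} (hP : P.WF (2 ^ K) D) (hD : D ^ 2 ≤ p)
    {κ Ω : ℝ} (ν : X → ℝ) (h0 : ∀ x ∈ P.S 0, 0 ≤ ν x)
    (hκ : ∀ τ ≤ 2 ^ K, ∑ z ∈ P.S τ, P.ideal 0 ν τ z ^ 2 ≤ κ)
    (hΩ : ∀ τ ≤ 2 ^ K, ((P.S τ).card : ℝ) ≤ Ω) :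
    (Finset.expect univ fun h : Fin K → Sd p =>
      ∑ z ∈ P.S (2 ^ K), |P.act K h 0 ν z - P.ideal 0 ν (2 ^ K) z|) ≤
      2 ^ (K + 1) * √(Ω * κ * (3 ^ K + (D : ℝ) ^ 2) / p) := by
  have ea : ∀ (k : ℕ) (h : Fin k → Sd p), P.act k h 0 (fun x => max (ν x) 0) = P.act k h 0 ν := by
    intro k h
    funext z
    refine sum_congr rfl fun x hx => ?_
    simp only [max_eq_left (h0 x hx)]
  have ei : ∀ n, ∀ z ∈ P.S n, P.ideal 0 (fun x => max (ν x) 0) n z = P.ideal 0 ν n z := by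
    intro n z hz
    rcases n with _ | n
    · exact max_eq_left (h0 z hz)
    · rw [add_comm, Prog.ideal_add, Prog.ideal_add, Prog.ideal_one default, Prog.ideal_one default,
        ea]
  have := hP.lossy hD (κ := κ) (Ω := Ω) (k := K) (τ := 0) (by simp) (ν := fun x => max (ν x) 0)
    (fun x => le_max_right _ _)
    (fun n hn => by
      rw [zero_add, sum_congr rfl fun z hz => by rw [ei n z hz]]
      exact hκ n hn)
    (fun n hn => by
      rw [zero_add]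
      exact hΩ n hn)
  rw [zero_add] at this
  refine le_trans (le_of_eq (expect_congr rfl fun h _ => sum_congr rfl fun z hz => ?_)) this
  rw [ea, ei _ z hz]

end Vale.Agent.P313.F43
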