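import Mathlib.Algebra.Order.BigOperators.Expect
import Mathlib.Algebra.BigOperators.Field
import Mathlib.Algebra.Polynomial.Roots
import Mathlib.Data.Real.Basic
import Mathlib.Data.Fintype.BigOperators
import Mathlib.SetTheory.Cardinal.Finite
import Mathlib.Tactic.Positivity
import Mathlib.Tactic.Linarith
import Mathlib.Tactic.Ring
import Mathlib.Tactic.FieldSimp

/-!
Hash families keyed by fingerprints: `H s y d` is the new label, computed from the seed `s`, the
state `y` and the old label `d`.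
-/

namespace Vale.Agent.P313.F43

open Finset
open scoped BigOperators

/-- The family `H` is uniform, and almost pairwise independent from above on nonnegative tests. -/
structure GoodHash {S Y Λ : Type*} [Fintype S] [Fintype Λ] (H : S → Y → Λ → Λ) (T : Finset Y)
    (ε : ℝ) : Prop where
  /-- every single value is uniform -/
  unif : ∀ (y : Y) (d : Λ) (f : Λ → ℝ), 𝔼 s, f (H s y d) = 𝔼 j, f j
  /-- two different arguments are almost independent -/
  pair : ∀ (g : Y → Λ → ℝ), (∀ y j, 0 ≤ g y j) → ∀ y ∈ T, ∀ (d : Λ), ∀ y' ∈ T, ∀ (d' : Λ),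
    (y, d) ≠ (y', d') →
      𝔼 s, g y (H s y d) * g y' (H s y' d') ≤ (1 + ε) * ((𝔼 j, g y j) * 𝔼 j, g y' j)

section general

variable {S S' Y Λ : Type*} [Fintype S] [Fintype S'] [Fintype Λ] {H : S → Y → Λ → Λ}
  {T : Finset Y} {ε : ℝ}

theorem GoodHash.equiv (h : GoodHash H T ε) (e : S' ≃ S) : GoodHash (fun s => H (e s)) T ε where
  unif y d f := by
    rw [← h.unif y d f]
    exact Fintype.expect_equiv e _ _ fun _ => rfl
  pair g hg y hy d y' hy' d' hne := by
    refine le_trans (le_of_eq ?_) (h.pair g hg y hy d y' hy' d' hne)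
    exact Fintype.expect_equiv e _ _ fun _ => rfl

theorem GoodHash.mono (h : GoodHash H T ε) {ε' : ℝ} (hε : ε ≤ ε') : GoodHash H T ε' where
  unif := h.unif
  pair g hg y hy d y' hy' d' hne := (h.pair g hg y hy d y' hy' d' hne).trans <|
    mul_le_mul_of_nonneg_right (by linarith)
      (mul_nonneg (expect_nonneg fun _ _ => hg _ _) (expect_nonneg fun _ _ => hg _ _))

/-- First moment. -/
theorem GoodHash.first (h : GoodHash H T ε) {Z : Type*} (U : Finset Z) (c : Z → Y × Λ)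
    (ω : Z → ℝ) (g : Y → Λ → ℝ) :
    𝔼 s, ∑ z ∈ U, ω z * g (c z).1 (H s (c z).1 (c z).2) = ∑ z ∈ U, ω z * 𝔼 j, g (c z).1 j := by
  rw [expect_sum_comm]
  refine sum_congr rfl fun z _ => ?_
  rw [← mul_expect, h.unif]

/-- Second moment. -/
theorem GoodHash.second (h : GoodHash H T ε) (hε : 0 ≤ ε) {ω : Y × Λ → ℝ} (hω : ∀ z, 0 ≤ ω z)
    {g : Y → Λ → ℝ} (hg : ∀ y j, 0 ≤ g y j) :
    𝔼 s, (∑ z ∈ T ×ˢ univ, ω z * g z.1 (H s z.1 z.2)) ^ 2 ≤
      (1 + ε) * (∑ z ∈ T ×ˢ univ, ω z * 𝔼 j, g z.1 j) ^ 2 +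
        ∑ z ∈ T ×ˢ univ, ω z ^ 2 * 𝔼 j, g z.1 j ^ 2 := by
  classical
  have hb : ∀ y, 0 ≤ 𝔼 j, g y j := fun y => expect_nonneg fun _ _ => hg _ _
  simp only [sq, sum_mul_sum]
  rw [expect_sum_comm, mul_sum, ← sum_add_distrib]
  refine sum_le_sum fun z hz => ?_
  rw [expect_sum_comm, mul_sum]
  have e : ω z * ω z * 𝔼 j, g z.1 j * g z.1 j = ∑ z' ∈ T ×ˢ univ,
      if z = z' then ω z * ω z * 𝔼 j, g z.1 j * g z.1 j else 0 := by
    rw [sum_ite_eq, if_pos hz]
  rw [e, ← sum_add_distrib]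
  refine sum_le_sum fun z' hz' => ?_
  have e2 : 𝔼 s, ω z * g z.1 (H s z.1 z.2) * (ω z' * g z'.1 (H s z'.1 z'.2)) =
      ω z * ω z' * 𝔼 s, g z.1 (H s z.1 z.2) * g z'.1 (H s z'.1 z'.2) := by
    rw [mul_expect]
    exact expect_congr rfl fun s _ => by ring
  rw [e2]
  have h0 : 0 ≤ (1 + ε) * (ω z * (𝔼 j, g z.1 j) * (ω z' * 𝔼 j, g z'.1 j)) :=
    mul_nonneg (by linarith) (mul_nonneg (mul_nonneg (hω _) (hb _)) (mul_nonneg (hω _) (hb _)))
  split_ifs with hzz
  · subst hzz
    rw [h.unif z.1 z.2 fun j => g z.1 j * g z.1 j]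
    linarith
  · have := mul_le_mul_of_nonneg_left
      (h.pair g hg z.1 (mem_product.1 hz).1 z.2 z'.1 (mem_product.1 hz').1 z'.2 hzz)
      (mul_nonneg (hω z) (hω z'))
    refine this.trans (le_of_eq ?_)
    ring

/-- Variance. -/
theorem GoodHash.var [Nonempty S] (h : GoodHash H T ε) (hε : 0 ≤ ε) {ω : Y × Λ → ℝ}
    (hω : ∀ z, 0 ≤ ω z) {g : Y → Λ → ℝ} (hg : ∀ y j, 0 ≤ g y j) :
    𝔼 s, (∑ z ∈ T ×ˢ univ, ω z * g z.1 (H s z.1 z.2) -
        ∑ z ∈ T ×ˢ univ, ω z * 𝔼 j, g z.1 j) ^ 2 ≤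
      ε * (∑ z ∈ T ×ˢ univ, ω z * 𝔼 j, g z.1 j) ^ 2 +
        ∑ z ∈ T ×ˢ univ, ω z ^ 2 * 𝔼 j, g z.1 j ^ 2 := by
  have h1 := h.first (T ×ˢ univ) id ω g
  simp only [id] at h1
  have h2 := h.second hε hω hg
  set m := ∑ z ∈ T ×ˢ univ, ω z * 𝔼 j, g z.1 j
  have e : 𝔼 s, (∑ z ∈ T ×ˢ univ, ω z * g z.1 (H s z.1 z.2) - m) ^ 2 =
      𝔼 s, (∑ z ∈ T ×ˢ univ, ω z * g z.1 (H s z.1 z.2)) ^ 2 -
        2 * m * 𝔼 s, ∑ z ∈ T ×ˢ univ, ω z * g z.1 (H s z.1 z.2) + m ^ 2 := by
    rw [mul_expect, ← expect_sub_distrib, ← Fintype.expect_const (ι := S) (m ^ 2),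
      ← expect_add_distrib]
    exact expect_congr rfl fun s _ => by ring
  rw [e, h1]
  nlinarith

end general

section field

variable {F Γ Y : Type*} [Field F] [Fintype F] [DecidableEq F] [Fintype Γ]

/-- A nonzero field element made from any field element. -/
def nz (a : F) : F := if a = 0 then 1 else a

omit [Fintype F] in
theorem nz_ne_zero (a : F) : nz a ≠ 0 := by
  unfold nz
  split_ifs with h
  · exact one_ne_zero
  · exact h

/-- The hash function with two fingerprints. -/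
def hashF (fp : Γ → Y → F) (s : F × F × F × F × Γ × Γ) (y : Y) (d : F) : F :=
  s.1 + (nz s.2.1 * d + (s.2.2.1 * fp s.2.2.2.2.1 y + s.2.2.2.1 * fp s.2.2.2.2.2 y))

omit [Fintype F] [Fintype Γ] in
theorem hashF_injective (fp : Γ → Y → F) (s : F × F × F × F × Γ × Γ) (y : Y) :
    Function.Injective (hashF fp s y) := by
  intro d d' h
  exact mul_left_cancel₀ (nz_ne_zero _) (add_right_cancel (add_left_cancel h))

omit [DecidableEq F] in
theorem expect_shift (f : F → ℝ) (c : F) : 𝔼 b, f (b + c) = 𝔼 j, f j :=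
  Fintype.expect_equiv (Equiv.addRight c) _ _ fun _ => rfl

omit [DecidableEq F] in
theorem expect_pair_indep (f f' : F → ℝ) {u u' : F} (hu : u ≠ u') (c c' : F) :
    𝔼 a, 𝔼 b, f (b + (a * u + c)) * f' (b + (a * u' + c')) = (𝔼 j, f j) * 𝔼 j, f' j := by
  have h1 : ∀ a : F, 𝔼 b, f (b + (a * u + c)) * f' (b + (a * u' + c')) =
      𝔼 b, f b * f' (a * (u' - u) + (b + (c' - c))) := by
    intro a
    rw [← expect_shift (fun b => f b * f' (a * (u' - u) + (b + (c' - c)))) (a * u + c)]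
    refine expect_congr rfl fun b _ => ?_
    congr 2
    ring
  simp only [h1]
  rw [expect_comm, expect_mul]
  refine expect_congr rfl fun b _ => ?_
  rw [← mul_expect]
  congr 1
  rw [← expect_shift f' (b + (c' - c))]
  exact Fintype.expect_equiv (Equiv.mulRight₀ (u' - u) (sub_ne_zero.2 hu.symm)) _ _ fun _ => rfl

omit [DecidableEq F] in
theorem expect_pair_le (f f' : F → ℝ) (hf : ∀ j, 0 ≤ f j) (hf' : ∀ j, 0 ≤ f' j) (c c' : F) :
    𝔼 b, f (b + c) * f' (b + c') ≤ Fintype.card F * ((𝔼 j, f j) * 𝔼 j, f' j) := by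
  rw [mul_left_comm, Fintype.card_mul_expect, ← expect_shift f c, expect_mul]
  refine expect_le_expect fun b _ => mul_le_mul_of_nonneg_left ?_ (hf _)
  exact single_le_sum (f := f') (fun j _ => hf' j) (mem_univ _)

theorem expect_pair_nz (f : F → ℝ) {d d' : F} (hd : d ≠ d') (c : F) :
    𝔼 a, 𝔼 b, f (b + (nz a * d + c)) * f (b + (nz a * d' + c)) ≤ (𝔼 j, f j) * 𝔼 j, f j := by
  rw [← expect_pair_indep f f hd c c]
  refine expect_le_expect fun a _ => ?_
  unfold nz
  split_ifs with ha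
  · subst ha
    have h1 := expect_shift (fun j => f j * f j) (1 * d + c)
    have h2 := expect_shift (fun j => f j * f j) (1 * d' + c)
    have h3 := expect_shift (fun j => f j * f j) c
    have h4 : 𝔼 b, f (b + (1 * d + c)) * f (b + (1 * d' + c)) ≤
        𝔼 b, (f (b + (1 * d + c)) * f (b + (1 * d + c)) +
          f (b + (1 * d' + c)) * f (b + (1 * d' + c))) / 2 :=
      expect_le_expect fun b _ => by
        nlinarith [sq_nonneg (f (b + (1 * d + c)) - f (b + (1 * d' + c)))]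
    rw [← expect_div, expect_add_distrib, h1, h2] at h4
    simp only [zero_mul, zero_add]
    rw [h3]
    linarith
  · exact le_rfl

omit [Field F] [DecidableEq F] in
theorem expect_six (Φ : F × F × F × F × Γ × Γ → ℝ) :
    𝔼 s, Φ s = 𝔼 a : F, 𝔼 g1 : Γ, 𝔼 g2 : Γ, 𝔼 a1 : F, 𝔼 a2 : F, 𝔼 b : F,
      Φ (b, a, a1, a2, g1, g2) := by
  let e : F × F × F × F × Γ × Γ ≃ F × Γ × Γ × F × F × F :=
    ⟨fun s => (s.2.1, s.2.2.2.2.1, s.2.2.2.2.2, s.2.2.1, s.2.2.2.1, s.1),
      fun t => (t.2.2.2.2.2, t.1, t.2.2.2.1, t.2.2.2.2.1, t.2.1, t.2.2.1),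
      fun _ => rfl, fun _ => rfl⟩
  rw [Fintype.expect_equiv e Φ
    (fun t => Φ (t.2.2.2.2.2, t.1, t.2.2.2.1, t.2.2.2.2.1, t.2.1, t.2.2.1)) fun _ => rfl]
  simp only [← univ_product_univ, expect_product]

omit [Field F] [DecidableEq F] in
theorem expect_six' (Φ : F × F × F × F × Γ × Γ → ℝ) :
    𝔼 s, Φ s = 𝔼 g1 : Γ, 𝔼 g2 : Γ, 𝔼 a1 : F, 𝔼 a2 : F, 𝔼 a : F, 𝔼 b : F,
      Φ (b, a, a1, a2, g1, g2) := by
  let e : F × F × F × F × Γ × Γ ≃ Γ × Γ × F × F × F × F :=
    ⟨fun s => (s.2.2.2.2.1, s.2.2.2.2.2, s.2.2.1, s.2.2.2.1, s.2.1, s.1),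
      fun t => (t.2.2.2.2.2, t.2.2.2.2.1, t.2.2.1, t.2.2.2.1, t.1, t.2.1),
      fun _ => rfl, fun _ => rfl⟩
  rw [Fintype.expect_equiv e Φ
    (fun t => Φ (t.2.2.2.2.2, t.2.2.2.2.1, t.2.2.1, t.2.2.2.1, t.1, t.2.1)) fun _ => rfl]
  simp only [← univ_product_univ, expect_product]

theorem goodHash_hashF [Nonempty Γ] (fp : Γ → Y → F) (T : Finset Y) {η : ℝ}
    (hfp : ∀ y ∈ T, ∀ y' ∈ T, y ≠ y' → 𝔼 γ, (if fp γ y = fp γ y' then (1 : ℝ) else 0) ≤ η) :
    GoodHash (hashF fp) T (η ^ 2 * Fintype.card F) where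
  unif y d f := by
    rw [← univ_product_univ, expect_product, expect_comm]
    simp only [hashF, expect_shift]
    exact Fintype.expect_const _
  pair g hg y hyT d y' hyT' d' hne := by
    have hb : 0 ≤ (𝔼 j, g y j) * 𝔼 j, g y' j :=
      mul_nonneg (expect_nonneg fun _ _ => hg _ _) (expect_nonneg fun _ _ => hg _ _)
    by_cases hy : y = y'
    · subst hy
      have hd : d ≠ d' := fun e => hne (by rw [e])
      have h1 : (𝔼 j, g y j) * 𝔼 j, g y j ≤
          (1 + η ^ 2 * Fintype.card F) * ((𝔼 j, g y j) * 𝔼 j, g y j) :=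
        le_mul_of_one_le_left hb (le_add_of_nonneg_right (by positivity))
      refine le_trans ?_ h1
      rw [expect_six']
      refine expect_le univ_nonempty fun g1 _ => expect_le univ_nonempty fun g2 _ =>
        expect_le univ_nonempty fun a1 _ => expect_le univ_nonempty fun a2 _ => ?_
      exact expect_pair_nz (g y) hd (a1 * fp g1 y + a2 * fp g2 y)
    · have key : ∀ (a : F) (g1 g2 : Γ),
          𝔼 a1 : F, 𝔼 a2 : F, 𝔼 b : F, g y (hashF fp (b, a, a1, a2, g1, g2) y d) *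
            g y' (hashF fp (b, a, a1, a2, g1, g2) y' d') ≤
          (1 + (if fp g1 y = fp g1 y' then (1 : ℝ) else 0) *
            (if fp g2 y = fp g2 y' then (1 : ℝ) else 0) * Fintype.card F) *
              ((𝔼 j, g y j) * 𝔼 j, g y' j) := by
        intro a g1 g2
        by_cases h1 : fp g1 y = fp g1 y'
        · by_cases h2 : fp g2 y = fp g2 y'
          · refine expect_le univ_nonempty fun a1 _ => expect_le univ_nonempty fun a2 _ => ?_
            refine (expect_pair_le (g y) (g y') (hg y) (hg y')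
              (nz a * d + (a1 * fp g1 y + a2 * fp g2 y))
              (nz a * d' + (a1 * fp g1 y' + a2 * fp g2 y'))).trans ?_
            rw [if_pos h1, if_pos h2]
            nlinarith
          · rw [if_neg h2, mul_zero, zero_mul, add_zero, one_mul]
            refine expect_le univ_nonempty fun a1 _ => le_of_eq ?_
            rw [← expect_pair_indep (g y) (g y') h2 (nz a * d + a1 * fp g1 y)
              (nz a * d' + a1 * fp g1 y')]
            refine expect_congr rfl fun a2 _ => expect_congr rfl fun b _ => ?_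
            simp only [hashF]
            congr 2 <;> ring
        · rw [if_neg h1, zero_mul, zero_mul, add_zero, one_mul, expect_comm]
          refine expect_le univ_nonempty fun a2 _ => le_of_eq ?_
          rw [← expect_pair_indep (g y) (g y') h1 (nz a * d + a2 * fp g2 y)
            (nz a * d' + a2 * fp g2 y')]
          refine expect_congr rfl fun a1 _ => expect_congr rfl fun b _ => ?_
          simp only [hashF]
          congr 2 <;> ring
      rw [expect_six]
      refine expect_le univ_nonempty fun a _ => ?_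
      refine (expect_le_expect fun g1 _ => expect_le_expect fun g2 _ => key a g1 g2).trans ?_
      simp only [← expect_mul]
      refine mul_le_mul_of_nonneg_right ?_ hb
      simp only [expect_add_distrib, Fintype.expect_const, ← expect_mul, ← mul_expect]
      have h0 : 0 ≤ 𝔼 γ, (if fp γ y = fp γ y' then (1 : ℝ) else 0) :=
        expect_nonneg fun _ _ => by positivity
      have h1 := hfp y hyT y' hyT' hy
      have h2 := mul_le_mul h1 h1 h0 (h0.trans h1)
      have h3 := mul_le_mul_of_nonneg_right h2 (Nat.cast_nonneg (α := ℝ) (Fintype.card F))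
      rw [sq]
      linarith

/-- The polynomial fingerprint of a number with `D` bits. -/
def polyFp (D : ℕ) (γ : F) (n : ℕ) : F := ∑ i ∈ range D, ((n / 2 ^ i % 2 : ℕ) : F) * γ ^ i

theorem eq_of_bits_eq {D n n' : ℕ} (hn : n < 2 ^ D) (hn' : n' < 2 ^ D)
    (h : ∀ i < D, n / 2 ^ i % 2 = n' / 2 ^ i % 2) : n = n' := by
  refine Nat.eq_of_testBit_eq fun i => ?_
  by_cases hi : i < D
  · rw [Nat.testBit_eq_decide_div_mod_eq, Nat.testBit_eq_decide_div_mod_eq, h i hi]
  · have : 2 ^ D ≤ 2 ^ i := Nat.pow_le_pow_right (by omega) (by omega)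
    rw [Nat.testBit_lt_two_pow (hn.trans_le this), Nat.testBit_lt_two_pow (hn'.trans_le this)]

theorem polyFp_collision {D n n' : ℕ} (hn : n < 2 ^ D) (hn' : n' < 2 ^ D) (hne : n ≠ n') :
    Nat.card {γ : F // polyFp D γ n = polyFp D γ n'} ≤ D := by
  set c : ℕ → F := fun i => ((n / 2 ^ i % 2 : ℕ) : F) - ((n' / 2 ^ i % 2 : ℕ) : F) with hc
  set P : Polynomial F := ∑ i ∈ range D, Polynomial.monomial i (c i) with hP
  have hco : ∀ i < D, P.coeff i = c i := by
    intro i hi
    simp [hP, Polynomial.coeff_monomial, hi]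
  have hP0 : P ≠ 0 := by
    intro h0
    refine hne (eq_of_bits_eq hn hn' fun i hi => ?_)
    have h1 : c i = 0 := by rw [← hco i hi, h0, Polynomial.coeff_zero]
    have h2 : ((n / 2 ^ i % 2 : ℕ) : F) = ((n' / 2 ^ i % 2 : ℕ) : F) := sub_eq_zero.1 h1
    rcases Nat.mod_two_eq_zero_or_one (n / 2 ^ i) with e | e <;>
      rcases Nat.mod_two_eq_zero_or_one (n' / 2 ^ i) with e' | e' <;>
        simp [e, e'] at h2 ⊢
  have hdeg : P.natDegree ≤ D :=
    Polynomial.natDegree_sum_le_of_forall_le _ _ fun i hi =>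
      (Polynomial.natDegree_monomial_le _).trans (mem_range.1 hi).le
  have hev : ∀ γ, P.eval γ = polyFp D γ n - polyFp D γ n' := by
    intro γ
    simp only [hP, hc, polyFp, Polynomial.eval_finsetSum, Polynomial.eval_monomial,
      ← sum_sub_distrib, sub_mul]
  rw [Nat.card_eq_fintype_card, Fintype.card_subtype]
  refine le_trans (card_le_card fun γ hγ => ?_)
    ((Multiset.toFinset_card_le P.roots).trans ((Polynomial.card_roots' P).trans hdeg))
  rw [Multiset.mem_toFinset, Polynomial.mem_roots hP0, Polynomial.IsRoot, hev]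
  exact sub_eq_zero.2 (mem_filter.1 hγ).2

/-- The hash family for fingerprints with at most `D` collisions. -/
theorem goodHash_of_card (fp : F → Y → F) (T : Finset Y) {D : ℕ}
    (hfp : ∀ y ∈ T, ∀ y' ∈ T, y ≠ y' → Nat.card {γ : F // fp γ y = fp γ y'} ≤ D) :
    GoodHash (hashF fp) T ((D : ℝ) ^ 2 / Fintype.card F) := by
  have h := goodHash_hashF fp T (η := D / Fintype.card F) fun y hy y' hy' hne => by
    rw [Fintype.expect_eq_sum_div_card]
    refine div_le_div_of_nonneg_right ?_ (Nat.cast_nonneg _)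
    have := hfp y hy y' hy' hne
    rw [Nat.card_eq_fintype_card, Fintype.card_subtype] at this
    rw [sum_boole]
    exact_mod_cast this
  refine h.mono (le_of_eq ?_)
  have : (Fintype.card F : ℝ) ≠ 0 := Nat.cast_ne_zero.2 Fintype.card_ne_zero
  field_simp

end field

end Vale.Agent.P313.F43
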