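import Vale.Agent.P313.F43.GenDef
import Vale.Agent.P313.F43.Hash

/-! Basic facts on the abstract generator: push-forward of measures, valid states, the hash
family. -/

namespace Vale.Agent.P313.F43

open Finset
open scoped BigOperators

section fib

variable {α β : Type*} [DecidableEq β]

/-- The push-forward of the measure `f` on `U` under `φ`. -/
def fib (U : Finset α) (φ : α → β) (f : α → ℝ) (w : β) : ℝ :=
  ∑ u ∈ U, if φ u = w then f u else 0

variable {U : Finset α} {φ : α → β} {f f' : α → ℝ} {T : Finset β}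

theorem fib_nonneg (hf : ∀ u ∈ U, 0 ≤ f u) (w : β) : 0 ≤ fib U φ f w :=
  sum_nonneg fun u hu => by
    split_ifs
    · exact hf u hu
    · exact le_rfl

theorem fib_mono (hf : ∀ u ∈ U, f u ≤ f' u) (w : β) : fib U φ f w ≤ fib U φ f' w :=
  sum_le_sum fun u hu => by
    split_ifs
    · exact hf u hu
    · exact le_rfl

theorem fib_congr {φ' : α → β} (hφ : ∀ u ∈ U, φ u = φ' u) (hf : ∀ u ∈ U, f u = f' u) (w : β) :
    fib U φ f w = fib U φ' f' w :=
  sum_congr rfl fun u hu => by rw [hφ u hu, hf u hu]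

theorem fib_add (w : β) : fib U φ (fun u => f u + f' u) w = fib U φ f w + fib U φ f' w := by
  unfold fib
  rw [← sum_add_distrib]
  exact sum_congr rfl fun u _ => by split_ifs <;> simp

theorem fib_sub (w : β) : fib U φ (fun u => f u - f' u) w = fib U φ f w - fib U φ f' w := by
  unfold fib
  rw [← sum_sub_distrib]
  exact sum_congr rfl fun u _ => by split_ifs <;> simp

theorem fib_eq_sum_mul (w : β) :
    fib U φ f w = ∑ u ∈ U, f u * if φ u = w then 1 else 0 :=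
  sum_congr rfl fun u _ => by split_ifs <;> simp

theorem fib_mul_comp (ρ : β → ℝ) (w : β) :
    fib U φ (fun u => f u * ρ (φ u)) w = fib U φ f w * ρ w := by
  unfold fib
  rw [sum_mul]
  refine sum_congr rfl fun u _ => ?_
  split_ifs with h
  · rw [← h]
  · simp

theorem sum_fib_mul (hT : ∀ u ∈ U, φ u ∈ T) (ψ : β → ℝ) :
    ∑ w ∈ T, fib U φ f w * ψ w = ∑ u ∈ U, f u * ψ (φ u) := by
  simp only [fib, sum_mul]
  rw [sum_comm]
  refine sum_congr rfl fun u hu => ?_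
  simp only [ite_mul, zero_mul]
  rw [sum_ite_eq, if_pos (hT u hu)]

theorem sum_fib (hT : ∀ u ∈ U, φ u ∈ T) : ∑ w ∈ T, fib U φ f w = ∑ u ∈ U, f u := by
  simpa using sum_fib_mul (f := f) hT fun _ => 1

theorem sum_fib_sq_le (hφ : Set.InjOn φ U) : ∑ w ∈ T, fib U φ f w ^ 2 ≤ ∑ u ∈ U, f u ^ 2 := by
  have h1 : ∀ w, fib U φ f w ^ 2 = fib U φ (fun u => f u ^ 2) w := by
    intro w
    by_cases h : ∃ u ∈ U, φ u = w
    · obtain ⟨u, hu, rfl⟩ := h
      have : ∀ g : α → ℝ, fib U φ g (φ u) = g u := by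
        intro g
        unfold fib
        rw [sum_eq_single_of_mem u hu, if_pos rfl]
        intro v hv hne
        exact if_neg fun e => hne (hφ hv hu e)
      rw [this, this]
    · have : ∀ g : α → ℝ, fib U φ g w = 0 := fun g =>
        sum_eq_zero fun u hu => if_neg fun e => h ⟨u, hu, e⟩
      rw [this, this]
      simp
  simp only [h1]
  simp only [fib]
  rw [sum_comm]
  refine sum_le_sum fun u _ => ?_
  rw [sum_ite_eq]
  split_ifs
  · exact le_rfl
  · exact sq_nonneg _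

theorem sum_ite_sq_le_one (T : Finset β) (b : β) {t : ℝ} (h0 : 0 ≤ t) (h1 : t ≤ 1) :
    ∑ w ∈ T, (t * if b = w then (1 : ℝ) else 0) ^ 2 ≤ 1 := by
  have : ∀ w, (t * if b = w then (1 : ℝ) else 0) ^ 2 = if b = w then t ^ 2 else 0 := by
    intro w
    split_ifs <;> simp
  simp only [this]
  rw [sum_ite_eq]
  split_ifs
  · nlinarith
  · exact zero_le_one

end fib

theorem expect_le_sqrt {I : Type*} [Fintype I] [Nonempty I] (a : I → ℝ) {c : ℝ}
    (h : 𝔼 i, a i ^ 2 ≤ c) : 𝔼 i, a i ≤ √c := by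
  refine Real.le_sqrt_of_sq_le (le_trans ?_ h)
  have := expect_mul_sq_le_sq_mul_sq univ a fun _ => (1 : ℝ)
  simpa using this

theorem expect_snoc {S : Type*} [Fintype S] {k : ℕ} (Φ : (Fin k → S) → S → ℝ) :
    𝔼 h : Fin (k + 1) → S, Φ (Fin.init h) (h (Fin.last k)) = 𝔼 h' : Fin k → S, 𝔼 s, Φ h' s := by
  rw [expect_comm, ← expect_product', univ_product_univ]
  symm
  refine Fintype.expect_equiv (Fin.snocEquiv fun _ => S) _ _ fun z => ?_
  simp [Fin.snocEquiv]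

variable {X Y : Type} {p : ℕ} {P : Prog X Y p} {H D : ℕ}

namespace Prog

theorem WF.node_mem (hP : P.WF H D) : ∀ (k : ℕ) (h : Fin k → Sd p) (τ : ℕ), τ + 2 ^ k ≤ H →
    ∀ x ∈ P.S τ, ∀ i, (P.node k h τ x i).1 ∈ P.SY (τ + 2 ^ k)
  | 0, _, τ, hτ, x, hx, i => hP.mem τ (by simp at hτ; omega) x hx i
  | k + 1, h, τ, hτ, x, hx, i => by
    have e : τ + 2 ^ (k + 1) = τ + 2 ^ k + 2 ^ k := by ring
    rw [e] at hτ ⊢
    have h1 : τ + 2 ^ k ≤ H := (Nat.le_add_right _ _).trans hτ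
    exact WF.node_mem hP k _ _ hτ _ (hP.pi_mem _ h1 _ (WF.node_mem hP k _ τ h1 x hx i)) _

theorem WF.node_pi_mem (hP : P.WF H D) (k : ℕ) (h : Fin k → Sd p) {τ : ℕ} (hτ : τ + 2 ^ k ≤ H)
    {x : X} (hx : x ∈ P.S τ) (i : ZMod p) : P.pi (P.node k h τ x i).1 ∈ P.S (τ + 2 ^ k) :=
  hP.pi_mem _ hτ _ (hP.node_mem k h τ hτ x hx i)

/-- The seed of one level as a tuple. -/
def sdEquiv (p : ℕ) : Sd p ≃ ZMod p × ZMod p × ZMod p × ZMod p × ZMod p × ZMod p where
  toFun s := (s 0, s 1, s 2, s 4, s 3, s 5)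
  invFun t := ![t.1, t.2.1, t.2.2.1, t.2.2.2.2.1, t.2.2.2.1, t.2.2.2.2.2]
  left_inv s := by
    funext i
    fin_cases i <;> rfl
  right_inv _ := rfl

theorem hash_eq [Fact p.Prime] (s : Sd p) (y : Y) (d : ZMod p) :
    P.hash s y d = hashF P.fp (sdEquiv p s) y d := by
  change _ = s 0 + ((if s 1 = 0 then 1 else s 1) * d + (s 2 * P.fp (s 3) y + s 4 * P.fp (s 5) y))
  rw [hash]
  ring

theorem hash_injective [Fact p.Prime] (s : Sd p) (y : Y) : Function.Injective (P.hash s y) := by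
  intro d d' h
  rw [hash_eq, hash_eq] at h
  exact hashF_injective _ _ _ h

theorem WF.goodHash [Fact p.Prime] (hP : P.WF H D) {τ : ℕ} (hτ : τ ≤ H) :
    GoodHash P.hash (P.SY τ) ((D : ℝ) ^ 2 / p) := by
  have h := (goodHash_of_card P.fp (P.SY τ) (hP.fp_card τ hτ)).equiv (sdEquiv p)
  rw [ZMod.card] at h
  have e : P.hash = fun s => hashF P.fp (sdEquiv p s) := by
    funext s y d
    exact hash_eq s y d
  rwa [e]

variable [DecidableEq X]

section nezero

variable [NeZero p]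

theorem act_eq (k : ℕ) (h : Fin k → Sd p) (τ : ℕ) (ν : X → ℝ) (z : X) :
    P.act k h τ ν z = fib (P.S τ ×ˢ univ) (fun u => P.pi (P.node k h τ u.1 u.2).1)
      (fun u => ν u.1 / p) z := by
  rw [act, fib, sum_product]

theorem push_eq_act (h : Fin 0 → Sd p) (τ : ℕ) (ν : X → ℝ) : P.push τ ν = P.act 0 h τ ν := rfl

theorem ideal_one (h : Fin 0 → Sd p) (τ : ℕ) (ν : X → ℝ) : P.ideal τ ν 1 = P.act 0 h τ ν := rfl

theorem ideal_add (τ : ℕ) (ν : X → ℝ) (a b : ℕ) :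
    P.ideal τ ν (a + b) = P.ideal (τ + a) (P.ideal τ ν a) b := by
  induction b with
  | zero => rfl
  | succ b ih => rw [← add_assoc, ideal, ideal, ih, add_assoc]

theorem act_nonneg {ν : X → ℝ} (hν : ∀ x, 0 ≤ ν x) (k : ℕ) (h : Fin k → Sd p) (τ : ℕ) (z : X) :
    0 ≤ P.act k h τ ν z := by
  rw [act_eq]
  exact fib_nonneg (fun u _ => div_nonneg (hν _) (Nat.cast_nonneg _)) z

theorem ideal_nonneg {ν : X → ℝ} (hν : ∀ x, 0 ≤ ν x) (τ : ℕ) : ∀ n z, 0 ≤ P.ideal τ ν n z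
  | 0, z => hν z
  | n + 1, z => act_nonneg (ideal_nonneg hν τ n) 0 default _ z

theorem act_sub (k : ℕ) (h : Fin k → Sd p) (τ : ℕ) (ν ν' : X → ℝ) (z : X) :
    P.act k h τ (fun x => ν x - ν' x) z = P.act k h τ ν z - P.act k h τ ν' z := by
  simp only [act_eq, sub_div]
  exact fib_sub z

omit [DecidableEq X] in
theorem sum_div_p (T : Finset X) (f : X → ℝ) (φ : X → ZMod p → ℝ) :
    ∑ u ∈ T ×ˢ (univ : Finset (ZMod p)), f u.1 / p * φ u.1 u.2 = ∑ x ∈ T, f x * 𝔼 j, φ x j := by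
  rw [sum_product]
  refine sum_congr rfl fun x _ => ?_
  dsimp only
  rw [Fintype.expect_eq_sum_div_card, ZMod.card, ← mul_sum]
  ring

theorem WF.sum_act (hP : P.WF H D) (k : ℕ) (h : Fin k → Sd p) {τ : ℕ} (hτ : τ + 2 ^ k ≤ H)
    (ν : X → ℝ) : ∑ z ∈ P.S (τ + 2 ^ k), P.act k h τ ν z = ∑ x ∈ P.S τ, ν x := by
  simp only [act_eq]
  rw [sum_fib fun u hu => hP.node_pi_mem k h hτ (mem_product.1 hu).1 _]
  simpa using sum_div_p (p := p) (P.S τ) ν fun _ _ => 1

theorem WF.sum_ideal (hP : P.WF H D) (τ : ℕ) (ν : X → ℝ) :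
    ∀ n, τ + n ≤ H → ∑ z ∈ P.S (τ + n), P.ideal τ ν n z = ∑ x ∈ P.S τ, ν x
  | 0, _ => rfl
  | n + 1, hn => by
    rw [← WF.sum_ideal hP τ ν n (by omega)]
    exact hP.sum_act 0 default (τ := τ + n) hn _

end nezero

end Prog

end Vale.Agent.P313.F43
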