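import Vale.Agent.P313.F43.GenReg

/-! The generator in the lossy case: a part of the extended state is dropped after each step. -/

namespace Vale.Agent.P313.F43

open Finset
open scoped BigOperators

variable {X Y : Type} {p : ℕ} {P : Prog X Y p} {H D : ℕ}

namespace Prog

variable [Fact p.Prime] [DecidableEq X] [DecidableEq Y]

/-- The surviving measure on states at the end of a node. -/
noncomputable def surv (P : Prog X Y p) (k : ℕ) (h : Fin k → Sd p) (τ : ℕ) (ν : X → ℝ)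
    (θ : X × ZMod p → ℝ) : X → ℝ :=
  fib (P.S τ ×ˢ univ) (fun u => P.pi (P.node k h τ u.1 u.2).1) fun u => ν u.1 / p * θ u

/-- The surviving measure on extended states and labels at the end of a node. -/
noncomputable def slot (P : Prog X Y p) (k : ℕ) (h : Fin k → Sd p) (τ : ℕ) (ν : X → ℝ)
    (θ : X × ZMod p → ℝ) : Y × ZMod p → ℝ :=
  fib (P.S τ ×ˢ univ) (fun u => P.node k h τ u.1 u.2) fun u => ν u.1 / p * θ u

/-- The mass which does not survive. -/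
noncomputable def drop (P : Prog X Y p) (τ : ℕ) (ν : X → ℝ) (θ : X × ZMod p → ℝ) : ℝ :=
  ∑ u ∈ P.S τ ×ˢ univ, ν u.1 / p * (1 - θ u)

/-- The invariant of a node. -/
structure Lossy (P : Prog X Y p) (k τ : ℕ) (ν : X → ℝ) (δ Q : ℝ)
    (θ : (Fin k → Sd p) → X × ZMod p → ℝ) : Prop where
  nonneg : ∀ h u, 0 ≤ θ h u
  le_one : ∀ h u, θ h u ≤ 1
  dom : ∀ h, ∀ z ∈ P.S (τ + 2 ^ k), P.surv k h τ ν (θ h) z ≤ P.ideal τ ν (2 ^ k) z
  drop : 𝔼 h, P.drop τ ν (θ h) ≤ δ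
  slot : 𝔼 h, ∑ y ∈ P.SY (τ + 2 ^ k) ×ˢ univ, P.slot k h τ ν (θ h) y ^ 2 ≤ Q

/-- The factor which cuts `l` down to `n`. -/
noncomputable def cut (l n : ℝ) : ℝ := if l ≤ n then 1 else n / l

theorem cut_nonneg {l n : ℝ} (hn : 0 ≤ n) : 0 ≤ cut l n := by
  unfold cut
  split_ifs with h
  · exact zero_le_one
  · exact div_nonneg hn (hn.trans (not_le.1 h).le)

theorem cut_le_one {l n : ℝ} (hn : 0 ≤ n) : cut l n ≤ 1 := by
  unfold cut
  split_ifs with h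
  · exact le_rfl
  · exact div_le_one_of_le₀ (not_le.1 h).le (hn.trans (not_le.1 h).le)

theorem mul_cut_le {l n : ℝ} (hn : 0 ≤ n) : l * cut l n ≤ n := by
  unfold cut
  split_ifs with h
  · rwa [mul_one]
  · rw [mul_div_cancel₀ _ (hn.trans_lt (not_le.1 h)).ne']

theorem mul_one_sub_cut_le {l n m : ℝ} (hn : 0 ≤ n) (hm : m ≤ n) : l * (1 - cut l n) ≤ |l - m| := by
  unfold cut
  split_ifs with h
  · simp
  · rw [mul_sub, mul_div_cancel₀ _ (hn.trans_lt (not_le.1 h)).ne', mul_one]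
    exact le_trans (by linarith) (le_abs_self _)

theorem WF.lossy_zero (hP : P.WF H D) {τ : ℕ} (hτ : τ + 2 ^ 0 ≤ H) (ν : X → ℝ) {κ : ℝ}
    (hκ : ∑ x ∈ P.S τ, ν x ^ 2 ≤ κ) : P.Lossy 0 τ ν 0 (κ / p) fun _ _ => 1 where
  nonneg _ _ := zero_le_one
  le_one _ _ := le_rfl
  dom h z _ := by
    rw [pow_zero, ideal_one h, act_eq, surv]
    simp
  drop := by simp [Prog.drop]
  slot := by
    refine expect_le univ_nonempty fun h _ => ?_
    refine le_trans (sum_fib_sq_le fun u hu v hv e => ?_) ?_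
    · obtain ⟨e2, e3⟩ := hP.inj τ (by simp at hτ; omega) _ (mem_product.1 hu).1 _
        (mem_product.1 hv).1 _ _ e
      exact Prod.ext e2 e3
    · simp only [mul_one]
      rw [sum_sq_div_p]
      exact div_le_div_of_nonneg_right hκ (Nat.cast_nonneg _)

omit [DecidableEq Y] in
/-- The surviving measure is dominated by the ideal one. -/
theorem WF.dominate (hP : P.WF H D) {k : ℕ} (h : Fin k → Sd p) {τ : ℕ} (hτ : τ + 2 ^ k ≤ H)
    {ν μ : X → ℝ} {θ : X × ZMod p → ℝ} (hd : ∀ z ∈ P.S (τ + 2 ^ k), P.surv k h τ ν θ z ≤ μ z)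
    {φ : X → ℝ} (hφ : ∀ x, 0 ≤ φ x) :
    ∑ u ∈ P.S τ ×ˢ univ, ν u.1 / p * θ u * φ (P.pi (P.node k h τ u.1 u.2).1) ≤
      ∑ z ∈ P.S (τ + 2 ^ k), μ z * φ z := by
  rw [← sum_fib_mul (φ := fun u : X × ZMod p => P.pi (P.node k h τ u.1 u.2).1)
    (fun u hu => hP.node_pi_mem k h hτ (mem_product.1 hu).1 _) φ]
  exact sum_le_sum fun z hz => mul_le_mul_of_nonneg_right (hd z hz) (hφ z)

section step

variable {k τ : ℕ} (h : Fin k → Sd p) {ν μ : X → ℝ} {θL θR : X × ZMod p → ℝ}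

/-- The argument of the right child. -/
def mid (P : Prog X Y p) (k : ℕ) (h : Fin k → Sd p) (s : Sd p) (τ : ℕ) (u : X × ZMod p) :
    X × ZMod p :=
  (P.pi (P.node k h τ u.1 u.2).1, P.hash s (P.node k h τ u.1 u.2).1 (P.node k h τ u.1 u.2).2)

omit [Fact p.Prime] [DecidableEq X] [DecidableEq Y] in
theorem node_snoc (s : Sd p) (u : X × ZMod p) :
    P.node (k + 1) (Fin.snoc h s) τ u.1 u.2 =
      P.node k h (τ + 2 ^ k) (P.mid k h s τ u).1 (P.mid k h s τ u).2 := by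
  simp only [node, Fin.init_snoc, Fin.snoc_last, mid]

/-- Second moment and variance of a test of the right child. -/
theorem WF.step_moments (hP : P.WF H D) (hτ : τ + 2 ^ k ≤ H) (hν : ∀ x, 0 ≤ ν x)
    (hL : ∀ u, 0 ≤ θL u) (hd : ∀ z ∈ P.S (τ + 2 ^ k), P.surv k h τ ν θL z ≤ μ z)
    (hR : ∀ u, 0 ≤ θR u) (hR1 : ∀ u, θR u ≤ 1) {W : Type} [DecidableEq W] (T : Finset W)
    (c : X × ZMod p → W) :
    ∃ m : W → ℝ,
      (∀ w, m w ≤ fib (P.S (τ + 2 ^ k) ×ˢ univ) c (fun u => μ u.1 / p * θR u) w) ∧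
      (𝔼 s, ∑ w ∈ T, fib (P.S τ ×ˢ univ) (fun u => c (P.mid k h s τ u))
          (fun u => ν u.1 / p * θL u * θR (P.mid k h s τ u)) w ^ 2 ≤
        (1 + D ^ 2 / p) * ∑ w ∈ T,
          fib (P.S (τ + 2 ^ k) ×ˢ univ) c (fun u => μ u.1 / p * θR u) w ^ 2 +
        ∑ y ∈ P.SY (τ + 2 ^ k) ×ˢ univ, P.slot k h τ ν θL y ^ 2) ∧
      (𝔼 s, ∑ w ∈ T, (fib (P.S τ ×ˢ univ) (fun u => c (P.mid k h s τ u))
          (fun u => ν u.1 / p * θL u * θR (P.mid k h s τ u)) w - m w) ^ 2 ≤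
        D ^ 2 / p * ∑ w ∈ T,
          fib (P.S (τ + 2 ^ k) ×ˢ univ) c (fun u => μ u.1 / p * θR u) w ^ 2 +
        ∑ y ∈ P.SY (τ + 2 ^ k) ×ˢ univ, P.slot k h τ ν θL y ^ 2) := by
  have hp : (0 : ℝ) < p := Nat.cast_pos.2 (NeZero.pos p)
  set ω := P.slot k h τ ν θL with hω
  set g : W → Y → ZMod p → ℝ := fun w y j =>
    θR (P.pi y, j) * if c (P.pi y, j) = w then 1 else 0 with hg
  have hω0 : ∀ y, 0 ≤ ω y := fib_nonneg fun u _ => mul_nonneg (div_nonneg (hν _) hp.le) (hL _)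
  have hg0 : ∀ w y j, 0 ≤ g w y j := fun w y j => mul_nonneg (hR _) (by positivity)
  have e1 : ∀ s w, fib (P.S τ ×ˢ univ) (fun u => c (P.mid k h s τ u))
      (fun u => ν u.1 / p * θL u * θR (P.mid k h s τ u)) w =
      ∑ y ∈ P.SY (τ + 2 ^ k) ×ˢ univ, ω y * g w y.1 (P.hash s y.1 y.2) := by
    intro s w
    rw [hω, slot, hP.sum_node_hash k h hτ _ fun y => g w y.1 (P.hash s y.1 y.2), fib_eq_sum_mul]
    exact sum_congr rfl fun u _ => mul_assoc _ _ _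
  have m0 : ∀ w, 0 ≤ ∑ y ∈ P.SY (τ + 2 ^ k) ×ˢ univ, ω y * 𝔼 j, g w y.1 j := fun w =>
    sum_nonneg fun y _ => mul_nonneg (hω0 y) (expect_nonneg fun j _ => hg0 _ _ _)
  have m1 : ∀ w, ∑ y ∈ P.SY (τ + 2 ^ k) ×ˢ univ, ω y * 𝔼 j, g w y.1 j ≤
      fib (P.S (τ + 2 ^ k) ×ˢ univ) c (fun u => μ u.1 / p * θR u) w := by
    intro w
    rw [hω, slot, hP.sum_node_hash k h hτ _ fun y => 𝔼 j, g w y.1 j]
    refine (hP.dominate h hτ hd (φ := fun x => 𝔼 j, θR (x, j) * if c (x, j) = w then 1 else 0)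
      fun x => expect_nonneg fun j _ => mul_nonneg (hR _) (by positivity)).trans (le_of_eq ?_)
    rw [← sum_div_p, fib_eq_sum_mul]
    exact sum_congr rfl fun u _ => (mul_assoc _ _ _).symm
  have b1 : ∑ w ∈ T, (∑ y ∈ P.SY (τ + 2 ^ k) ×ˢ univ, ω y * 𝔼 j, g w y.1 j) ^ 2 ≤
      ∑ w ∈ T, fib (P.S (τ + 2 ^ k) ×ˢ univ) c (fun u => μ u.1 / p * θR u) w ^ 2 :=
    sum_le_sum fun w _ => pow_le_pow_left₀ (m0 w) (m1 w) 2
  have b2 : ∑ w ∈ T, ∑ y ∈ P.SY (τ + 2 ^ k) ×ˢ univ, ω y ^ 2 * 𝔼 j, g w y.1 j ^ 2 ≤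
      ∑ y ∈ P.SY (τ + 2 ^ k) ×ˢ univ, ω y ^ 2 := by
    rw [sum_comm]
    refine sum_le_sum fun y _ => ?_
    rw [← mul_sum, ← expect_sum_comm]
    exact mul_le_of_le_one_right (sq_nonneg _) (expect_le univ_nonempty fun j _ =>
      sum_ite_sq_le_one T _ (hR _) (hR1 _))
  have hε : (0 : ℝ) ≤ D ^ 2 / p := by positivity
  refine ⟨fun w => ∑ y ∈ P.SY (τ + 2 ^ k) ×ˢ univ, ω y * 𝔼 j, g w y.1 j, m1, ?_, ?_⟩
  · simp only [e1]
    rw [expect_sum_comm]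
    refine (sum_le_sum fun w _ => (hP.goodHash hτ).second hε hω0 (hg0 w)).trans ?_
    rw [sum_add_distrib, ← mul_sum]
    exact add_le_add (mul_le_mul_of_nonneg_left b1 (by linarith)) b2
  · simp only [e1]
    rw [expect_sum_comm]
    refine (sum_le_sum fun w _ => (hP.goodHash hτ).var hε hω0 (hg0 w)).trans ?_
    rw [sum_add_distrib, ← mul_sum]
    exact add_le_add (mul_le_mul_of_nonneg_left b1 hε) b2

omit [DecidableEq Y] in
/-- The mass dropped by the right child. -/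
theorem WF.step_drop (hP : P.WF H D) (hτ : τ + 2 ^ k ≤ H)
    (hd : ∀ z ∈ P.S (τ + 2 ^ k), P.surv k h τ ν θL z ≤ μ z) (hR1 : ∀ u, θR u ≤ 1) :
    𝔼 s, ∑ u ∈ P.S τ ×ˢ univ, ν u.1 / p * θL u * (1 - θR (P.mid k h s τ u)) ≤
      P.drop (τ + 2 ^ k) μ θR := by
  have := (hP.goodHash hτ).first (P.S τ ×ˢ univ) (fun u => P.node k h τ u.1 u.2)
    (fun u => ν u.1 / p * θL u) fun y j => 1 - θR (P.pi y, j)
  refine this.le.trans ?_
  refine (hP.dominate h hτ hd (φ := fun x => 𝔼 j, (1 - θR (x, j)))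
    fun x => expect_nonneg fun j _ => sub_nonneg.2 (hR1 _)).trans (le_of_eq ?_)
  rw [← sum_div_p, drop]

end step

theorem WF.lossy_succ (hP : P.WF H D) {k τ : ℕ} (hτ : τ + 2 ^ k + 2 ^ k ≤ H) {ν : X → ℝ}
    (hν : ∀ x, 0 ≤ ν x) {δ Q κ Ω : ℝ} {θL θR : (Fin k → Sd p) → X × ZMod p → ℝ}
    (hL : P.Lossy k τ ν δ Q θL) (hR : P.Lossy k (τ + 2 ^ k) (P.ideal τ ν (2 ^ k)) δ Q θR)
    (hκ : ∑ z ∈ P.S (τ + 2 ^ (k + 1)), P.ideal τ ν (2 ^ (k + 1)) z ^ 2 ≤ κ)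
    (hΩ : ((P.S (τ + 2 ^ (k + 1))).card : ℝ) ≤ Ω) :
    ∃ θ, P.Lossy (k + 1) τ ν (2 * δ + √(Ω * (D ^ 2 / p * κ + Q))) ((2 + D ^ 2 / p) * Q) θ := by
  have hp : (0 : ℝ) < p := Nat.cast_pos.2 (NeZero.pos p)
  have hε : (0 : ℝ) ≤ D ^ 2 / p := by positivity
  have h1 : τ + 2 ^ k ≤ H := (Nat.le_add_right _ _).trans hτ
  have e0 : 2 ^ (k + 1) = 2 ^ k + 2 ^ k := by ring
  have e1 : τ + 2 ^ (k + 1) = τ + 2 ^ k + 2 ^ k := by ring
  set μ := P.ideal τ ν (2 ^ k) with hμ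
  set E := P.ideal τ ν (2 ^ (k + 1)) with hE
  have hE' : E = P.ideal (τ + 2 ^ k) μ (2 ^ k) := by rw [hE, e0, ideal_add]
  have hE0 : ∀ z, 0 ≤ E z := ideal_nonneg hν τ _
  have hμ0 : ∀ z, 0 ≤ μ z := ideal_nonneg hν τ _
  set c : (Fin k → Sd p) → X × ZMod p → X :=
    fun h u => P.pi (P.node k h (τ + 2 ^ k) u.1 u.2).1 with hc
  set w : (Fin k → Sd p) → Sd p → X × ZMod p → ℝ :=
    fun h s u => ν u.1 / p * θL h u * θR h (P.mid k h s τ u) with hw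
  have hw0 : ∀ h s u, 0 ≤ w h s u := fun h s u =>
    mul_nonneg (mul_nonneg (div_nonneg (hν _) hp.le) (hL.nonneg _ _)) (hR.nonneg _ _)
  set lam : (Fin k → Sd p) → Sd p → X → ℝ :=
    fun h s => fib (P.S τ ×ˢ univ) (fun u => c h (P.mid k h s τ u)) (w h s) with hlam
  set θ : (Fin k → Sd p) → Sd p → X × ZMod p → ℝ := fun h s u =>
    θL h u * θR h (P.mid k h s τ u) *
      cut (lam h s (c h (P.mid k h s τ u))) (E (c h (P.mid k h s τ u))) with hθ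
  have hmem : ∀ h s, ∀ u ∈ P.S τ ×ˢ (univ : Finset (ZMod p)),
      c h (P.mid k h s τ u) ∈ P.S (τ + 2 ^ (k + 1)) := by
    intro h s u hu
    rw [e1]
    exact hP.node_pi_mem k h hτ (hP.node_pi_mem k h h1 (mem_product.1 hu).1 _) _
  refine ⟨fun h => θ (Fin.init h) (h (Fin.last k)), fun h u => ?_, fun h u => ?_, fun h z _ => ?_,
    ?_, ?_⟩
  · exact mul_nonneg (mul_nonneg (hL.nonneg _ _) (hR.nonneg _ _)) (cut_nonneg (hE0 _))
  · exact mul_le_one₀ (mul_le_one₀ (hL.le_one _ _) (hR.nonneg _ _) (hR.le_one _ _))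
      (cut_nonneg (hE0 _)) (cut_le_one (hE0 _))
  · obtain ⟨h, s, rfl⟩ : ∃ h' s, h = Fin.snoc h' s := ⟨_, _, (Fin.snoc_init_self h).symm⟩
    simp only [Fin.init_snoc, Fin.snoc_last]
    refine le_trans (le_of_eq ?_) (mul_cut_le (l := lam h s z) (hE0 z))
    rw [hlam, ← fib_mul_comp (fun z => cut (lam h s z) (E z)), surv]
    exact fib_congr (fun u _ => by rw [node_snoc]) (fun u _ => by simp only [hθ, hw]; ring) z
  · rw [expect_snoc fun h s => P.drop τ ν (θ h s)]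
    have key : ∀ h, ∃ m : X → ℝ, (∀ s, P.drop τ ν (θ h s) ≤ P.drop τ ν (θL h) +
        ∑ u ∈ P.S τ ×ˢ univ, ν u.1 / p * θL h u * (1 - θR h (P.mid k h s τ u)) +
        ∑ z ∈ P.S (τ + 2 ^ (k + 1)), |lam h s z - m z|) ∧
        𝔼 s, ∑ z ∈ P.S (τ + 2 ^ (k + 1)), (lam h s z - m z) ^ 2 ≤ D ^ 2 / p * κ +
          ∑ y ∈ P.SY (τ + 2 ^ k) ×ˢ univ, P.slot k h τ ν (θL h) y ^ 2 := by
      intro h
      obtain ⟨m, hm, -, hv⟩ := hP.step_moments h h1 hν (hL.nonneg h) (hL.dom h) (hR.nonneg h)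
        (hR.le_one h) (P.S (τ + 2 ^ (k + 1))) (c h)
      have hs : ∀ z ∈ P.S (τ + 2 ^ (k + 1)), P.surv k h (τ + 2 ^ k) μ (θR h) z ≤ E z := by
        intro z hz
        rw [hE']
        exact hR.dom h z (e1 ▸ hz)
      refine ⟨m, fun s => ?_, hv.trans (add_le_add (mul_le_mul_of_nonneg_left
        (le_trans (sum_le_sum fun z hz => pow_le_pow_left₀ ?_ (hs z hz) 2) hκ) hε) le_rfl)⟩
      · have e2 : P.drop τ ν (θ h s) = P.drop τ ν (θL h) +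
            ∑ u ∈ P.S τ ×ˢ univ, ν u.1 / p * θL h u * (1 - θR h (P.mid k h s τ u)) +
            ∑ z ∈ P.S (τ + 2 ^ (k + 1)), lam h s z * (1 - cut (lam h s z) (E z)) := by
          rw [hlam, sum_fib_mul (hmem h s), drop, drop, ← sum_add_distrib, ← sum_add_distrib]
          refine sum_congr rfl fun u _ => ?_
          simp only [hθ, hw]
          ring
        rw [e2]
        exact add_le_add le_rfl (sum_le_sum fun z hz =>
          mul_one_sub_cut_le (hE0 z) ((hm z).trans (hs z hz)))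
      · exact fib_nonneg (fun u _ => mul_nonneg (div_nonneg (hμ0 _) hp.le) (hR.nonneg _ _)) z
    choose m hm hv using key
    have b1 : 𝔼 h, 𝔼 s, ∑ z ∈ P.S (τ + 2 ^ (k + 1)), |lam h s z - m h z| ≤
        √(Ω * (D ^ 2 / p * κ + Q)) := by
      rw [← expect_product' univ univ fun h s => ∑ z ∈ P.S (τ + 2 ^ (k + 1)), |lam h s z - m h z|,
        univ_product_univ]
      refine expect_le_sqrt _ ?_
      have b2 : ∀ hs : (Fin k → Sd p) × Sd p,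
          (∑ z ∈ P.S (τ + 2 ^ (k + 1)), |lam hs.1 hs.2 z - m hs.1 z|) ^ 2 ≤
            Ω * ∑ z ∈ P.S (τ + 2 ^ (k + 1)), (lam hs.1 hs.2 z - m hs.1 z) ^ 2 := by
        intro hs
        refine sq_sum_le_card_mul_sum_sq.trans ?_
        simp only [sq_abs]
        exact mul_le_mul_of_nonneg_right hΩ (sum_nonneg fun _ _ => sq_nonneg _)
      refine (expect_le_expect fun hs _ => b2 hs).trans ?_
      rw [← mul_expect, ← univ_product_univ, expect_product' univ univ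
        fun h s => ∑ z ∈ P.S (τ + 2 ^ (k + 1)), (lam h s z - m h z) ^ 2]
      refine mul_le_mul_of_nonneg_left ((expect_le_expect fun h _ => hv h).trans ?_)
        ((Nat.cast_nonneg _).trans hΩ)
      rw [expect_add_distrib, Fintype.expect_const]
      exact add_le_add le_rfl hL.slot
    have b3 : 𝔼 h, 𝔼 s, ∑ u ∈ P.S τ ×ˢ univ,
        ν u.1 / p * θL h u * (1 - θR h (P.mid k h s τ u)) ≤ δ :=
      (expect_le_expect fun h _ => hP.step_drop h h1 (hL.dom h) (hR.le_one h)).trans hR.drop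
    refine (expect_le_expect fun h _ => expect_le_expect fun s _ => hm h s).trans ?_
    simp only [expect_add_distrib, Fintype.expect_const]
    linarith [hL.drop]
  · have e2 := expect_snoc fun (h : Fin k → Sd p) (s : Sd p) =>
      ∑ y ∈ P.SY (τ + 2 ^ (k + 1)) ×ˢ univ, P.slot (k + 1) (Fin.snoc h s) τ ν (θ h s) y ^ 2
    simp only [Fin.snoc_init_self] at e2
    rw [e2]
    have key : ∀ h : Fin k → Sd p, 𝔼 s : Sd p, ∑ y ∈ P.SY (τ + 2 ^ (k + 1)) ×ˢ univ,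
        P.slot (k + 1) (Fin.snoc h s) τ ν (θ h s) y ^ 2 ≤
        (1 + D ^ 2 / p) * ∑ y ∈ P.SY (τ + 2 ^ k + 2 ^ k) ×ˢ univ,
          P.slot k h (τ + 2 ^ k) μ (θR h) y ^ 2 +
        ∑ y ∈ P.SY (τ + 2 ^ k) ×ˢ univ, P.slot k h τ ν (θL h) y ^ 2 := by
      intro h
      obtain ⟨-, -, hv, -⟩ := hP.step_moments h h1 hν (hL.nonneg h) (hL.dom h) (hR.nonneg h)
        (hR.le_one h) (P.SY (τ + 2 ^ k + 2 ^ k) ×ˢ univ)
        (fun u => P.node k h (τ + 2 ^ k) u.1 u.2)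
      refine le_trans (expect_le_expect fun s _ => ?_) hv
      rw [e1]
      refine sum_le_sum fun y _ => pow_le_pow_left₀ (fib_nonneg (fun u _ => ?_) y) ?_ 2
      · exact mul_nonneg (div_nonneg (hν _) hp.le) (mul_nonneg
          (mul_nonneg (hL.nonneg _ _) (hR.nonneg _ _)) (cut_nonneg (hE0 _)))
      · refine (fib_congr (fun u _ => node_snoc h s u) (fun _ _ => rfl) y).le.trans
          (fib_mono (fun u _ => ?_) y)
        refine le_trans (le_of_eq ?_) (mul_le_of_le_one_right (hw0 h s u)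
          (cut_le_one (l := lam h s (c h (P.mid k h s τ u))) (hE0 (c h (P.mid k h s τ u)))))
        simp only [hθ]
        ring
    refine (expect_le_expect fun h _ => key h).trans ?_
    rw [expect_add_distrib, ← mul_expect]
    have := mul_le_mul_of_nonneg_left hR.slot (show (0 : ℝ) ≤ 1 + D ^ 2 / p by linarith)
    linarith [hL.slot]

theorem Lossy.mono {k τ : ℕ} {ν : X → ℝ} {δ Q δ' Q' : ℝ} {θ : (Fin k → Sd p) → X × ZMod p → ℝ}
    (h : P.Lossy k τ ν δ Q θ) (hδ : δ ≤ δ') (hQ : Q ≤ Q') : P.Lossy k τ ν δ' Q' θ :=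
  ⟨h.nonneg, h.le_one, h.dom, h.drop.trans hδ, h.slot.trans hQ⟩

theorem WF.lossy_aux (hP : P.WF H D) (hD : D ^ 2 ≤ p) {κ Ω : ℝ} : ∀ (k τ : ℕ), τ + 2 ^ k ≤ H →
    ∀ ν : X → ℝ, (∀ x, 0 ≤ ν x) →
      (∀ n ≤ 2 ^ k, ∑ z ∈ P.S (τ + n), P.ideal τ ν n z ^ 2 ≤ κ) →
      (∀ n ≤ 2 ^ k, ((P.S (τ + n)).card : ℝ) ≤ Ω) →
      ∃ θ, P.Lossy k τ ν ((2 ^ k - 1) * √(Ω * κ * (3 ^ k + (D : ℝ) ^ 2) / p)) (3 ^ k * κ / p) θ
  | 0, τ, hτ, ν, _, hκ, _ =>
    ⟨_, (hP.lossy_zero hτ ν (hκ 0 (Nat.zero_le _))).mono (by simp) (by simp)⟩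
  | k + 1, τ, hτ, ν, hν, hκ, hΩ => by
    have hp : (0 : ℝ) < p := Nat.cast_pos.2 (NeZero.pos p)
    have e0 : 2 ^ (k + 1) = 2 ^ k + 2 ^ k := by ring
    have hτ' : τ + 2 ^ k + 2 ^ k ≤ H := by rwa [e0, ← add_assoc] at hτ
    obtain ⟨θL, hL⟩ := WF.lossy_aux hP hD k τ ((Nat.le_add_right _ _).trans hτ') ν hν
      (fun n hn => hκ n (by omega)) (fun n hn => hΩ n (by omega))
    obtain ⟨θR, hR⟩ := WF.lossy_aux hP hD (κ := κ) (Ω := Ω) k (τ + 2 ^ k) hτ'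
      (P.ideal τ ν (2 ^ k)) (ideal_nonneg hν τ _)
      (fun n hn => by
        rw [← ideal_add, add_assoc]
        exact hκ _ (by omega))
      (fun n hn => by
        rw [add_assoc]
        exact hΩ _ (by omega))
    obtain ⟨θ, hθ⟩ := hP.lossy_succ hτ' hν hL hR (hκ _ le_rfl) (hΩ _ le_rfl)
    have hκ0 : 0 ≤ κ := (sum_nonneg fun _ _ => sq_nonneg _).trans (hκ 0 (Nat.zero_le _))
    have hΩ0 : 0 ≤ Ω := (Nat.cast_nonneg _).trans (hΩ 0 (Nat.zero_le _))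
    refine ⟨θ, hθ.mono ?_ ?_⟩
    · have e1 : Ω * (D ^ 2 / p * κ + 3 ^ k * κ / p) = Ω * κ * (3 ^ k + (D : ℝ) ^ 2) / p := by ring
      have b1 : √(Ω * κ * (3 ^ k + (D : ℝ) ^ 2) / p) ≤
          √(Ω * κ * (3 ^ (k + 1) + (D : ℝ) ^ 2) / p) := by
        gcongr
        · norm_num
        · omega
      have b2 : (0 : ℝ) ≤ 2 ^ (k + 1) - 1 := sub_nonneg.2 (one_le_pow₀ one_le_two)
      refine le_trans (le_of_eq ?_) (mul_le_mul_of_nonneg_left b1 b2)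
      rw [e1]
      ring
    · have b1 : (D : ℝ) ^ 2 / p ≤ 1 := div_le_one_of_le₀ (by exact_mod_cast hD) hp.le
      have b2 : (0 : ℝ) ≤ 3 ^ k * κ / p := by positivity
      refine (mul_le_mul_of_nonneg_right (show _ ≤ (3 : ℝ) by linarith) b2).trans (le_of_eq ?_)
      ring

omit [DecidableEq Y] in
/-- The generator fools lossy programs in the norm `ℓ¹` if the ideal measures are flat. -/
theorem WF.lossy (hP : P.WF H D) (hD : D ^ 2 ≤ p) {κ Ω : ℝ} {k τ : ℕ} (hτ : τ + 2 ^ k ≤ H)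
    {ν : X → ℝ} (hν : ∀ x, 0 ≤ ν x)
    (hκ : ∀ n ≤ 2 ^ k, ∑ z ∈ P.S (τ + n), P.ideal τ ν n z ^ 2 ≤ κ)
    (hΩ : ∀ n ≤ 2 ^ k, ((P.S (τ + n)).card : ℝ) ≤ Ω) :
    𝔼 h : Fin k → Sd p, ∑ z ∈ P.S (τ + 2 ^ k), |P.act k h τ ν z - P.ideal τ ν (2 ^ k) z| ≤
      2 ^ (k + 1) * √(Ω * κ * (3 ^ k + (D : ℝ) ^ 2) / p) := by
  classical
  have hp : (0 : ℝ) < p := Nat.cast_pos.2 (NeZero.pos p)
  obtain ⟨θ, hθ⟩ := hP.lossy_aux hD k τ hτ ν hν hκ hΩ
  have key : ∀ h : Fin k → Sd p,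
      ∑ z ∈ P.S (τ + 2 ^ k), |P.act k h τ ν z - P.ideal τ ν (2 ^ k) z| ≤ 2 * P.drop τ ν (θ h) := by
    intro h
    set d := fib (P.S τ ×ˢ univ) (fun u => P.pi (P.node k h τ u.1 u.2).1)
      fun u => ν u.1 / p * (1 - θ h u) with hd
    have e1 : ∀ z, P.act k h τ ν z = P.surv k h τ ν (θ h) z + d z := by
      intro z
      rw [act_eq, surv, hd, ← fib_add]
      exact fib_congr (fun _ _ => rfl) (fun _ _ => by ring) z
    have e2 : ∑ z ∈ P.S (τ + 2 ^ k), d z = P.drop τ ν (θ h) :=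
      sum_fib fun u hu => hP.node_pi_mem k h hτ (mem_product.1 hu).1 _
    have d0 : ∀ z, 0 ≤ d z :=
      fib_nonneg fun u _ => mul_nonneg (div_nonneg (hν _) hp.le) (sub_nonneg.2 (hθ.le_one _ _))
    have e3 := (hP.sum_act k h hτ ν).trans (hP.sum_ideal τ ν _ hτ).symm
    have b1 : ∑ z ∈ P.S (τ + 2 ^ k), |P.act k h τ ν z - P.ideal τ ν (2 ^ k) z| ≤
        ∑ z ∈ P.S (τ + 2 ^ k), (2 * d z + (P.ideal τ ν (2 ^ k) z - P.act k h τ ν z)) := by
      refine sum_le_sum fun z hz => abs_le.2 ⟨?_, ?_⟩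
      · linarith [d0 z]
      · linarith [e1 z, hθ.dom h z hz]
    rw [sum_add_distrib, sum_sub_distrib, ← mul_sum, e2, e3] at b1
    linarith
  refine (expect_le_expect fun h _ => key h).trans ?_
  rw [← mul_expect, pow_succ (2 : ℝ) k]
  linarith [hθ.drop, Real.sqrt_nonneg (Ω * κ * (3 ^ k + (D : ℝ) ^ 2) / p)]

end Prog

end Vale.Agent.P313.F43
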