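import Vale.Agent.P313.F43.GenBase

/-! The generator in the regular case: nothing is dropped, all node maps are injective. -/

namespace Vale.Agent.P313.F43

open Finset
open scoped BigOperators

/-- The Euclidean norm on a finite set. -/
noncomputable def l2 {α : Type*} (T : Finset α) (f : α → ℝ) : ℝ := √(∑ z ∈ T, f z ^ 2)

section l2

variable {α : Type*} {T : Finset α} {f g : α → ℝ}

theorem l2_nonneg : 0 ≤ l2 T f := Real.sqrt_nonneg _

theorem l2_sq : l2 T f ^ 2 = ∑ z ∈ T, f z ^ 2 := Real.sq_sqrt (sum_nonneg fun _ _ => sq_nonneg _)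

theorem l2_congr (h : ∀ z ∈ T, f z = g z) : l2 T f = l2 T g := by
  unfold l2
  rw [sum_congr rfl fun z hz => by rw [h z hz]]

theorem l2_add_le : l2 T (fun z => f z + g z) ≤ l2 T f + l2 T g := by
  refine Real.sqrt_le_iff.2 ⟨add_nonneg l2_nonneg l2_nonneg, ?_⟩
  have h1 : ∑ z ∈ T, f z * g z ≤ l2 T f * l2 T g := Real.sum_mul_le_sqrt_mul_sqrt T f g
  have h2 : ∑ z ∈ T, (f z + g z) ^ 2 =
      ∑ z ∈ T, f z ^ 2 + 2 * ∑ z ∈ T, f z * g z + ∑ z ∈ T, g z ^ 2 := by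
    rw [mul_sum, ← sum_add_distrib, ← sum_add_distrib]
    exact sum_congr rfl fun z _ => by ring
  rw [h2, add_sq, l2_sq, l2_sq]
  linarith

theorem l2_sub_le : l2 T (fun z => f z - g z) ≤ l2 T f + l2 T g := by
  have h1 : l2 T (fun z => -g z) = l2 T g := by simp [l2]
  rw [← h1]
  simp only [sub_eq_add_neg]
  exact l2_add_le

theorem l2_le_of_abs_le (h : ∀ z ∈ T, |f z| ≤ |g z|) : l2 T f ≤ l2 T g :=
  Real.sqrt_le_sqrt (sum_le_sum fun z hz => sq_le_sq.2 (h z hz))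

theorem l2_expect_le {I : Type*} [Fintype I] (F : I → α → ℝ) :
    l2 T (fun z => 𝔼 i, F i z) ≤ 𝔼 i, l2 T (F i) := by
  set m : α → ℝ := fun z => 𝔼 i, F i z with hm
  have h0 : 0 ≤ 𝔼 i, l2 T (F i) := expect_nonneg fun _ _ => l2_nonneg
  have h1 : l2 T m ^ 2 ≤ l2 T m * 𝔼 i, l2 T (F i) := by
    have : l2 T m ^ 2 = 𝔼 i, ∑ z ∈ T, m z * F i z := by
      rw [l2_sq, expect_sum_comm]
      exact sum_congr rfl fun z _ => by rw [← mul_expect, sq]
    rw [this, mul_expect]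
    exact expect_le_expect fun i _ => Real.sum_mul_le_sqrt_mul_sqrt T m (F i)
  rcases (l2_nonneg (T := T) (f := m)).eq_or_lt with h | h
  · rw [← h]
    exact h0
  · rw [sq] at h1
    exact le_of_mul_le_mul_left h1 h

end l2

variable {X Y : Type} {p : ℕ} {P : Prog X Y p} {H D : ℕ}

namespace Prog

/-- Nothing is dropped. -/
def Reg (P : Prog X Y p) (H : ℕ) : Prop :=
  ∀ τ ≤ H, ∀ y ∈ P.SY τ, ∀ y' ∈ P.SY τ, P.pi y = P.pi y' → y = y'

variable [Fact p.Prime]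

theorem WF.node_inj (hP : P.WF H D) (hR : P.Reg H) : ∀ (k : ℕ) (h : Fin k → Sd p) (τ : ℕ),
    τ + 2 ^ k ≤ H → ∀ x ∈ P.S τ, ∀ x' ∈ P.S τ, ∀ i i',
      P.node k h τ x i = P.node k h τ x' i' → x = x' ∧ i = i'
  | 0, _, τ, hτ, x, hx, x', hx', i, i', e => hP.inj τ (by simp at hτ; omega) x hx x' hx' i i' e
  | k + 1, h, τ, hτ, x, hx, x', hx', i, i', e => by
    have e1 : τ + 2 ^ (k + 1) = τ + 2 ^ k + 2 ^ k := by ring
    rw [e1] at hτ
    have h1 : τ + 2 ^ k ≤ H := (Nat.le_add_right _ _).trans hτ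
    obtain ⟨e2, e3⟩ := WF.node_inj hP hR k _ _ hτ _ (hP.node_pi_mem k _ h1 hx i) _
      (hP.node_pi_mem k _ h1 hx' i') _ _ e
    have e4 := hR _ h1 _ (hP.node_mem k _ τ h1 x hx i) _ (hP.node_mem k _ τ h1 x' hx' i') e2
    rw [e4] at e3
    exact WF.node_inj hP hR k _ τ h1 x hx x' hx' i i' (Prod.ext e4 (hash_injective _ _ e3))

theorem sum_sq_div_p (T : Finset X) (ν : X → ℝ) :
    ∑ u ∈ T ×ˢ (univ : Finset (ZMod p)), (ν u.1 / p) ^ 2 = (∑ x ∈ T, ν x ^ 2) / p := by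
  have hp : (p : ℝ) ≠ 0 := Nat.cast_ne_zero.2 (NeZero.ne p)
  rw [sum_product, sum_div]
  refine sum_congr rfl fun x _ => ?_
  simp only [sum_const, card_univ, ZMod.card, nsmul_eq_mul]
  field_simp

variable [DecidableEq X]

theorem WF.act_l2_le (hP : P.WF H D) (hR : P.Reg H) (k : ℕ) (h : Fin k → Sd p) {τ : ℕ}
    (hτ : τ + 2 ^ k ≤ H) (ν : X → ℝ) (T : Finset X) : l2 T (P.act k h τ ν) ≤ l2 (P.S τ) ν := by
  have hp : (0 : ℝ) < p := Nat.cast_pos.2 (NeZero.pos p)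
  refine Real.sqrt_le_sqrt ?_
  set φ : X × ZMod p → X × ZMod p := fun u =>
    (P.pi (P.node k h τ u.1 u.2).1, (P.node k h τ u.1 u.2).2) with hφ
  have hinj : Set.InjOn φ ↑(P.S τ ×ˢ (univ : Finset (ZMod p))) := by
    intro u hu v hv e
    have hu' := (mem_product.1 hu).1
    have hv' := (mem_product.1 hv).1
    rw [hφ, Prod.mk.injEq] at e
    have e1 := hR _ hτ _ (hP.node_mem k h τ hτ _ hu' u.2) _ (hP.node_mem k h τ hτ _ hv' v.2) e.1
    obtain ⟨e2, e3⟩ := hP.node_inj hR k h τ hτ _ hu' _ hv' _ _ (Prod.ext e1 e.2)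
    exact Prod.ext e2 e3
  have h1 : ∀ z, P.act k h τ ν z =
      ∑ d, fib (P.S τ ×ˢ univ) φ (fun u => ν u.1 / p) (z, d) := by
    intro z
    rw [act_eq]
    simp only [fib]
    rw [sum_comm]
    refine sum_congr rfl fun u _ => ?_
    simp only [hφ, Prod.mk.injEq]
    split_ifs with e
    · simp [e]
    · simp [e]
  have h2 := sum_fib_sq_le (T := T ×ˢ univ) (f := fun u => ν u.1 / p) hinj
  rw [sum_sq_div_p, sum_product, le_div_iff₀ hp, sum_mul] at h2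
  refine le_trans (sum_le_sum fun z _ => ?_) h2
  rw [h1, mul_comm]
  have := sq_sum_le_card_mul_sum_sq (s := (univ : Finset (ZMod p)))
    (f := fun d => fib (P.S τ ×ˢ univ) φ (fun u => ν u.1 / p) (z, d))
  rwa [card_univ, ZMod.card] at this

theorem WF.ideal_l2_le (hP : P.WF H D) (hR : P.Reg H) (τ : ℕ) (ν : X → ℝ) :
    ∀ n, τ + n ≤ H → l2 (P.S (τ + n)) (P.ideal τ ν n) ≤ l2 (P.S τ) ν
  | 0, _ => le_rfl
  | n + 1, hn => (hP.act_l2_le hR 0 default (τ := τ + n) hn _ _).trans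
      (WF.ideal_l2_le hP hR τ ν n (by omega))

omit [DecidableEq X] in
/-- One node of the tree is the hash function applied to the joint measure of the left child. -/
theorem WF.sum_node_hash [DecidableEq Y] (hP : P.WF H D) (k : ℕ) (h : Fin k → Sd p) {τ : ℕ}
    (hτ : τ + 2 ^ k ≤ H) (w : X × ZMod p → ℝ) (ψ : Y × ZMod p → ℝ) :
    ∑ y ∈ P.SY (τ + 2 ^ k) ×ˢ univ,
      fib (P.S τ ×ˢ univ) (fun u => P.node k h τ u.1 u.2) w y * ψ y =
      ∑ u ∈ P.S τ ×ˢ univ, w u * ψ (P.node k h τ u.1 u.2) :=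
  sum_fib_mul (fun _ hu =>
    mem_product.2 ⟨hP.node_mem k h τ hτ _ (mem_product.1 hu).1 _, mem_univ _⟩) ψ

/-- The error made by one hash function, for nonnegative measures. -/
theorem WF.hash_err_nonneg (hP : P.WF H D) (hR : P.Reg H) (k : ℕ) (h : Fin k → Sd p) {τ : ℕ}
    (hτ : τ + 2 ^ k + 2 ^ k ≤ H) {ν : X → ℝ} (hν : ∀ x, 0 ≤ ν x) (T : Finset X) :
    𝔼 s, l2 T (fun z => P.act (k + 1) (Fin.snoc h s) τ ν z -
      P.act k h (τ + 2 ^ k) (P.act k h τ ν) z) ≤ √((1 + D ^ 2) / p) * l2 (P.S τ) ν := by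
  classical
  have hp : (0 : ℝ) < p := Nat.cast_pos.2 (NeZero.pos p)
  have h1 : τ + 2 ^ k ≤ H := (Nat.le_add_right _ _).trans hτ
  set ω := fib (P.S τ ×ˢ univ) (fun u => P.node k h τ u.1 u.2) (fun u => ν u.1 / p) with hω
  set g : X → Y → ZMod p → ℝ := fun z y j =>
    if P.pi (P.node k h (τ + 2 ^ k) (P.pi y) j).1 = z then 1 else 0 with hg
  have hω0 : ∀ y, 0 ≤ ω y := fib_nonneg fun u _ => div_nonneg (hν _) hp.le
  have hg0 : ∀ z y j, 0 ≤ g z y j := fun z y j => by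
    simp only [hg]
    positivity
  have e1 : ∀ s z, P.act (k + 1) (Fin.snoc h s) τ ν z =
      ∑ y ∈ P.SY (τ + 2 ^ k) ×ˢ univ, ω y * g z y.1 (P.hash s y.1 y.2) := by
    intro s z
    rw [hω, hP.sum_node_hash k h h1 _ fun y => g z y.1 (P.hash s y.1 y.2), act_eq, fib_eq_sum_mul]
    simp only [node, Fin.init_snoc, Fin.snoc_last, hg]
  have e2 : ∀ z, P.act k h (τ + 2 ^ k) (P.act k h τ ν) z =
      ∑ y ∈ P.SY (τ + 2 ^ k) ×ˢ univ, ω y * 𝔼 j, g z y.1 j := by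
    intro z
    rw [hω, hP.sum_node_hash k h h1 _ fun y => 𝔼 j, g z y.1 j, act_eq, fib_eq_sum_mul,
      sum_div_p (P.S (τ + 2 ^ k)) (P.act k h τ ν)
        fun x j => if P.pi (P.node k h (τ + 2 ^ k) x j).1 = z then 1 else 0]
    simp only [act_eq]
    exact sum_fib_mul (fun u hu => hP.node_pi_mem k h h1 (mem_product.1 hu).1 _) _
  have hvar := fun z => (hP.goodHash h1).var (by positivity) hω0 (hg0 z)
  rw [l2, ← Real.sqrt_mul (by positivity)]
  refine expect_le_sqrt _ ?_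
  simp only [l2_sq, e1, e2]
  rw [expect_sum_comm]
  refine (sum_le_sum fun z _ => hvar z).trans ?_
  rw [sum_add_distrib, ← mul_sum, sum_comm]
  have b1 : ∑ z ∈ T, (∑ y ∈ P.SY (τ + 2 ^ k) ×ˢ univ, ω y * 𝔼 j, g z y.1 j) ^ 2 ≤
      ∑ x ∈ P.S τ, ν x ^ 2 := by
    simp only [← e2]
    rw [← l2_sq, ← l2_sq]
    exact pow_le_pow_left₀ l2_nonneg ((hP.act_l2_le hR k h hτ _ _).trans
      (hP.act_l2_le hR k h h1 _ _)) 2
  have b2 : ∑ y ∈ P.SY (τ + 2 ^ k) ×ˢ univ, ∑ z ∈ T, ω y ^ 2 * 𝔼 j, g z y.1 j ^ 2 ≤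
      (∑ x ∈ P.S τ, ν x ^ 2) / p := by
    rw [← sum_sq_div_p]
    refine le_trans (sum_le_sum fun y _ => ?_) (sum_fib_sq_le (T := P.SY (τ + 2 ^ k) ×ˢ univ)
      (φ := fun u => P.node k h τ u.1 u.2) fun u hu v hv e => ?_)
    · rw [← mul_sum, ← expect_sum_comm]
      refine mul_le_of_le_one_right (sq_nonneg _) (expect_le univ_nonempty fun j _ => ?_)
      simpa only [hg, one_mul] using sum_ite_sq_le_one T
        (P.pi (P.node k h (τ + 2 ^ k) (P.pi y.1) j).1) zero_le_one le_rfl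
    · obtain ⟨e2, e3⟩ := hP.node_inj hR k h τ h1 _ (mem_product.1 hu).1 _ (mem_product.1 hv).1
        _ _ e
      exact Prod.ext e2 e3
  have b3 := mul_le_mul_of_nonneg_left b1 (show (0 : ℝ) ≤ D ^ 2 / p by positivity)
  refine (add_le_add b3 b2).trans (le_of_eq ?_)
  ring

/-- The error made by one hash function. -/
theorem WF.hash_err (hP : P.WF H D) (hR : P.Reg H) (k : ℕ) (h : Fin k → Sd p) {τ : ℕ}
    (hτ : τ + 2 ^ k + 2 ^ k ≤ H) (ν : X → ℝ) (T : Finset X) :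
    𝔼 s, l2 T (fun z => P.act (k + 1) (Fin.snoc h s) τ ν z -
      P.act k h (τ + 2 ^ k) (P.act k h τ ν) z) ≤ 2 * (√((1 + D ^ 2) / p) * l2 (P.S τ) ν) := by
  have h1 := hP.hash_err_nonneg hR k h hτ (ν := fun x => max (ν x) 0) (fun x => le_max_right _ _) T
  have h2 := hP.hash_err_nonneg hR k h hτ (ν := fun x => max (-ν x) 0)
    (fun x => le_max_right _ _) T
  have e : ν = fun x => max (ν x) 0 - max (-ν x) 0 :=
    funext fun x => (max_zero_sub_max_neg_zero_eq_self _).symm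
  have b1 : l2 (P.S τ) (fun x => max (ν x) 0) ≤ l2 (P.S τ) ν := l2_le_of_abs_le fun x _ => by
    rw [abs_of_nonneg (le_max_right _ _)]
    exact max_le (le_abs_self _) (abs_nonneg _)
  have b2 : l2 (P.S τ) (fun x => max (-ν x) 0) ≤ l2 (P.S τ) ν := l2_le_of_abs_le fun x _ => by
    rw [abs_of_nonneg (le_max_right _ _)]
    exact max_le (neg_le_abs _) (abs_nonneg _)
  have b3 := mul_le_mul_of_nonneg_left b1 (Real.sqrt_nonneg ((1 + D ^ 2) / p : ℝ))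
  have b4 := mul_le_mul_of_nonneg_left b2 (Real.sqrt_nonneg ((1 + D ^ 2) / p : ℝ))
  refine le_trans ?_ (show _ ≤ _ from (add_le_add h1 h2).trans (by linarith))
  rw [← expect_add_distrib]
  refine expect_le_expect fun s _ => le_trans (le_of_eq (l2_congr fun z _ => ?_)) l2_sub_le
  have e1 : P.act k h τ ν = fun x => P.act k h τ (fun x => max (ν x) 0) x -
      P.act k h τ (fun x => max (-ν x) 0) x := by
    funext x
    rw [← act_sub, ← e]
  have e2 : P.act (k + 1) (Fin.snoc h s) τ ν z =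
      P.act (k + 1) (Fin.snoc h s) τ (fun x => max (ν x) 0) z -
        P.act (k + 1) (Fin.snoc h s) τ (fun x => max (-ν x) 0) z := by
    rw [← act_sub, ← e]
  rw [e1, act_sub, e2]
  ring

theorem WF.reg_aux (hP : P.WF H D) (hR : P.Reg H) : ∀ (k τ : ℕ), τ + 2 ^ k ≤ H → ∀ ν : X → ℝ,
    𝔼 h : Fin k → Sd p, l2 (P.S (τ + 2 ^ k)) (fun z => P.act k h τ ν z - P.ideal τ ν (2 ^ k) z) ≤
      (2 ^ k - 1) * (2 * (√((1 + D ^ 2) / p) * l2 (P.S τ) ν))
  | 0, τ, _, ν => by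
    refine expect_le univ_nonempty fun h _ => le_of_eq ?_
    simp [ideal_one h, l2]
  | k + 1, τ, hτ, ν => by
    have e1 : 2 ^ (k + 1) = 2 ^ k + 2 ^ k := by ring
    rw [e1] at hτ ⊢
    rw [← add_assoc] at hτ ⊢
    have h1 : τ + 2 ^ k ≤ H := (Nat.le_add_right _ _).trans hτ
    have i1 := WF.reg_aux hP hR k τ h1 ν
    have i2 := WF.reg_aux hP hR k _ hτ (P.ideal τ ν (2 ^ k))
    have b1 := hP.ideal_l2_le hR τ ν _ h1
    have b2 : (0 : ℝ) ≤ 2 ^ k - 1 := sub_nonneg.2 (one_le_pow₀ one_le_two)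
    have b3 := mul_le_mul_of_nonneg_left (mul_le_mul_of_nonneg_left
      (mul_le_mul_of_nonneg_left b1 (Real.sqrt_nonneg ((1 + D ^ 2) / p : ℝ))) zero_le_two) b2
    have e2 := expect_snoc fun (h : Fin k → Sd p) (s : Sd p) =>
      l2 (P.S (τ + 2 ^ k + 2 ^ k)) (fun z => P.act (k + 1) (Fin.snoc h s) τ ν z -
        P.ideal τ ν (2 ^ k + 2 ^ k) z)
    simp only [Fin.snoc_init_self] at e2
    rw [e2]
    have key : ∀ h : Fin k → Sd p, 𝔼 s : Sd p, l2 (P.S (τ + 2 ^ k + 2 ^ k))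
        (fun z => P.act (k + 1) (Fin.snoc h s) τ ν z - P.ideal τ ν (2 ^ k + 2 ^ k) z) ≤
        2 * (√((1 + D ^ 2) / p) * l2 (P.S τ) ν) +
        (l2 (P.S (τ + 2 ^ k)) (fun z => P.act k h τ ν z - P.ideal τ ν (2 ^ k) z) +
        l2 (P.S (τ + 2 ^ k + 2 ^ k)) (fun z => P.act k h (τ + 2 ^ k) (P.ideal τ ν (2 ^ k)) z -
          P.ideal (τ + 2 ^ k) (P.ideal τ ν (2 ^ k)) (2 ^ k) z)) := by
      intro h
      refine le_trans ?_ (add_le_add (hP.hash_err hR k h hτ ν (P.S (τ + 2 ^ k + 2 ^ k))) le_rfl)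
      rw [← Fintype.expect_const (ι := Sd p) (l2 (P.S (τ + 2 ^ k)) _ + _), ← expect_add_distrib]
      refine expect_le_expect fun s _ => ?_
      refine le_trans ?_ (add_le_add le_rfl (add_le_add
        (hP.act_l2_le hR k h hτ _ (P.S (τ + 2 ^ k + 2 ^ k))) le_rfl))
      refine le_trans ?_ (add_le_add le_rfl l2_add_le)
      refine le_trans (le_of_eq (l2_congr fun z _ => ?_)) l2_add_le
      rw [act_sub, ideal_add]
      ring
    refine (expect_le_expect fun h _ => key h).trans ?_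
    rw [expect_add_distrib, expect_add_distrib, Fintype.expect_const]
    rw [pow_succ (2 : ℝ) k]
    linarith

/-- The generator fools regular programs in the Euclidean norm. -/
theorem WF.reg (hP : P.WF H D) (hR : P.Reg H) {k τ : ℕ} (hτ : τ + 2 ^ k ≤ H) (ν : X → ℝ) :
    𝔼 h : Fin k → Sd p, √(∑ z ∈ P.S (τ + 2 ^ k), (P.act k h τ ν z - P.ideal τ ν (2 ^ k) z) ^ 2) ≤
      2 ^ (k + 1) * √((1 + D ^ 2) / p) * √(∑ x ∈ P.S τ, ν x ^ 2) := by
  refine (hP.reg_aux hR k τ hτ ν).trans ?_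
  have : 0 ≤ √((1 + D ^ 2) / p : ℝ) * l2 (P.S τ) ν := mul_nonneg (Real.sqrt_nonneg _) l2_nonneg
  change _ ≤ 2 ^ (k + 1) * √((1 + D ^ 2) / p) * l2 (P.S τ) ν
  rw [pow_succ (2 : ℝ) k]
  nlinarith

/-- The average over all seeds is close to the ideal operator. -/
theorem WF.reg_mean (hP : P.WF H D) (hR : P.Reg H) {k τ : ℕ} (hτ : τ + 2 ^ k ≤ H) (ν : X → ℝ) :
    √(∑ z ∈ P.S (τ + 2 ^ k),
        ((𝔼 h : Fin k → Sd p, P.act k h τ ν z) - P.ideal τ ν (2 ^ k) z) ^ 2) ≤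
      2 ^ (k + 1) * √((1 + D ^ 2) / p) * √(∑ x ∈ P.S τ, ν x ^ 2) := by
  refine le_trans ?_ (hP.reg hR hτ ν)
  refine le_trans (le_of_eq (l2_congr fun z _ => ?_)) (l2_expect_le (T := P.S (τ + 2 ^ k))
    fun (h : Fin k → Sd p) z => P.act k h τ ν z - P.ideal τ ν (2 ^ k) z)
  rw [expect_sub_distrib, Fintype.expect_const]

end Prog

end Vale.Agent.P313.F43
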