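import Vale.Agent.P313.F43.WalkEst
import Vale.Agent.P313.F43.CanFacts

/-! The averaged regular walk gives an approximate inverse of `1 - C`. -/

namespace Vale.Agent.P313.F43

open Finset Matrix

theorem Wk.cnt_le (W : Wk) (h : ℕ → ℕ → ℕ) (t u v : ℕ) : W.cnt h t u v ≤ W.n u * W.p := by
  rw [Wk.cnt]
  refine (sum_le_card_nsmul _ _ W.p fun x _ => ?_).trans (by simp)
  refine (sum_le_card_nsmul _ _ 1 fun i _ => ?_).trans (by simp)
  split_ifs <;> omega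

theorem one_sub_pow_le {x : ℝ} (h0 : 0 ≤ x) (h1 : x ≤ 1) (n : ℕ) :
    (1 - x) ^ n * (1 + n * x) ≤ 1 := by
  have h2 : 1 + n * x ≤ (1 + x) ^ n := one_add_mul_le_pow (by linarith) n
  refine (mul_le_mul_of_nonneg_left h2 (pow_nonneg (by linarith) n)).trans ?_
  rw [← mul_pow]
  exact pow_le_one₀ (by nlinarith) (by nlinarith)

namespace Par

variable {P : Par} {q g d : ℕ}

theorem grn_le (C : ℕ → ℕ → ℕ) (nh : ℕ → ℕ) (h : ℕ → ℕ → ℕ) {v : ℕ} (_hv : v < P.N) (u : ℕ) :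
    P.grn C nh h u v ≤ P.M * (nh u * P.p) := by
  rw [grn]
  refine (sum_le_card_nsmul _ _ (nh u * P.p) fun t _ => ?_).trans (by simp)
  exact (P.wk2 C nh).cnt_le h t u v

namespace GrP

theorem g_le (hP : P.WF q g d) : 2 * g + 10 ≤ q := by
  have h := hP.N_le
  have h2 := hP.two_le
  refine (Nat.pow_le_pow_iff_right (a := 2) (by omega)).1 (le_trans ?_ h)
  exact Nat.le_mul_of_pos_left _ (by omega)

theorem M_eq (hP : P.WF q g d) : P.M = 2 ^ (2 * g) := by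
  rw [M, hP.Pg_eq, two_mul, pow_add]

theorem g_le_K (hP : P.WF q g d) : 2 * g ≤ P.K := by
  refine (Nat.pow_le_pow_iff_right (a := 2) (by omega)).1 (le_trans ?_ hP.M_le)
  exact Nat.le_mul_of_pos_right _ (by omega)

theorem N_le (hP : P.WF q g d) : P.N ≤ P.Pq := by
  have := CanP.NM_le hP
  have h1 : 0 < P.M := by rw [M_eq hP]; positivity
  nlinarith

theorem Pq_le (hP : P.WF q g d) : P.Pq * P.Pq * P.Pq ≤ P.Pd := by
  rw [hP.Pq_eq, hP.Pd_eq, ← pow_add, ← pow_add]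
  exact Nat.pow_le_pow_right (by omega) (by have := hP.q_lt; omega)

theorem wk2_wf (hP : P.WF q g d) {C : ℕ → ℕ → ℕ} {nh : ℕ → ℕ}
    (h1 : ∀ v < P.N, P.PQ ∣ nh v ∧ 0 < nh v ∧ nh v ≤ P.Pd)
    (h2 : ∀ u < P.N, ∑ v ∈ range P.N, C u v ≤ P.PQ - P.Pq)
    (h3 : ∀ v < P.N, ∑ u ∈ range P.N, nh u / P.PQ * C u v ≤ nh v) :
    (P.wk2 C nh).WF P.Q d (2 ^ P.K) 0 where
  prime := hP.prime
  odd := by
    have h4 := g_le_K hP
    have h5 := hP.g_ge
    exact lt_of_lt_of_le (show 2 < 2 ^ 2 by norm_num)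
      ((Nat.pow_le_pow_right (by omega) (by omega)).trans hP.p_ge)
  PQ_eq := by rw [hP.Q_eq]; exact CanP.PQ_eq hP
  Pd_eq := hP.Pd_eq
  D_eq := hP.D_eq
  Q_le _ _ := le_rfl
  rot_le _ _ := by
    have := g_le hP
    change P.Q ≤ P.om
    rw [hP.Q_eq, hP.om_eq]
    omega
  dvd v hv := by
    change 2 ^ P.Q ∣ nh v
    rw [hP.Q_eq, ← CanP.PQ_eq hP]
    exact (h1 v hv).1
  pos v hv := (h1 v hv).2.1
  row u hu := (h2 u hu).trans (Nat.sub_le _ _)
  col _ v hv _ := by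
    rw [zero_add, one_mul]
    exact h3 v hv
  H_lt := by
    change _ < P.Pd
    rw [hP.Pd_eq]
    exact Nat.pow_lt_pow_right (by omega) hP.K_lt
  N_le := by
    have h4 := Pq_le hP
    have h5 := CanP.Pq_pos hP
    exact (N_le hP).trans (le_trans (Nat.le_mul_of_pos_left _ (Nat.mul_pos h5 h5)) h4)
  n_le v hv := (h1 v hv).2.2
  Em_lt := by
    change 0 < P.Pd
    rw [hP.Pd_eq]
    positivity

theorem vm_eq (C : ℕ → ℕ → ℕ) (nh : ℕ → ℕ) (a : ℕ → ℝ) (t : ℕ) (v : Fin P.N) :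
    (P.wk2 C nh).vm a t v =
      ((fun u : Fin P.N => a u) ᵥ* ((P.wk2 C nh).rho ^ t • mat P.N C P.PQ ^ t)) v := by
  induction t generalizing v with
  | zero => simp [Wk.vm]
  | succ t ih =>
    have e : (P.wk2 C nh).vm a (t + 1) v = (P.wk2 C nh).rho *
        ∑ u ∈ range P.N, (P.wk2 C nh).vm a t u * C u v / P.PQ := by
      rw [Wk.vm]
      exact if_neg Bool.false_ne_true
    rw [e, sum_range fun u => (P.wk2 C nh).vm a t u * C u v / P.PQ, pow_succ (mat _ _ _),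
      pow_succ', mul_smul, ← smul_mul_assoc, vecMul_smul, ← vecMul_vecMul, Pi.smul_apply,
      smul_eq_mul]
    congr 1
    refine sum_congr rfl fun u _ => ?_
    rw [ih, mul_div_assoc]
    rfl

theorem bd_mat (hP : P.WF q g d) {C : ℕ → ℕ → ℕ} {nh : ℕ → ℕ}
    (h1 : ∀ v < P.N, P.PQ ∣ nh v ∧ 0 < nh v ∧ nh v ≤ P.Pd)
    (h2 : ∀ u < P.N, ∑ v ∈ range P.N, C u v ≤ P.PQ - P.Pq)
    (h3 : ∀ v < P.N, ∑ u ∈ range P.N, nh u / P.PQ * C u v ≤ nh v) :
    Bd (fun v : Fin P.N => (nh v : ℝ)) (mat P.N C P.PQ) √(1 - 1 / P.Pg) := by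
  have hq : (0 : ℝ) < P.Pq := by exact_mod_cast CanP.Pq_pos hP
  have hg : (1 : ℝ) ≤ P.Pg := by exact_mod_cast CanP.Pg_pos hP
  have hQ : (0 : ℝ) < P.PQ := by exact_mod_cast CanP.PQ_pos hP
  refine Bd.of_doubly (fun v => by exact_mod_cast (h1 v v.2).2.1) (fun u v => by
    rw [mat]; positivity) (sub_nonneg.2 (div_le_one_of_le₀ hg (by linarith))) (fun u => ?_)
    fun v => ?_
  · simp only [mat]
    rw [← sum_div, div_le_iff₀ hQ, ← sum_range fun v => (C u v : ℝ)]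
    have h4 : ((∑ v ∈ range P.N, C u v : ℕ) : ℝ) ≤ ((P.PQ - P.Pq : ℕ) : ℝ) :=
      Nat.cast_le.2 (h2 u u.2)
    rw [Nat.cast_sub (show P.Pq ≤ P.PQ from Nat.le_mul_of_pos_right _ (CanP.Pg_pos hP)),
      Nat.cast_sum] at h4
    refine h4.trans (le_of_eq ?_)
    rw [PQ, Nat.cast_mul]
    field_simp
  · have h4 : ((∑ u ∈ range P.N, nh u / P.PQ * C u v : ℕ) : ℝ) ≤ nh v := Nat.cast_le.2 (h3 v v.2)
    rw [Nat.cast_sum, sum_range] at h4
    refine le_trans (le_of_eq (sum_congr rfl fun u _ => ?_)) h4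
    rw [Nat.cast_mul, Nat.cast_div (h1 u u.2).1 hQ.ne', mat]
    ring

theorem bd_step (hP : P.WF q g d) {C : ℕ → ℕ → ℕ} {nh : ℕ → ℕ}
    (h1 : ∀ v < P.N, P.PQ ∣ nh v ∧ 0 < nh v ∧ nh v ≤ P.Pd)
    (h2 : ∀ u < P.N, ∑ v ∈ range P.N, C u v ≤ P.PQ - P.Pq)
    (h3 : ∀ v < P.N, ∑ u ∈ range P.N, nh u / P.PQ * C u v ≤ nh v) {t : ℕ} (ht : t < P.M) :
    Bd (fun v : Fin P.N => (nh v : ℝ))
      ((Matrix.of fun u v : Fin P.N => P.avg fun h =>
        ((P.wk2 C nh).cnt h t u v : ℝ) / (nh u * P.p)) -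
          (P.wk2 C nh).rho ^ t • mat P.N C P.PQ ^ t)
      (2 ^ (P.K + 1) * √((1 + (P.D : ℝ) ^ 2) / P.p)) := by
  intro x
  have : Nonempty (Fin P.p) := ⟨⟨0, hP.prime.pos⟩⟩
  have hw : ∀ v : Fin P.N, (0 : ℝ) < nh v := fun v => by exact_mod_cast (h1 v v.2).2.1
  set a : ℕ → ℝ := fun u => if h : u < P.N then x ⟨u, h⟩ else 0 with ha
  have ex : (fun u : Fin P.N => a u) = x := funext fun u => dif_pos u.2
  have hT : t * (P.om + 1) ≤ P.M * (P.om + 1) := Nat.mul_le_mul_right _ ht.le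
  have key := (wk2_wf hP h1 h2 h3).cnt_regular (t := t) hT
    (hT.trans (by rw [M_eq hP, hP.om_eq]; exact hP.M_le)) a
  have e1 : √(∑ u ∈ range (P.wk2 C nh).N, a u ^ 2 / (P.wk2 C nh).n u) =
      nrm (fun v : Fin P.N => (nh v : ℝ)) x := by
    rw [← ex]
    exact congrArg _ (sum_range fun u => a u ^ 2 / nh u)
  rw [e1] at key
  refine le_trans ?_ key
  refine le_trans (le_of_eq ?_) ((nrm_expect_le hw fun (s : Fin P.K → Fin 6 → Fin P.p) v =>
    (∑ u ∈ range P.N, a u * ((P.wk2 C nh).cnt (hN s) t u v / (nh u * P.p))) -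
      (P.wk2 C nh).vm a t v).trans (le_of_eq ?_))
  · congr 1
    funext v
    rw [expect_apply, expect_sub_distrib, Fintype.expect_const, vm_eq, ex, vecMul_sub,
      Pi.sub_apply, expect_sum_comm, sum_range]
    congr 1
    rw [vecMul, dotProduct]
    refine sum_congr rfl fun u _ => ?_
    rw [← mul_expect, ← ex]
    rfl
  · refine expect_congr rfl fun s _ => congrArg Real.sqrt ?_
    exact (sum_range fun v => ((∑ u ∈ range P.N,
      a u * ((P.wk2 C nh).cnt (hN s) t u v / (nh u * P.p))) - (P.wk2 C nh).vm a t v) ^ 2 /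
        nh v).symm

theorem numeric {y G M om D p : ℝ} (hy : 2 ≤ y) (hG0 : 0 < G) (hG : G ≤ y) (hM0 : 0 ≤ M)
    (hom : 0 ≤ om) (hM : M * (om + 1) ≤ y) (hD0 : 0 ≤ D) (hD : D ≤ y) (hp : y ^ 16 ≤ p) :
    2 * (M * (M * om / p)) + 2 * (M * (y * 2 * √((1 + D ^ 2) / p))) ≤ 1 / G := by
  have hy0 : 0 < y := by linarith
  have hp0 : 0 < p := lt_of_lt_of_le (by positivity) hp
  have h1 : M ≤ y := by nlinarith
  have h2 : M * om ≤ y := by nlinarith
  have h3 : √((1 + D ^ 2) / p) ≤ 2 / y ^ 7 := by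
    refine Real.sqrt_le_iff.2 ⟨by positivity, ?_⟩
    rw [div_pow, div_le_div_iff₀ hp0 (by positivity)]
    have : 1 + D ^ 2 ≤ 4 * y ^ 2 := by nlinarith
    calc (1 + D ^ 2) * (y ^ 7) ^ 2 ≤ 4 * y ^ 2 * (y ^ 7) ^ 2 := by gcongr
      _ = 2 ^ 2 * y ^ 16 := by ring
      _ ≤ 2 ^ 2 * p := by gcongr
  have h4 : M * (M * om / p) ≤ 1 / y ^ 5 := by
    calc M * (M * om / p) ≤ y * (y / y ^ 16) := by gcongr
      _ = 1 / y ^ 14 := by field_simp
      _ ≤ 1 / y ^ 5 := by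
        gcongr
        · linarith
        · norm_num
  have h5 : M * (y * 2 * √((1 + D ^ 2) / p)) ≤ 4 / y ^ 5 := by
    calc M * (y * 2 * √((1 + D ^ 2) / p)) ≤ y * (y * 2 * (2 / y ^ 7)) := by gcongr
      _ = 4 / y ^ 5 := by field_simp; norm_num
  have h6 : 10 / y ^ 5 ≤ 1 / G := by
    rw [div_le_div_iff₀ (by positivity) hG0]
    have : 2 ^ 4 ≤ y ^ 4 := by gcongr
    calc 10 * G ≤ y ^ 4 * y := by gcongr; linarith
      _ = 1 * y ^ 5 := by ring
  calc _ ≤ 2 * (1 / y ^ 5) + 2 * (4 / y ^ 5) := by gcongr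
    _ = 10 / y ^ 5 := by ring
    _ ≤ _ := h6

end GrP

theorem WF.grV_bd (hP : P.WF q g d) {C : ℕ → ℕ → ℕ} {nh : ℕ → ℕ}
    (h1 : ∀ v < P.N, P.PQ ∣ nh v ∧ 0 < nh v ∧ nh v ≤ P.Pd)
    (h2 : ∀ u < P.N, ∑ v ∈ range P.N, C u v ≤ P.PQ - P.Pq)
    (h3 : ∀ v < P.N, ∑ u ∈ range P.N, nh u / P.PQ * C u v ≤ nh v) :
    Bd (fun v : Fin P.N => (nh v : ℝ)) (1 - (1 - mat P.N C P.PQ) * P.grV C nh) (3 / P.Pg) := by
  have hw : ∀ v : Fin P.N, (0 : ℝ) < nh v := fun v => by exact_mod_cast (h1 v v.2).2.1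
  have hg : (1 : ℝ) ≤ P.Pg := by exact_mod_cast CanP.Pg_pos hP
  have hp : (1 : ℝ) ≤ P.p := by exact_mod_cast hP.prime.pos
  have hC := GrP.bd_mat hP h1 h2 h3
  set Cm := mat P.N C P.PQ
  set ρ := (P.wk2 C nh).rho with hρ
  have hγ : (0 : ℝ) ≤ 1 - 1 / P.Pg := sub_nonneg.2 (div_le_one_of_le₀ hg (by linarith))
  have hC1 : Bd (fun v : Fin P.N => (nh v : ℝ)) Cm 1 :=
    hC.mono (Real.sqrt_le_one.2 (sub_le_self _ (by positivity)))
  have hI : Bd (fun v : Fin P.N => (nh v : ℝ)) (1 - Cm) 2 :=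
    (Bd.one.sub hw hC1).mono (by norm_num)
  have b1 : Bd (fun v : Fin P.N => (nh v : ℝ)) (Cm ^ P.M) (2 / P.Pg) := by
    refine (hC.pow (Real.sqrt_nonneg _) _).mono ?_
    have e : P.M = 2 * 2 ^ (2 * g - 1) := by
      rw [GrP.M_eq hP, ← pow_succ']
      congr 1
      have := hP.g_ge
      omega
    have e' : (P.Pg : ℝ) * P.Pg = 2 * (2 ^ (2 * g - 1) : ℕ) := by exact_mod_cast e
    rw [e, pow_mul, Real.sq_sqrt hγ, le_div_iff₀ (by linarith)]
    have h4 := one_sub_pow_le (x := 1 / P.Pg) (by positivity) (by linarith) (2 ^ (2 * g - 1))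
    have h5 : ((2 ^ (2 * g - 1) : ℕ) : ℝ) * (1 / P.Pg) = P.Pg / 2 := by
      field_simp
      linarith
    rw [h5] at h4
    nlinarith [pow_nonneg hγ (2 ^ (2 * g - 1))]
  have b2 : Bd (fun v : Fin P.N => (nh v : ℝ)) (∑ t ∈ range P.M, (1 - ρ ^ t) • Cm ^ t)
      (P.M * (P.M * P.om / P.p)) := by
    refine (Bd.sum hw _ (c := fun _ => P.M * P.om / P.p) fun t ht => ?_).mono (by simp)
    refine ((hC1.pow zero_le_one t).smul _).mono ?_
    have e : ρ ^ t = (1 - 1 / P.p) ^ (P.om * t) := by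
      rw [pow_mul]
      congr 1
      change (((P.p : ℝ) - 1) / P.p) ^ P.om = _
      congr 1
      field_simp
    have h0 : (0 : ℝ) ≤ 1 / P.p := by positivity
    have h4 : (1 : ℝ) / P.p ≤ 1 := div_le_one_of_le₀ hp (by linarith)
    have h5 := one_add_mul_le_pow (a := -(1 / P.p : ℝ)) (by linarith) (P.om * t)
    rw [← sub_eq_add_neg] at h5
    have h6 : (1 - 1 / P.p : ℝ) ^ (P.om * t) ≤ 1 := pow_le_one₀ (by linarith) (by linarith)
    rw [e, one_pow, mul_one, abs_of_nonneg (by linarith)]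
    have h7 : ((P.om * t : ℕ) : ℝ) ≤ P.M * P.om := by
      rw [mul_comm]
      exact_mod_cast Nat.mul_le_mul_right _ (mem_range.1 ht).le
    have h8 := mul_le_mul_of_nonneg_right h7 h0
    rw [mul_one_div (P.M * P.om : ℝ)] at h8
    linarith
  have b3 := (Bd.sum hw (range P.M) fun t ht => GrP.bd_step hP h1 h2 h3 (mem_range.1 ht))
  rw [sum_sub_distrib, sum_const, card_range, nsmul_eq_mul] at b3
  have e1 : (∑ t ∈ range P.M, Matrix.of fun u v : Fin P.N => P.avg fun h =>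
      ((P.wk2 C nh).cnt h t u v : ℝ) / (nh u * P.p)) = P.grV C nh := by
    ext u v
    simp only [Matrix.sum_apply, of_apply, grV, avg, grn, Nat.cast_sum, sum_div]
    rw [expect_sum_comm]
  rw [e1] at b3
  have e2 : 1 - (1 - Cm) * P.grV C nh =
      Cm ^ P.M + ((∑ t ∈ range P.M, (1 - ρ ^ t) • Cm ^ t) * (1 - Cm) -
        (1 - Cm) * (P.grV C nh - ∑ t ∈ range P.M, ρ ^ t • Cm ^ t)) := by
    have c1 : (∑ t ∈ range P.M, ρ ^ t • Cm ^ t) * (1 - Cm) =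
        (1 - Cm) * ∑ t ∈ range P.M, ρ ^ t • Cm ^ t := by
      rw [sum_mul, mul_sum]
      refine sum_congr rfl fun t _ => ?_
      rw [smul_mul_assoc, mul_smul_comm, mul_sub, sub_mul, mul_one, one_mul, pow_mul_comm']
    simp only [sub_smul, one_smul]
    rw [sum_sub_distrib, sub_mul (∑ t ∈ range P.M, Cm ^ t), geom_sum_mul_neg, c1,
      mul_sub (1 - Cm)]
    abel
  rw [e2]
  refine (b1.add hw ((b2.mul hI zero_le_two).sub hw (hI.mul b3 (by positivity)))).mono ?_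
  have hK : (2 : ℝ) ≤ 2 ^ P.K := by
    have h4 := GrP.g_le_K hP
    have h5 := hP.g_ge
    exact le_self_pow₀ one_le_two (by omega)
  have key := GrP.numeric (y := 2 ^ P.K) (G := P.Pg) (M := P.M) (om := P.om) (D := P.D) (p := P.p)
    hK (by linarith)
    (by
      rw [hP.Pg_eq]
      have h4 := GrP.g_le_K hP
      exact_mod_cast Nat.pow_le_pow_right (by omega) (by omega))
    (by positivity) (by positivity)
    (by
      rw [GrP.M_eq hP, hP.om_eq]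
      exact_mod_cast hP.M_le)
    (by positivity)
    (by
      rw [hP.D_eq]
      exact_mod_cast hP.D_le)
    (by
      rw [← pow_mul, mul_comm]
      exact_mod_cast hP.p_ge)
  rw [pow_succ (2 : ℝ) P.K]
  have e3 : (3 : ℝ) / P.Pg = 2 / P.Pg + 1 / P.Pg := by ring
  linarith

end Par

end Vale.Agent.P313.F43
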