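import Vale.Agent.P313.F43.IterStack

/-!
A small-step interpreter for counter programs on binary words. A frame is one number; its digits
are the program counter, the position of the input head and the registers.
-/

namespace Vale.Agent.P313.F43

open Function Finset Vale.Agent.Lib.Space

/-- The digit number `i` in base `R`. -/
def dig (R x i : ℕ) : ℕ := x / R ^ i % R

/-- Replace the digit number `i`. -/
def setd (R x i v : ℕ) : ℕ := x - dig R x i * R ^ i + v * R ^ i

/-- The number with the digits `u 0, …, u (M - 1)`. -/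
def code (R M : ℕ) (u : ℕ → ℕ) : ℕ := ∑ i ∈ range M, u i * R ^ i

theorem code_succ (R M : ℕ) (u : ℕ → ℕ) :
    code R (M + 1) u = u 0 + R * code R M fun i => u (i + 1) := by
  simp only [code, sum_range_succ', mul_sum, pow_zero, mul_one]
  rw [add_comm]
  congr 1
  exact sum_congr rfl fun i _ => by ring

theorem code_lt {R : ℕ} (M : ℕ) : ∀ {u : ℕ → ℕ}, (∀ i, u i < R) → code R M u < R ^ M := by
  induction M with
  | zero => intro u _; simp [code]
  | succ M ih =>
    intro u hu
    have h1 := ih (u := fun i => u (i + 1)) fun i => hu _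
    have h2 := hu 0
    rw [code_succ, pow_succ]
    nlinarith

theorem dig_code {R : ℕ} (i : ℕ) : ∀ {M : ℕ} {u : ℕ → ℕ}, (∀ i, u i < R) → i < M →
    dig R (code R M u) i = u i := by
  induction i with
  | zero =>
    intro M u hu hM
    obtain ⟨M, rfl⟩ : ∃ M', M = M' + 1 := ⟨M - 1, by omega⟩
    rw [code_succ, dig, pow_zero, Nat.div_one, Nat.add_mul_mod_self_left, Nat.mod_eq_of_lt (hu 0)]
  | succ i ih =>
    intro M u hu hM
    obtain ⟨M, rfl⟩ : ∃ M', M = M' + 1 := ⟨M - 1, by omega⟩
    have hR : 0 < R := by have := hu 0; omega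
    have := ih (M := M) (u := fun i => u (i + 1)) (fun i => hu _) (by omega)
    rw [code_succ, dig, pow_succ', ← Nat.div_div_eq_div_mul, Nat.add_mul_div_left _ _ hR,
      Nat.div_eq_of_lt (hu 0), zero_add]
    exact this

theorem setd_code {R M i : ℕ} {u : ℕ → ℕ} (hu : ∀ i, u i < R) (hi : i < M) (v : ℕ) :
    setd R (code R M u) i v = code R M (update u i v) := by
  have h1 : ∀ w : ℕ → ℕ, code R M w = w i * R ^ i + ∑ j ∈ (range M).erase i, w j * R ^ j :=
    fun w => (add_sum_erase (range M) (fun j => w j * R ^ j) (mem_range.2 hi)).symm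
  rw [setd, dig_code i hu hi, h1 u, h1 (update u i v), update_self]
  have h2 : ∑ j ∈ (range M).erase i, update u i v j * R ^ j =
      ∑ j ∈ (range M).erase i, u j * R ^ j :=
    sum_congr rfl fun j hj => by rw [update_of_ne (ne_of_mem_erase hj)]
  rw [h2]
  omega

/-- The number of program counters. -/
def size : CProg Bool → ℕ
  | .seq p q => size p + size q
  | .ifz _ p q => 1 + size p + size q
  | .ifin _ p q => 1 + size p + size q
  | .loop _ p => 1 + size p
  | _ => 1

/-- A bound for the registers which occur. -/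
def regs : CProg Bool → ℕ
  | .inc i => i + 1
  | .dec i => i + 1
  | .seq p q => regs p + regs q
  | .ifz i p q => i + 1 + regs p + regs q
  | .ifin _ p q => regs p + regs q
  | .loop i p => i + 1 + regs p
  | _ => 0

theorem size_pos (p : CProg Bool) : 0 < size p := by
  induction p with
  | seq p q ih _ => simp only [size]; omega
  | ifz i p q _ _ => simp only [size]; omega
  | ifin t p q _ _ => simp only [size]; omega
  | loop i p _ => simp only [size]; omega
  | _ => simp [size]

/-- The symbol at the position `h` of the input tape if the word has the length `n` and the letter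
is given by the number `v`. -/
def symOf (n h v : ℕ) : InSym Bool :=
  if h = 0 then .first else if h ≤ n then .letter (decide (v = 1)) else .last

/-- One step from the frame `x`; the program occupies the counters from `b` on and continues
with the counter `e`. -/
def stp (R n v x : ℕ) : CProg Bool → ℕ → ℕ → ℕ
  | .skip, _, e => setd R x 0 e
  | .inc i, _, e => setd R (setd R x 0 e) (i + 2) (dig R x (i + 2) + 1)
  | .dec i, _, e => setd R (setd R x 0 e) (i + 2) (dig R x (i + 2) - 1)
  | .left, _, e => setd R (setd R x 0 e) 1 (dig R x 1 - 1)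
  | .right, _, e => setd R (setd R x 0 e) 1 (min (dig R x 1 + 1) (n + 1))
  | .seq p q, b, e =>
    if dig R x 0 < b + size p then stp R n v x p b (b + size p) else stp R n v x q (b + size p) e
  | .ifz i p q, b, e =>
    if dig R x 0 = b then setd R x 0 (if dig R x (i + 2) = 0 then b + 1 else b + 1 + size p)
    else if dig R x 0 < b + 1 + size p then stp R n v x p (b + 1) e
    else stp R n v x q (b + 1 + size p) e
  | .ifin t p q, b, e =>
    if dig R x 0 = b then
      setd R x 0 (if t (symOf n (dig R x 1) v) = true then b + 1 else b + 1 + size p)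
    else if dig R x 0 < b + 1 + size p then stp R n v x p (b + 1) e
    else stp R n v x q (b + 1 + size p) e
  | .loop i p, b, e =>
    if dig R x 0 = b then setd R x 0 (if dig R x (i + 2) = 0 then e else b + 1)
    else stp R n v x p (b + 1) b

section sp

variable {A : Type} {α : Type} [Enc A α] {B : Bud A}

theorem sp_dig {R x : α → ℕ} (hR : SP B R) (hx : SP B x) (i : ℕ) :
    SP B fun a => dig (R a) (x a) i := (hx.div (hR.pow_const i)).mod hR

theorem sp_setd {R x v : α → ℕ} (hR : SP B R) (hx : SP B x) (i : ℕ) (hv : SP B v) :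
    SP B fun a => setd (R a) (x a) i (v a) :=
  (hx.sub ((sp_dig hR hx i).mul (hR.pow_const i))).add (hv.mul (hR.pow_const i))

theorem sp_symOf (t : InSym Bool → Bool) {n h v : α → ℕ} (hn : SP B n) (hh : SP B h)
    (hv : SP B v) : SP B fun a => t (symOf (n a) (h a) (v a)) := by
  refine (SP.ite (hh.decide_eq (SP.const 0)) (SP.const (t .first))
    (SP.ite (hh.decide_le hn) (SP.ite (hv.decide_eq (SP.const 1)) (SP.const (t (.letter true)))
      (SP.const (t (.letter false)))) (SP.const (t .last)))).congr fun a => ?_
  unfold symOf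
  split_ifs with h1 h2 h3
  · rfl
  · simp [h3]
  · simp [h3]
  · rfl

theorem sp_stp {R n v x : α → ℕ} (hR : SP B R) (hn : SP B n) (hv : SP B v) (hx : SP B x)
    (p : CProg Bool) : ∀ b e : ℕ, SP B fun a => stp (R a) (n a) (v a) (x a) p b e := by
  have h0 := sp_dig hR hx
  induction p with
  | skip => intro b e; exact sp_setd hR hx 0 (SP.const e)
  | inc i => intro b e; exact sp_setd hR (sp_setd hR hx 0 (SP.const e)) _ ((h0 _).add (SP.const 1))
  | dec i => intro b e; exact sp_setd hR (sp_setd hR hx 0 (SP.const e)) _ ((h0 _).sub (SP.const 1))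
  | left => intro b e; exact sp_setd hR (sp_setd hR hx 0 (SP.const e)) _ ((h0 _).sub (SP.const 1))
  | right =>
    intro b e
    exact sp_setd hR (sp_setd hR hx 0 (SP.const e)) _
      (((h0 _).add (SP.const 1)).min (hn.add (SP.const 1)))
  | seq p q ihp ihq =>
    intro b e
    exact SP.ite ((h0 0).decide_lt (SP.const _)) (ihp _ _) (ihq _ _)
  | ifz i p q ihp ihq =>
    intro b e
    exact SP.ite ((h0 0).decide_eq (SP.const _))
      (sp_setd hR hx 0 (SP.ite ((h0 _).decide_eq (SP.const 0)) (SP.const _) (SP.const _)))
      (SP.ite ((h0 0).decide_lt (SP.const _)) (ihp _ _) (ihq _ _))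
  | ifin t p q ihp ihq =>
    intro b e
    exact SP.ite ((h0 0).decide_eq (SP.const _))
      (sp_setd hR hx 0 (SP.ite (sp_symOf t hn (h0 1) hv).decide_true (SP.const _) (SP.const _)))
      (SP.ite ((h0 0).decide_lt (SP.const _)) (ihp _ _) (ihq _ _))
  | loop i p ih =>
    intro b e
    exact SP.ite ((h0 0).decide_eq (SP.const _))
      (sp_setd hR hx 0 (SP.ite ((h0 _).decide_eq (SP.const 0)) (SP.const _) (SP.const _)))
      (ih _ _)

end sp

theorem eval_head {A : Type} {x : List A} {Bd : ℕ} {p : CProg A} {c c' : ℕ × (ℕ → ℕ)}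
    (H : CEval x Bd p c c') (h : c.1 ≤ x.length + 1) : c'.1 ≤ x.length + 1 := by
  induction H with
  | skip c => exact h
  | inc i h' s hs => exact h
  | dec i h' s => exact h
  | left h' s => simp only at h ⊢; omega
  | right h' s => exact min_le_right _ _
  | seq _ _ ih ih' => exact ih' (ih h)
  | ifz_zero _ _ ih => exact ih h
  | ifz_pos _ _ ih => exact ih h
  | ifin_true _ _ ih => exact ih h
  | ifin_false _ _ ih => exact ih h
  | loop_zero _ => exact h
  | loop_pos _ _ _ ih ih' => exact ih' (ih h)

/-- The frame with the counter `b` and the configuration `c`. -/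
def frame (R M b : ℕ) (c : ℕ × (ℕ → ℕ)) : ℕ := code R (M + 2) (cons b (cons c.1 c.2))

section frame

variable {R M b : ℕ} {c : ℕ × (ℕ → ℕ)}

theorem cons_lt_of (hb : b < R) (h1 : c.1 < R) (h2 : ∀ i, c.2 i < R) :
    ∀ i, cons b (cons c.1 c.2) i < R
  | 0 => hb
  | 1 => h1
  | i + 2 => h2 i

theorem frame_lt (hb : b < R) (h1 : c.1 < R) (h2 : ∀ i, c.2 i < R) : frame R M b c < R ^ (M + 2) :=
  code_lt _ (cons_lt_of hb h1 h2)

theorem dig_frame0 (hb : b < R) (h1 : c.1 < R) (h2 : ∀ i, c.2 i < R) :
    dig R (frame R M b c) 0 = b := dig_code 0 (cons_lt_of hb h1 h2) (by omega)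

theorem dig_frame1 (hb : b < R) (h1 : c.1 < R) (h2 : ∀ i, c.2 i < R) :
    dig R (frame R M b c) 1 = c.1 := dig_code 1 (cons_lt_of hb h1 h2) (by omega)

theorem dig_frame2 (hb : b < R) (h1 : c.1 < R) (h2 : ∀ i, c.2 i < R) {i : ℕ} (hi : i < M) :
    dig R (frame R M b c) (i + 2) = c.2 i := dig_code (i + 2) (cons_lt_of hb h1 h2) (by omega)

theorem setd_frame0 (hb : b < R) (h1 : c.1 < R) (h2 : ∀ i, c.2 i < R) (e : ℕ) :
    setd R (frame R M b c) 0 e = frame R M e c := by
  rw [frame, setd_code (cons_lt_of hb h1 h2) (by omega), frame]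
  congr 1
  funext i
  cases i <;> simp

theorem setd_frame1 (hb : b < R) (h1 : c.1 < R) (h2 : ∀ i, c.2 i < R) (v : ℕ) :
    setd R (frame R M b c) 1 v = frame R M b (v, c.2) := by
  rw [frame, setd_code (cons_lt_of hb h1 h2) (by omega), frame]
  congr 1
  funext i
  rcases i with _ | _ | i <;> simp

theorem setd_frame2 (hb : b < R) (h1 : c.1 < R) (h2 : ∀ i, c.2 i < R) {i : ℕ} (hi : i < M)
    (v : ℕ) : setd R (frame R M b c) (i + 2) v = frame R M b (c.1, update c.2 i v) := by
  rw [frame, setd_code (cons_lt_of hb h1 h2) (by omega), frame]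
  congr 1
  funext j
  rcases j with _ | _ | j
  · simp
  · simp
  · simp only [cons_succ, update_apply]
    by_cases h : j = i
    · simp [h]
    · rw [if_neg (by omega), if_neg h]

end frame

/-- The small-step run which belongs to an evaluation. -/
theorem run_of_eval {x : List Bool} {Bd R M K : ℕ} {G ans : ℕ → ℕ} (hBd : Bd < R) (hK : K < R)
    (hn : x.length + 1 < R)
    (hans : ∀ h ≤ x.length + 1, symOf x.length h (ans (h - 1)) = inAt x h)
    {p : CProg Bool} {c c' : ℕ × (ℕ → ℕ)} (H : CEval x Bd p c c') :
    ∀ b e : ℕ, (∀ y, b ≤ dig R y 0 → dig R y 0 < b + size p →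
        G y = stp R x.length (ans (dig R y 1 - 1)) y p b e) →
      regs p ≤ M → b + size p ≤ K → e ≤ K → c.1 ≤ x.length + 1 → (∀ i, c.2 i < R) →
      Run G (fun y => y < R ^ (M + 2) ∧ dig R y 0 < K ∧ dig R y 1 ≤ x.length + 1)
        (frame R M b c) (frame R M e c') := by
  have good : ∀ (p : CProg Bool) (b : ℕ) (c : ℕ × (ℕ → ℕ)), b + size p ≤ K →
      c.1 ≤ x.length + 1 → (∀ i, c.2 i < R) → frame R M b c < R ^ (M + 2) ∧
        dig R (frame R M b c) 0 < K ∧ dig R (frame R M b c) 1 ≤ x.length + 1 := by
    intro p b c h1 h2 h3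
    have := size_pos p
    rw [dig_frame0 (by omega) (by omega) h3, dig_frame1 (by omega) (by omega) h3]
    exact ⟨frame_lt (by omega) (by omega) h3, by omega, h2⟩
  have first : ∀ (p : CProg Bool) (b e : ℕ) (c : ℕ × (ℕ → ℕ)),
      (∀ y, b ≤ dig R y 0 → dig R y 0 < b + size p →
        G y = stp R x.length (ans (dig R y 1 - 1)) y p b e) → b + size p ≤ K →
      c.1 ≤ x.length + 1 → (∀ i, c.2 i < R) →
      G (frame R M b c) = stp R x.length (ans (c.1 - 1)) (frame R M b c) p b e := by
    intro p b e c hG h1 h2 h3
    have := size_pos p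
    have e0 : dig R (frame R M b c) 0 = b := dig_frame0 (by omega) (by omega) h3
    rw [hG _ (by omega) (by omega), dig_frame1 (by omega) (by omega) h3]
  have keep : ∀ {p : CProg Bool} {c c' : ℕ × (ℕ → ℕ)}, CEval x Bd p c c' → (∀ i, c.2 i < R) →
      ∀ i, c'.2 i < R := by
    intro p c c' H h i
    have := H.le_max i
    have := h i
    omega
  induction H with
  | skip c =>
    intro b e hG _ h1 h2 h3 h4
    refine Run.one (good _ _ _ h1 h3 h4) ?_
    have := size_pos .skip
    rw [first _ _ _ _ hG h1 h3 h4, stp, setd_frame0 (by omega) (by omega) h4]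
  | inc i h s hs =>
    intro b e hG h0 h1 h2 h3 h4
    refine Run.one (good _ _ _ h1 h3 h4) ?_
    have := size_pos (.inc i)
    simp only [regs] at h0
    rw [first _ _ _ _ hG h1 h3 h4, stp, setd_frame0 (by omega) (by omega) h4,
      dig_frame2 (by omega) (by omega) h4 (by omega),
      setd_frame2 (by omega) (by omega) h4 (by omega)]
  | dec i h s =>
    intro b e hG h0 h1 h2 h3 h4
    refine Run.one (good _ _ _ h1 h3 h4) ?_
    have := size_pos (.dec i)
    simp only [regs] at h0
    rw [first _ _ _ _ hG h1 h3 h4, stp, setd_frame0 (by omega) (by omega) h4,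
      dig_frame2 (by omega) (by omega) h4 (by omega),
      setd_frame2 (by omega) (by omega) h4 (by omega)]
  | left h s =>
    intro b e hG _ h1 h2 h3 h4
    refine Run.one (good _ _ _ h1 h3 h4) ?_
    have := size_pos .left
    rw [first _ _ _ _ hG h1 h3 h4, stp, setd_frame0 (by omega) (by omega) h4,
      dig_frame1 (by omega) (by omega) h4, setd_frame1 (by omega) (by omega) h4]
  | right h s =>
    intro b e hG _ h1 h2 h3 h4
    refine Run.one (good _ _ _ h1 h3 h4) ?_
    have := size_pos .right
    rw [first _ _ _ _ hG h1 h3 h4, stp, setd_frame0 (by omega) (by omega) h4,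
      dig_frame1 (by omega) (by omega) h4, setd_frame1 (by omega) (by omega) h4]
  | @seq p q c c' c'' E E' ih ih' =>
    intro b e hG h0 h1 h2 h3 h4
    simp only [regs, size] at h0 h1 hG
    refine (ih b (b + size p) (fun y hy hy' => ?_) (by omega) (by omega) (by omega) h3 h4).trans
      (ih' (b + size p) e (fun y hy hy' => ?_) (by omega) (by omega) h2 (eval_head E h3)
        (keep E h4))
    · rw [hG y hy (by omega), stp, if_pos hy']
    · rw [hG y (by omega) (by omega), stp, if_neg (by omega)]
  | @ifz_zero i p q c c' hc E ih =>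
    intro b e hG h0 h1 h2 h3 h4
    refine Run.head' (good _ _ _ h1 h3 h4) ?_
      (ih (b + 1) e (fun y hy hy' => ?_) (by simp only [regs] at h0; omega)
        (by simp only [size] at h1; omega) h2 h3 h4)
    · simp only [regs, size] at h0 h1
      rw [first _ _ _ _ hG (by simp only [size]; omega) h3 h4, stp,
        dig_frame0 (by omega) (by omega) h4, if_pos rfl,
        dig_frame2 (by omega) (by omega) h4 (by omega), if_pos hc,
        setd_frame0 (by omega) (by omega) h4]
    · rw [hG y (by omega) (by simp only [size]; omega), stp, if_neg (by omega), if_pos hy']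
  | @ifz_pos i p q c c' hc E ih =>
    intro b e hG h0 h1 h2 h3 h4
    refine Run.head' (good _ _ _ h1 h3 h4) ?_
      (ih (b + 1 + size p) e (fun y hy hy' => ?_) (by simp only [regs] at h0; omega)
        (by simp only [size] at h1; omega) h2 h3 h4)
    · simp only [regs, size] at h0 h1
      rw [first _ _ _ _ hG (by simp only [size]; omega) h3 h4, stp,
        dig_frame0 (by omega) (by omega) h4, if_pos rfl,
        dig_frame2 (by omega) (by omega) h4 (by omega), if_neg hc,
        setd_frame0 (by omega) (by omega) h4]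
    · rw [hG y (by omega) (by simp only [size]; omega), stp, if_neg (by omega),
        if_neg (by omega)]
  | @ifin_true t p q c c' hc E ih =>
    intro b e hG h0 h1 h2 h3 h4
    refine Run.head' (good _ _ _ h1 h3 h4) ?_
      (ih (b + 1) e (fun y hy hy' => ?_) (by simp only [regs] at h0; omega)
        (by simp only [size] at h1; omega) h2 h3 h4)
    · simp only [regs, size] at h0 h1
      rw [first _ _ _ _ hG (by simp only [size]; omega) h3 h4, stp,
        dig_frame0 (by omega) (by omega) h4, if_pos rfl,
        dig_frame1 (by omega) (by omega) h4, hans _ h3, if_pos hc,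
        setd_frame0 (by omega) (by omega) h4]
    · rw [hG y (by omega) (by simp only [size]; omega), stp, if_neg (by omega), if_pos hy']
  | @ifin_false t p q c c' hc E ih =>
    intro b e hG h0 h1 h2 h3 h4
    refine Run.head' (good _ _ _ h1 h3 h4) ?_
      (ih (b + 1 + size p) e (fun y hy hy' => ?_) (by simp only [regs] at h0; omega)
        (by simp only [size] at h1; omega) h2 h3 h4)
    · simp only [regs, size] at h0 h1
      rw [first _ _ _ _ hG (by simp only [size]; omega) h3 h4, stp,
        dig_frame0 (by omega) (by omega) h4, if_pos rfl,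
        dig_frame1 (by omega) (by omega) h4, hans _ h3, if_neg (by simp [hc]),
        setd_frame0 (by omega) (by omega) h4]
    · rw [hG y (by omega) (by simp only [size]; omega), stp, if_neg (by omega),
        if_neg (by omega)]
  | @loop_zero i p c hc =>
    intro b e hG h0 h1 h2 h3 h4
    refine Run.one (good _ _ _ h1 h3 h4) ?_
    simp only [regs, size] at h0 h1
    rw [first _ _ _ _ hG (by simp only [size]; omega) h3 h4, stp,
      dig_frame0 (by omega) (by omega) h4, if_pos rfl,
      dig_frame2 (by omega) (by omega) h4 (by omega), if_pos hc,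
      setd_frame0 (by omega) (by omega) h4]
  | @loop_pos i p c c' c'' hc E E' ih ih' =>
    intro b e hG h0 h1 h2 h3 h4
    refine Run.head' (good _ _ _ h1 h3 h4) ?_
      ((ih (b + 1) b (fun y hy hy' => ?_) (by simp only [regs] at h0; omega)
        (by simp only [size] at h1; omega) (by omega) h3 h4).trans
        (ih' b e hG h0 h1 h2 (eval_head E h3) (keep E h4)))
    · simp only [regs, size] at h0 h1
      rw [first _ _ _ _ hG (by simp only [size]; omega) h3 h4, stp,
        dig_frame0 (by omega) (by omega) h4, if_pos rfl,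
        dig_frame2 (by omega) (by omega) h4 (by omega), if_neg hc,
        setd_frame0 (by omega) (by omega) h4]
    · rw [hG y (by omega) (by simp only [size]; omega), stp, if_neg (by omega)]

end Vale.Agent.P313.F43
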