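import Vale.Agent.Lib.Space.SPNat

/-!
A stack machine which evaluates a tower of oracle machines: the machine of the level `j + 1` asks
its questions to the level `j`.
-/

namespace Vale.Agent.P313.F43

open Function Finset Vale.Agent.Lib.Space

/-- Runs of a step function through good states (the last state need not be good). -/
inductive Run {σ : Type} (step : σ → σ) (good : σ → Prop) : σ → σ → Prop
  | refl (a : σ) : Run step good a a
  | head {a b : σ} : good a → Run step good (step a) b → Run step good a b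

theorem Run.trans {σ : Type} {step : σ → σ} {good : σ → Prop} {a b c : σ}
    (h : Run step good a b) (h' : Run step good b c) : Run step good a c := by
  induction h with
  | refl a => exact h'
  | head hg _ ih => exact .head hg (ih h')

theorem Run.one {σ : Type} {step : σ → σ} {good : σ → Prop} {a b : σ} (hg : good a)
    (h : step a = b) : Run step good a b := .head hg (h ▸ .refl _)

theorem Run.head' {σ : Type} {step : σ → σ} {good : σ → Prop} {a b c : σ} (hg : good a)
    (h : step a = b) (h' : Run step good b c) : Run step good a c := .head hg (h ▸ h')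

theorem Run.mono {σ : Type} {step : σ → σ} {good good' : σ → Prop} {a b : σ}
    (h : Run step good a b) (hg : ∀ s, good s → good' s) : Run step good' a b := by
  induction h with
  | refl a => exact .refl a
  | head h _ ih => exact .head (hg _ h) ih

theorem Run.iter {σ : Type} {step : σ → σ} {good : σ → Prop} {a b : σ} (h : Run step good a b) :
    ∃ n, step^[n] a = b ∧ ∀ k < n, good (step^[k] a) := by
  induction h with
  | refl a => exact ⟨0, rfl, fun k hk => absurd hk (Nat.not_lt_zero k)⟩
  | head hg _ ih =>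
    obtain ⟨n, h1, h2⟩ := ih
    refine ⟨n + 1, h1, fun k hk => ?_⟩
    cases k with
    | zero => exact hg
    | succ k => exact h2 k (by omega)

/-- The states of the stack machine: call or return, level, value, stack. -/
abbrev St : Type := Bool × ℕ × ℕ × ℕ

/-- Continue with the frame `f` of the level `j + 1`. -/
def goOn (F : ℕ) (hlt : ℕ → Bool) (out q : ℕ → ℕ) (j f S : ℕ) : St :=
  if hlt f = true then (true, j + 1, out f, S) else (false, j, q f, S * F + f)

/-- One step of the stack machine. -/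
def stkStep (F : ℕ) (hlt : ℕ → Bool) (out q ini b0 : ℕ → ℕ) (G : ℕ → ℕ → ℕ) (s : St) : St :=
  if s.1 = true then goOn F hlt out q s.2.1 (G (s.2.2.2 % F) s.2.2.1) (s.2.2.2 / F)
  else if s.2.1 = 0 then (true, 0, b0 s.2.2.1, s.2.2.2)
  else goOn F hlt out q (s.2.1 - 1) (ini s.2.2.1) s.2.2.2

/-- The good states of the stack machine. -/
def stkGood (F J V : ℕ) (s : St) : Prop :=
  (s.1 = true → s.2.1 < J) ∧ s.2.1 ≤ J ∧ s.2.2.1 ≤ V ∧ s.2.2.2 < F ^ (J - s.2.1)

theorem stk_run {F J V : ℕ} {hlt : ℕ → Bool} {out q ini b0 : ℕ → ℕ} {G : ℕ → ℕ → ℕ}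
    {β : ℕ → ℕ → ℕ} (h0 : ∀ v, β 0 v = b0 v) (hV : ∀ j v, β j v ≤ V)
    (hrun : ∀ j v, v ≤ V → ∃ f, Run (fun f => G f (β j (q f)))
      (fun f => f < F ∧ hlt f = false ∧ q f ≤ V) (ini v) f ∧ hlt f = true ∧ out f = β (j + 1) v) :
    ∀ j ≤ J, ∀ v ≤ V, ∀ S < F ^ (J - j),
      Run (stkStep F hlt out q ini b0 G) (stkGood F J V) (false, j, v, S) (true, j, β j v, S) := by
  intro j
  induction j with
  | zero =>
    intro hj v hv S hS
    exact Run.one ⟨by simp, hj, hv, hS⟩ (by simp [stkStep, h0])
  | succ j ih =>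
    intro hj v hv S hS
    obtain ⟨f, hf, hh, ho⟩ := hrun j v hv
    have key : ∀ g f, Run (fun f => G f (β j (q f)))
        (fun f => f < F ∧ hlt f = false ∧ q f ≤ V) g f → hlt f = true →
        Run (stkStep F hlt out q ini b0 G) (stkGood F J V) (goOn F hlt out q j g S)
          (true, j + 1, out f, S) := by
      intro g f hr
      induction hr with
      | refl a =>
        intro hh
        simp only [goOn, hh, if_true]
        exact .refl _
      | @head a b hg _ ih' =>
        intro hh
        obtain ⟨h1, h2, h3⟩ := hg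
        have hS' : S * F + a < F ^ (J - j) := by
          have e : J - j = J - (j + 1) + 1 := by omega
          rw [e, pow_succ]
          nlinarith
        have hF : 0 < F := by omega
        simp only [goOn, h2, Bool.false_eq_true, if_false]
        refine (ih (by omega) _ h3 _ hS').trans (Run.head' ⟨fun _ => by simpa using hj,
          by simp only; omega, hV _ _, hS'⟩ ?_ (ih' hh))
        have e1 : (S * F + a) % F = a := by
          rw [Nat.mul_add_mod_of_lt h1]
        have e2 : (S * F + a) / F = S := by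
          rw [add_comm, Nat.add_mul_div_right _ _ hF, Nat.div_eq_of_lt h1, zero_add]
        simp only [stkStep, if_true, e1, e2]
    refine Run.head' ⟨by simp, hj, hv, hS⟩ ?_ (ho ▸ key _ _ hf hh)
    simp [stkStep]

variable {A : Type} {α : Type} [Enc A α] {B : Bud A}

theorem sp_goOn {F : α → ℕ} {hlt : α → ℕ → Bool} {out q : α → ℕ → ℕ} {γ : Type} [Enc A γ]
    {c : γ → α} {j f S : γ → ℕ} (hF : SP B F) (hhlt : SP B fun p : α × ℕ => hlt p.1 p.2)
    (hout : SP B fun p : α × ℕ => out p.1 p.2) (hq : SP B fun p : α × ℕ => q p.1 p.2)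
    (hc : SP B c) (hj : SP B j) (hf : SP B f) (hS : SP B S) :
    SP B fun g => goOn (F (c g)) (hlt (c g)) (out (c g)) (q (c g)) (j g) (f g) (S g) := by
  unfold goOn
  refine SP.ite (hhlt.comp (hc.pair hf)).decide_true
    ((SP.const true).pair ((hj.add (SP.const 1)).pair ((hout.comp (hc.pair hf)).pair hS)))
    ((SP.const false).pair (hj.pair ((hq.comp (hc.pair hf)).pair
      ((hS.mul (hF.comp hc)).add hf))))

/-- The tower of oracle machines. -/
theorem sp_tower {F J V v : α → ℕ} {hlt : α → ℕ → Bool} {out q ini b0 : α → ℕ → ℕ}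
    {G : α → ℕ → ℕ → ℕ} {β : α → ℕ → ℕ → ℕ} (hF : SP B F) (hJ : SP B J) (hv : SP B v)
    (hhlt : SP B fun p : α × ℕ => hlt p.1 p.2) (hout : SP B fun p : α × ℕ => out p.1 p.2)
    (hq : SP B fun p : α × ℕ => q p.1 p.2) (hini : SP B fun p : α × ℕ => ini p.1 p.2)
    (hb0 : SP B fun p : α × ℕ => b0 p.1 p.2) (hG : SP B fun p : α × ℕ × ℕ => G p.1 p.2.1 p.2.2)
    (hVb : PBd B V) (hFb : PBd B fun a => F a ^ J a) (hF1 : ∀ a, 1 ≤ F a) (hvV : ∀ a, v a ≤ V a)
    (h0 : ∀ a v, β a 0 v = b0 a v) (hV : ∀ a j v, β a j v ≤ V a)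
    (hrun : ∀ a j v, v ≤ V a → ∃ f, Run (fun f => G a f (β a j (q a f)))
      (fun f => f < F a ∧ hlt a f = false ∧ q a f ≤ V a) (ini a v) f ∧ hlt a f = true ∧
        out a f = β a (j + 1) v) :
    SP B fun a => β a (J a) (v a) := by
  have hstep : SP B fun p : α × St =>
      stkStep (F p.1) (hlt p.1) (out p.1) (q p.1) (ini p.1) (b0 p.1) (G p.1) p.2 := by
    unfold stkStep
    have h1 : SP B fun p : α × St => p.2.2.1 := SP.snd'.snd.fst
    have h2 : SP B fun p : α × St => p.2.2.2.1 := SP.snd'.snd.snd.fst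
    have h3 : SP B fun p : α × St => p.2.2.2.2 := SP.snd'.snd.snd.snd
    have h4 : SP B fun p : α × St => F p.1 := hF.comp SP.fst'
    refine SP.ite SP.snd'.fst.decide_true
      (sp_goOn hF hhlt hout hq SP.fst' h1 (hG.comp (SP.fst'.pair ((h3.mod h4).pair h2)))
        (h3.div h4))
      (SP.ite (h1.decide_eq (SP.const 0))
        ((SP.const true).pair ((SP.const 0).pair ((hb0.comp (SP.fst'.pair h2)).pair h3)))
        (sp_goOn hF hhlt hout hq SP.fst' (h1.sub (SP.const 1)) (hini.comp (SP.fst'.pair h2)) h3))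
  have H : SP B fun a => ((true, J a, β a (J a) (v a), 0) : St) := by
    refine SP.while' (init := fun a => ((false, J a, v a, 0) : St))
      (step := fun a s => stkStep (F a) (hlt a) (out a) (q a) (ini a) (b0 a) (G a) s)
      (cont := fun a s => !(s.1 && decide (s.2.1 = J a)))
      (bd := fun a => (1 + (J a + (V a + F a ^ J a + 1) ^ 2 + 1) ^ 2 + 1) ^ 2)
      ((SP.const false).pair (hJ.pair (hv.pair (SP.const 0)))) hstep
      (SP.snd'.fst.and (SP.snd'.snd.fst.decide_eq (hJ.comp SP.fst'))).not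
      ((((PBd.const 1).add (((hJ.pbd.add (((hVb.add hFb).add (PBd.const 1)).pow 2)).add
        (PBd.const 1)).pow 2)).add (PBd.const 1)).pow 2) fun x a _ => ?_
    obtain ⟨n, h1, h2⟩ := (stk_run (J := J a) (h0 a) (hV a) (hrun a) (J a) le_rfl (v a) (hvV a) 0
      (by simp)).iter
    have hbd : ∀ s : St, s.2.1 ≤ J a → s.2.2.1 ≤ V a → s.2.2.2 ≤ F a ^ J a →
        Enc.enc A s ≤ (1 + (J a + (V a + F a ^ J a + 1) ^ 2 + 1) ^ 2 + 1) ^ 2 := by
      rintro ⟨s1, s2, s3, s4⟩ e1 e2 e3
      simp only at e1 e2 e3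
      refine (enc_pair_le _ _).trans (Nat.pow_le_pow_left ?_ 2)
      have f1 : Enc.enc A s1 ≤ 1 := Bool.toNat_le _
      have f2 : Enc.enc A (s3, s4) ≤ (V a + F a ^ J a + 1) ^ 2 :=
        (enc_pair_le _ _).trans (Nat.pow_le_pow_left (by simp only [enc_nat]; omega) 2)
      have f3 : Enc.enc A (s2, s3, s4) ≤ (J a + (V a + F a ^ J a + 1) ^ 2 + 1) ^ 2 :=
        (enc_pair_le _ _).trans (Nat.pow_le_pow_left (by simp only [enc_nat]; omega) 2)
      omega
    refine ⟨n, h1.symm, by rw [h1]; simp, fun k hk => ?_, fun k hk => ?_⟩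
    · obtain ⟨g1, -, -, -⟩ := h2 k hk
      generalize (fun s => stkStep (F a) (hlt a) (out a) (q a) (ini a) (b0 a) (G a) s)^[k]
        ((false, J a, v a, 0) : St) = s at g1 ⊢
      rcases s with ⟨_ | _, s2, s3⟩
      · simp
      · have := g1 rfl
        simp only at this
        simp [this.ne]
    · rcases hk.lt_or_eq with hk | rfl
      · obtain ⟨-, g2, g3, g4⟩ := h2 k hk
        exact hbd _ g2 g3 (g4.le.trans (Nat.pow_le_pow_right (hF1 a) (Nat.sub_le _ _)))
      · rw [h1]
        exact hbd _ le_rfl (hV _ _ _) (Nat.zero_le _)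
  exact H.snd.snd.fst

end Vale.Agent.P313.F43
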