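import Vale.Agent.P313.F43.WalkEst

/-! Two passes of the lossy walk: the second pass is accurate. -/

namespace Vale.Agent.P313.F43

open Finset

namespace Wk

variable (W : Wk)

/-- The walk with other forbidden moves. -/
abbrev wk (k : ℕ → ℕ → Bool) : Wk := { W with kill := k }

/-- One ideal move. -/
noncomputable def pre (k1 : ℕ → Bool) (a : ℕ → ℝ) (v : ℕ) : ℝ :=
  if k1 v = true then 0 else W.rho * ∑ u ∈ range W.N, a u * W.B u v / W.PQ

/-- The ideal masses of the walk which is also stopped at overloaded vertices. -/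
noncomputable def an (k1 : ℕ → Bool) (θ : ℝ) : ℕ → ℕ → ℝ
  | 0 => fun u => W.n u
  | t + 1 => fun v => if θ * W.n v < W.pre k1 (an k1 θ t) v then 0 else W.pre k1 (an k1 θ t) v

/-- The masses before the overloaded vertices are removed. -/
noncomputable def preT (k1 : ℕ → Bool) (θ : ℝ) : ℕ → ℕ → ℝ
  | 0 => fun u => W.n u
  | t + 1 => W.pre k1 (W.an k1 θ t)

open Classical in
/-- The overloaded vertices. -/
noncomputable def ovl (k1 : ℕ → Bool) (θ : ℝ) : ℕ → ℕ → Bool
  | 0 => fun _ => false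
  | t + 1 => fun v => decide (θ * W.n v < W.pre k1 (W.an k1 θ t) v)

/-- The overloaded vertices are forbidden before the time `j`. -/
noncomputable def kj (k1 : ℕ → Bool) (θ : ℝ) (j t v : ℕ) : Bool :=
  k1 v || (decide (t < j) && W.ovl k1 θ t v)

/-- The expected number of walks at `v` after `t` moves. -/
noncomputable def ea (K : ℕ) (k : ℕ → ℕ → Bool) (t v : ℕ) : ℝ :=
  Finset.expect univ fun s : Fin K → Fin 6 → Fin W.p =>
    (∑ u ∈ range W.N, ((W.wk k).cnt (hN s) t u v : ℝ)) / W.p

variable {W} {k1 : ℕ → Bool} {θ : ℝ}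

theorem rho_nonneg (hp : 1 ≤ W.p) : 0 ≤ W.rho := by
  have : (1 : ℝ) ≤ W.p := by exact_mod_cast hp
  exact pow_nonneg (div_nonneg (by linarith) (by linarith)) _

theorem rho_le_one (hp : 1 ≤ W.p) : W.rho ≤ 1 := by
  have : (1 : ℝ) ≤ W.p := by exact_mod_cast hp
  exact pow_le_one₀ (div_nonneg (by linarith) (by linarith))
    ((div_le_one (by linarith)).2 (by linarith))

theorem pre_nonneg (hp : 1 ≤ W.p) {a : ℕ → ℝ} (ha : ∀ u, 0 ≤ a u) (v : ℕ) : 0 ≤ W.pre k1 a v := by
  unfold pre
  split_ifs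
  · exact le_rfl
  · exact mul_nonneg (rho_nonneg hp) (sum_nonneg fun u _ => by have := ha u; positivity)

theorem an_nonneg (hp : 1 ≤ W.p) (t v : ℕ) : 0 ≤ W.an k1 θ t v := by
  induction t generalizing v with
  | zero => exact Nat.cast_nonneg _
  | succ t ih =>
    simp only [an]
    split_ifs
    · exact le_rfl
    · exact pre_nonneg hp ih v

theorem preT_nonneg (hp : 1 ≤ W.p) (t v : ℕ) : 0 ≤ W.preT k1 θ t v := by
  cases t with
  | zero => exact Nat.cast_nonneg _
  | succ t => exact pre_nonneg hp (an_nonneg hp t) v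

theorem an_eq (t v : ℕ) :
    W.an k1 θ t v = if W.ovl k1 θ t v = true then 0 else W.preT k1 θ t v := by
  cases t with
  | zero => simp [an, ovl, preT]
  | succ t => simp [an, ovl, preT]

theorem an_le (hθ : 1 ≤ θ) (t v : ℕ) : W.an k1 θ t v ≤ θ * W.n v := by
  have h0 : (0 : ℝ) ≤ W.n v := Nat.cast_nonneg _
  cases t with
  | zero => simp only [an]; nlinarith
  | succ t =>
    simp only [an]
    split_ifs with h
    · positivity
    · exact not_lt.1 h

theorem vm_kj {j t : ℕ} (ht : t < j) :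
    (W.wk (W.kj k1 θ j)).vm (fun u => W.n u) t = W.an k1 θ t := by
  induction t with
  | zero => rfl
  | succ t ih =>
    funext v
    simp only [vm, ih (by omega), an, kj, ovl, ht, decide_true, Bool.true_and, Bool.or_eq_true,
      decide_eq_true_eq]
    by_cases h1 : k1 v = true
    · simp [h1, pre]
    · by_cases h2 : θ * W.n v < W.pre k1 (W.an k1 θ t) v
      · simp [h2]
      · rw [if_neg (by tauto), if_neg h2, pre, if_neg h1]
        rfl

theorem vm_kj_self (j : ℕ) : (W.wk (W.kj k1 θ j)).vm (fun u => W.n u) j = W.preT k1 θ j := by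
  cases j with
  | zero => rfl
  | succ t =>
    funext v
    simp only [vm, vm_kj (Nat.lt_succ_self t), preT, kj, lt_irrefl, decide_false, Bool.false_and,
      Bool.or_false, pre]
    rfl

theorem ovl_spec (hθ : 0 ≤ θ) {t v : ℕ} (h : W.ovl k1 θ t v = true) :
    0 < t ∧ k1 v = false ∧ θ * W.n v < W.preT k1 θ t v := by
  cases t with
  | zero => simp [ovl] at h
  | succ t =>
    simp only [ovl, decide_eq_true_eq] at h
    refine ⟨Nat.succ_pos _, ?_, h⟩
    by_contra h1
    rw [pre, if_pos (by simpa using h1)] at h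
    have : (0 : ℝ) ≤ θ * W.n v := by positivity
    linarith

theorem sum_pre_le (hp : 1 ≤ W.p) (hrow : ∀ u < W.N, W.cdf u W.N ≤ W.PQ) {a : ℕ → ℝ}
    (ha : ∀ u, 0 ≤ a u) : ∑ v ∈ range W.N, W.pre k1 a v ≤ ∑ u ∈ range W.N, a u := by
  have h1 : ∀ v, W.pre k1 a v ≤ ∑ u ∈ range W.N, a u * W.B u v / W.PQ := by
    intro v
    have h2 : 0 ≤ ∑ u ∈ range W.N, a u * W.B u v / W.PQ :=
      sum_nonneg fun u _ => by have := ha u; positivity
    unfold pre
    split_ifs
    · exact h2
    · exact mul_le_of_le_one_left h2 (rho_le_one hp)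
  refine (sum_le_sum fun v _ => h1 v).trans ?_
  rw [sum_comm]
  refine sum_le_sum fun u hu => ?_
  have h3 : ((∑ v ∈ range W.N, W.B u v : ℕ) : ℝ) ≤ W.PQ := by exact_mod_cast hrow u (mem_range.1 hu)
  rw [← sum_div, ← mul_sum, ← Nat.cast_sum, mul_div_assoc]
  exact mul_le_of_le_one_right (ha u) (div_le_one_of_le₀ h3 (Nat.cast_nonneg _))

theorem pre_sub (a b : ℕ → ℝ) (v : ℕ) :
    W.pre k1 a v - W.pre k1 b v = W.pre k1 (fun u => a u - b u) v := by
  unfold pre
  split_ifs
  · simp
  · rw [← mul_sub, ← sum_sub_distrib]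
    congr 1
    exact sum_congr rfl fun u _ => by ring

theorem vm_succ (a : ℕ → ℝ) (t : ℕ) :
    (W.wk fun _ v => k1 v).vm a (t + 1) = W.pre k1 ((W.wk fun _ v => k1 v).vm a t) := rfl

/-- The ideal masses without and with the removal of the overloaded vertices. -/
theorem vm_sub_preT (hp : 1 ≤ W.p) (hrow : ∀ u < W.N, W.cdf u W.N ≤ W.PQ) {c : ℝ} {M : ℕ}
    (hc : ∀ j ≤ M, ∑ v ∈ range W.N, (if W.ovl k1 θ j v = true then W.preT k1 θ j v else 0) ≤ c)
    {t : ℕ} (ht : t ≤ M) :
    (∀ v, W.preT k1 θ t v ≤ (W.wk fun _ v => k1 v).vm (fun u => W.n u) t v) ∧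
      ∑ v ∈ range W.N, ((W.wk fun _ v => k1 v).vm (fun u => W.n u) t v - W.preT k1 θ t v) ≤
        t * c := by
  induction t with
  | zero => exact ⟨fun v => le_rfl, by simp [vm, preT]⟩
  | succ t ih =>
    obtain ⟨ih1, ih2⟩ := ih (by omega)
    have h1 : ∀ u, 0 ≤ (W.wk fun _ v => k1 v).vm (fun u => W.n u) t u - W.an k1 θ t u := by
      intro u
      have := ih1 u
      have := preT_nonneg (k1 := k1) (θ := θ) hp t u
      rw [an_eq]
      split_ifs <;> linarith
    refine ⟨fun v => ?_, ?_⟩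
    · rw [vm_succ, preT, ← sub_nonneg, pre_sub]
      exact pre_nonneg hp h1 v
    · simp only [vm_succ, preT, pre_sub]
      refine (sum_pre_le hp hrow h1).trans ?_
      have h2 : ∑ u ∈ range W.N, ((W.wk fun _ v => k1 v).vm (fun u => W.n u) t u - W.an k1 θ t u) =
          ∑ u ∈ range W.N, ((W.wk fun _ v => k1 v).vm (fun u => W.n u) t u - W.preT k1 θ t u) +
          ∑ v ∈ range W.N, (if W.ovl k1 θ t v = true then W.preT k1 θ t v else 0) := by
        rw [← sum_add_distrib]
        refine sum_congr rfl fun u _ => ?_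
        rw [an_eq]
        split_ifs <;> ring
      rw [h2]
      have := hc t (by omega)
      push_cast
      linarith

variable {K : ℕ}

theorem ea_mono {k k' : ℕ → ℕ → Bool} (hk : ∀ t v, k t v = true → k' t v = true) (t v : ℕ) :
    W.ea K k' t v ≤ W.ea K k t v := by
  refine expect_le_expect fun s _ => div_le_div_of_nonneg_right (sum_le_sum fun u _ => ?_)
    (Nat.cast_nonneg _)
  exact_mod_cast cnt_mono (W := W.wk k) hk (hN s) t u v

theorem ea_nonneg (k : ℕ → ℕ → Bool) (t v : ℕ) : 0 ≤ W.ea K k t v :=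
  expect_nonneg fun s _ => by positivity

theorem sum_ea_kill {k k' : ℕ → ℕ → Bool} {t' t : ℕ} (ht : t' ≤ t) (hT : t * (W.om + 1) ≤ W.T)
    (hk : ∀ t'' v, t'' ≠ t' → k' t'' v = k t'' v) :
    ∑ v ∈ range W.N, W.ea K k t v ≤ ∑ v ∈ range W.N, W.ea K k' t v +
      ∑ v ∈ range W.N, if k' t' v = true ∧ k t' v = false then W.ea K k t' v else 0 := by
  have h1 : ∀ v, (if k' t' v = true ∧ k t' v = false then W.ea K k t' v else 0) =
      Finset.expect univ fun s : Fin K → Fin 6 → Fin W.p => (∑ u ∈ range W.N,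
        ((if k' t' v = true ∧ k t' v = false then (W.wk k).cnt (hN s) t' u v else 0 : ℕ) : ℝ)) /
          W.p := by
    intro v
    split_ifs
    · rfl
    · simp
  rw [sum_congr rfl fun v _ => h1 v]
  simp only [ea]
  rw [← expect_sum_comm, ← expect_sum_comm, ← expect_sum_comm, ← expect_add_distrib]
  refine expect_le_expect fun s _ => ?_
  rw [← sum_div, ← sum_div, ← sum_div, ← add_div]
  refine div_le_div_of_nonneg_right ?_ (Nat.cast_nonneg _)
  rw [sum_comm, sum_comm (s := range W.N) (t := range W.N)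
    (f := fun v u => ((W.wk k').cnt (hN s) t u v : ℝ)), sum_comm (s := range W.N) (t := range W.N)
    (f := fun v u => ((if k' t' v = true ∧ k t' v = false then (W.wk k).cnt (hN s) t' u v else 0 :
      ℕ) : ℝ)), ← sum_add_distrib]
  refine sum_le_sum fun u _ => ?_
  exact_mod_cast sum_cnt_kill (W := W.wk k) ht hT hk (hN s) u

/-- The second pass is accurate. -/
theorem two_pass {Q d Em M : ℕ} (h : W.WF Q d (2 ^ K) Em) (hn : ∀ v < W.N, W.n v = 2 ^ W.rot v)
    (hD : W.D ^ 2 ≤ W.p) (hθ : 1 ≤ θ) (hT : M * (W.om + 1) ≤ W.T) (hH : M * (W.om + 1) ≤ 2 ^ K)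
    (hk : ∀ t v, W.kill t v = true → k1 v = true)
    (h0 : ∀ t, 0 < t → t ≤ M → ∀ v < W.N, k1 v = false → W.ea K W.kill t v ≤ θ * W.n v / 2)
    {ζ : ℝ} (hζ : 2 ^ (K + 1) * (∑ v ∈ range W.N, (W.n v : ℝ)) *
      √((2 ^ K + 1) * ((Em + 1) * θ) * (3 ^ K + (W.D : ℝ) ^ 2) / W.p) ≤ ζ)
    {t : ℕ} (ht : t ≤ M) :
    ∑ v ∈ range W.N, |W.ea K (fun _ v => k1 v) t v -
      (W.wk fun _ v => k1 v).vm (fun u => W.n u) t v| ≤ (3 * t + 1) * ζ := by
  have hp : 1 ≤ W.p := h.prime.one_lt.le
  have : Nonempty (Fin W.p) := ⟨⟨0, hp⟩⟩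
  have hkj : ∀ j t v, W.kill t v = true → W.kj k1 θ j t v = true := fun j t v hv => by
    simp [kj, hk t v hv]
  have A1 : ∀ j ≤ M, ∑ v ∈ range W.N, |W.ea K (W.kj k1 θ j) j v - W.preT k1 θ j v| ≤ ζ := by
    intro j hj
    have hw : (W.wk (W.kj k1 θ j)).WF Q d (2 ^ K) Em :=
      { h with
        col := fun t v hv hkv => h.col t v hv (by
          by_contra h1
          have h2 := hkj j t v (by simpa using h1)
          exact absurd (h2.symm.trans hkv) (by simp)) }
    have h1 := hw.cnt_lossy hn hD hθ (t := j) ((Nat.mul_le_mul_right _ hj).trans hT)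
      ((Nat.mul_le_mul_right _ hj).trans hH) fun t' ht' v _ => by
        rw [vm_kj ht']
        exact an_le hθ t' v
    refine le_trans ?_ (h1.trans hζ)
    rw [expect_sum_comm]
    refine sum_le_sum fun v _ => ?_
    rw [vm_kj_self]
    refine le_trans (le_of_eq ?_) (abs_expect_le _ _)
    rw [expect_sub_distrib, expect_const univ_nonempty]
    rfl
  have A2 : ∀ j ≤ M, ∀ v < W.N, W.ovl k1 θ j v = true →
      W.ea K (W.kj k1 θ j) j v ≤ W.preT k1 θ j v / 2 := by
    intro j hj v hv ho
    obtain ⟨h1, h2, h3⟩ := ovl_spec (by linarith) ho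
    have h4 := h0 j h1 hj v hv h2
    have h5 := ea_mono (W := W) (K := K) (hkj j) j v
    linarith
  have A3 : ∀ j ≤ M,
      ∑ v ∈ range W.N, (if W.ovl k1 θ j v = true then W.preT k1 θ j v else 0) ≤ 2 * ζ := by
    intro j hj
    refine le_trans ?_ (mul_le_mul_of_nonneg_left (A1 j hj) (by norm_num))
    rw [mul_sum]
    refine sum_le_sum fun v hv => ?_
    split_ifs with ho
    · have h1 := A2 j hj v (mem_range.1 hv) ho
      have h2 := neg_abs_le (W.ea K (W.kj k1 θ j) j v - W.preT k1 θ j v)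
      linarith
    · positivity
  have A4 : ∀ j ≤ t, ∑ v ∈ range W.N, W.ea K (fun _ v => k1 v) t v ≤
      ∑ v ∈ range W.N, W.ea K (W.kj k1 θ j) t v + j * ζ := by
    intro j hj
    induction j with
    | zero =>
      have : W.kj k1 θ 0 = fun _ v => k1 v := by
        funext t v
        simp [kj]
      simp [this]
    | succ j ih =>
      have h1 := sum_ea_kill (W := W) (K := K) (k := W.kj k1 θ j) (k' := W.kj k1 θ (j + 1))
        (t' := j) (t := t) (by omega) ((Nat.mul_le_mul_right _ ht).trans hT) fun t'' v h2 => by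
          have : t'' < j + 1 ↔ t'' < j := by omega
          simp [kj, this]
      have h2 : (∑ v ∈ range W.N, if W.kj k1 θ (j + 1) j v = true ∧ W.kj k1 θ j j v = false then
          W.ea K (W.kj k1 θ j) j v else 0) ≤ ζ := by
        have h3 := A3 j (by omega)
        have h4 : (∑ v ∈ range W.N, if W.kj k1 θ (j + 1) j v = true ∧ W.kj k1 θ j j v = false then
            W.ea K (W.kj k1 θ j) j v else 0) ≤
            (∑ v ∈ range W.N, (if W.ovl k1 θ j v = true then W.preT k1 θ j v else 0)) / 2 := by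
          rw [sum_div]
          refine sum_le_sum fun v hv => ?_
          by_cases h5 : W.kj k1 θ (j + 1) j v = true ∧ W.kj k1 θ j j v = false
          · have ho : W.ovl k1 θ j v = true := by
              obtain ⟨h6, h7⟩ := h5
              simp only [kj, lt_irrefl, decide_false, Bool.false_and, Bool.or_false] at h7
              simpa [kj, h7] using h6
            rw [if_pos h5, if_pos ho]
            exact A2 j (by omega) v (mem_range.1 hv) ho
          · rw [if_neg h5]
            have := preT_nonneg (k1 := k1) (θ := θ) hp j v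
            split_ifs <;> positivity
        linarith
      have h3 := ih (by omega)
      push_cast
      linarith
  obtain ⟨B1, B2⟩ := vm_sub_preT hp h.row A3 ht
  have B3 : ∀ v, W.ea K (W.kj k1 θ t) t v ≤ W.ea K (fun _ v => k1 v) t v := fun v =>
    ea_mono (fun t v hv => by simp [kj, hv]) t v
  have B4 : ∑ v ∈ range W.N, |W.ea K (fun _ v => k1 v) t v -
      (W.wk fun _ v => k1 v).vm (fun u => W.n u) t v| ≤
      ∑ v ∈ range W.N, ((W.ea K (fun _ v => k1 v) t v - W.ea K (W.kj k1 θ t) t v) +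
        |W.ea K (W.kj k1 θ t) t v - W.preT k1 θ t v| +
        ((W.wk fun _ v => k1 v).vm (fun u => W.n u) t v - W.preT k1 θ t v)) := by
    refine sum_le_sum fun v _ => ?_
    have h1 := B1 v
    have h2 := B3 v
    have h3 := le_abs_self (W.ea K (W.kj k1 θ t) t v - W.preT k1 θ t v)
    have h4 := neg_abs_le (W.ea K (W.kj k1 θ t) t v - W.preT k1 θ t v)
    rw [abs_le]
    constructor <;> linarith
  rw [sum_add_distrib, sum_add_distrib, sum_sub_distrib] at B4
  have h1 := A4 t le_rfl
  have h2 := A1 t ht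
  linarith

end Wk

end Vale.Agent.P313.F43
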