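import Vale.Agent.P313.F43.ParamsB

/-! The parameters satisfy the conditions of the analysis. -/

namespace Vale.Agent.P313.F43

theorem par_wf {N : ℕ} (hN : 2 ≤ N) : (par N).WF (pq N) (pg N) (pd N) := by
  have h1 : pq N = 3 * pL N + 2 * pg N + 20 := rfl
  have h2 : pd N = 3 * pq N + pK N + 1 := rfl
  have h3 : pK N = 2 * pg N + (Nat.log 2 (2 * pq N + 1) + 1) := rfl
  have hg := PB.pg_ge N
  have hp := Nat.find_spec (Nat.exists_infinite_primes (2 ^ (16 * pK N)))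
  have hM : 2 ^ (2 * pg N) * (2 * pq N + 1) ≤ 2 ^ pK N := by
    rw [h3, pow_add]
    exact Nat.mul_le_mul_left _ (Nat.lt_pow_succ_log_self (by omega) _).le
  refine ⟨hN, rfl, rfl, rfl, rfl, hp.2, rfl, rfl, rfl, rfl, rfl, hg, ?_, hM, ?_,
    show pK N < pd N by omega, by omega, hp.1, ?_, ?_⟩
  · refine (Nat.mul_le_mul_right _ (PB.lt_pL N).le).trans ?_
    rw [← pow_add]
    exact Nat.pow_le_pow_right (by omega) (by omega)
  · refine le_trans ?_ hM
    have a1 : Nat.log 2 (2 * pq N + 1) ≤ 2 * pq N + 1 := Nat.log_le_self _ _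
    have a2 : 2 ^ 4 * (2 * pq N + 1) ≤ 2 ^ (2 * pg N) * (2 * pq N + 1) :=
      Nat.mul_le_mul_right _ (Nat.pow_le_pow_right (by omega) (by omega))
    omega
  · refine le_trans ?_ (Nat.pow_le_pow_left hp.1 (pe N))
    rw [← pow_mul]
    exact Nat.pow_le_pow_right (by omega)
      (Nat.lt_mul_div_succ _ (by have := PB.pK_pos N; omega)).le
  · refine (Nat.lt_mul_div_succ (6 * pd N) (by omega : 0 < pg N - 3)).le.trans ?_
    exact Nat.mul_le_mul_left _ (Nat.lt_pow_succ_log_self (by omega) _)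

theorem pr_ok {N : ℕ} (hN : 2 ≤ N) : pr N * N ^ 2 * 2 ^ 10 ≤ 2 ^ pq N ∧
    N * 2 ^ 10 ≤ 2 ^ ((pg N - 5) * pr N) ∧ pJ N < 2 ^ plam N := by
  have h1 : pq N = 3 * pL N + 2 * pg N + 20 := rfl
  have h2 : pd N = 3 * pq N + pK N + 1 := rfl
  have h3 : plam N = 12 * pd N + 17 * pK N + 20 := rfl
  have h5 : pr N ≤ pL N + 10 + 1 := Nat.succ_le_succ (Nat.div_le_self _ _)
  have h6 : pnl N ≤ 6 * pd N + 1 :=
    Nat.succ_le_succ ((Nat.log_le_self _ _).trans (Nat.div_le_self _ _))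
  have hg := PB.pg_ge N
  have hL := PB.lt_pL N
  refine ⟨?_, ?_, ?_⟩
  · have a1 : pL N < 2 ^ pL N := Nat.lt_two_pow_self
    have a2 : pr N ≤ 2 ^ 4 * 2 ^ pL N := by omega
    refine (Nat.mul_le_mul_right _ (Nat.mul_le_mul a2 (Nat.pow_le_pow_left hL.le 2))).trans ?_
    rw [← pow_mul, ← pow_add, ← pow_add, ← pow_add]
    exact Nat.pow_le_pow_right (by omega) (by omega)
  · refine (Nat.mul_le_mul_right _ hL.le).trans ?_
    rw [← pow_add]
    exact Nat.pow_le_pow_right (by omega) (Nat.lt_mul_div_succ _ (by omega)).le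
  · have a1 : pd N < 2 ^ pd N := Nat.lt_two_pow_self
    have a2 : pr N ≤ 2 ^ pd N := by omega
    have a3 : pnl N + 2 ≤ 2 ^ 3 * 2 ^ pd N := by omega
    refine lt_of_le_of_lt (Nat.mul_le_mul a2 a3) ?_
    rw [← pow_add, ← pow_add]
    exact PB.pow_lt (by omega)

end Vale.Agent.P313.F43
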