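import Vale.Agent.P313.F43.TopDef

/-! Upper bounds for the parameters: the first table fits, the budget is small. -/

namespace Vale.Agent.P313.F43

open Finset

namespace PB

theorem pp_le (N : ℕ) : pp N ≤ 2 ^ (16 * pK N + 1) := by
  obtain ⟨p, hp, h1, h2⟩ := Nat.exists_prime_lt_and_le_two_mul (2 ^ (16 * pK N)) (by positivity)
  rw [pow_succ, mul_comm]
  exact (Nat.find_min' _ ⟨h1.le, hp⟩).trans h2

theorem pp_pos (N : ℕ) : 0 < pp N := (Nat.find_spec (Nat.exists_infinite_primes _)).2.pos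

theorem pg_ge (N : ℕ) : 20 ≤ pg N := Nat.le_add_right _ _

theorem pK_pos (N : ℕ) : 0 < pK N := by
  unfold pK
  omega

theorem lt_pL (N : ℕ) : N < 2 ^ pL N := Nat.lt_pow_succ_log_self (by omega) N

/-- The number of bits of `p ^ e`. -/
theorem pe_le (N : ℕ) : (16 * pK N + 1) * pe N ≤ 11 * pd N + 16 * pK N + 1 := by
  have h0 := pK_pos N
  have h1 : 16 * pK N * (10 * pd N / (16 * pK N)) ≤ 10 * pd N := Nat.mul_div_le _ _
  have h2 : 16 * 1 * (10 * pd N / (16 * pK N)) ≤ 16 * pK N * (10 * pd N / (16 * pK N)) :=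
    Nat.mul_le_mul_right _ (Nat.mul_le_mul_left _ h0)
  unfold pe
  generalize 10 * pd N / (16 * pK N) = a at *
  nlinarith

theorem lt_pow {a b : ℕ} (h : a ≤ b) : a < 2 ^ b := lt_of_le_of_lt h Nat.lt_two_pow_self

theorem pow_lt {a b : ℕ} (h : a < b) : 2 ^ a < 2 ^ b := Nat.pow_lt_pow_right (by omega) h

theorem digs_lt {T b w i : ℕ} (hb : 0 < b) : digs T b w i < b := by
  unfold digs
  split_ifs
  · exact Nat.mod_lt _ hb
  · exact hb

/-- The number of cubes below `L ^ 2`. -/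
theorem cubes (L : ℕ) : L ^ 2 ≤ (∑ j ∈ range (L + 1), if j ^ 3 < L ^ 2 then 1 else 0) ^ 3 ∧
    ∀ a, L ^ 2 ≤ a ^ 3 → (∑ j ∈ range (L + 1), if j ^ 3 < L ^ 2 then 1 else 0) ≤ a := by
  rw [← card_filter]
  constructor
  · by_contra hc
    push Not at hc
    have h1 : range (((range (L + 1)).filter fun j => j ^ 3 < L ^ 2).card + 1) ⊆
        (range (L + 1)).filter fun j => j ^ 3 < L ^ 2 := by
      intro j hj
      have h2 : j ^ 3 < L ^ 2 :=
        lt_of_le_of_lt (Nat.pow_le_pow_left (Nat.lt_succ_iff.1 (mem_range.1 hj)) 3) hc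
      refine mem_filter.2 ⟨mem_range.2 ?_, h2⟩
      by_contra h3
      have h4 : (L + 1) ^ 3 ≤ j ^ 3 := Nat.pow_le_pow_left (by omega) 3
      nlinarith [Nat.zero_le (L ^ 3)]
    have h2 := card_le_card h1
    rw [card_range] at h2
    omega
  · intro a ha
    refine le_trans (card_le_card (t := range a) fun j hj => mem_range.2 ?_) (card_range a).le
    exact lt_of_pow_lt_pow_left₀ 3 (Nat.zero_le _) ((mem_filter.1 hj).2.trans_le ha)

section bounds

variable {N s l : ℕ}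

theorem s_pos (hs : pL N ≤ s ^ 3) : 1 ≤ s := by
  rcases Nat.eq_zero_or_pos s with h | h
  · subst h
    simp [pL] at hs
  · exact h

theorem pg_le (hs : pL N ≤ s ^ 3) : pg N ≤ 21 * s ^ 2 := by
  have h1 := (cubes (pL N)).2 (s ^ 2)
    (le_trans (Nat.pow_le_pow_left hs 2) (le_of_eq (by ring)))
  have h2 : 1 ≤ s ^ 2 := Nat.one_le_pow _ _ (s_pos hs)
  unfold pg
  omega

theorem pr_le (hs : pL N ≤ s ^ 3) : pr N ≤ 2 * s := by
  have h0 := s_pos hs
  have h1 := (cubes (pL N)).1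
  unfold pr pg
  generalize (∑ j ∈ range (pL N + 1), if j ^ 3 < pL N ^ 2 then 1 else 0) = t at *
  have h2 : pL N ≤ s * t := by
    refine le_of_pow_le_pow_left₀ (n := 3) (by omega) (Nat.zero_le _) ?_
    rw [mul_pow, pow_succ' (pL N) 2]
    exact Nat.mul_le_mul hs h1
  have h3 : (pL N + 10) / (20 + t - 5) ≤ s := by
    refine Nat.div_le_of_le_mul ?_
    rw [show 20 + t - 5 = t + 15 by omega]
    nlinarith
  omega

theorem sq_le (hs : pL N ≤ s ^ 3) : 1 ≤ s ^ 2 ∧ s ≤ s ^ 2 ∧ s ^ 2 ≤ s ^ 3 ∧ s ^ 3 ≤ s ^ 4 :=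
  ⟨Nat.one_le_pow _ _ (s_pos hs), Nat.le_self_pow (by omega) s,
    Nat.pow_le_pow_right (s_pos hs) (by omega), Nat.pow_le_pow_right (s_pos hs) (by omega)⟩

theorem pq_le (hs : pL N ≤ s ^ 3) : pq N ≤ 65 * s ^ 3 := by
  have h1 := pg_le hs
  have h2 := sq_le hs
  unfold pq
  omega

theorem pK_le (hs : pL N ≤ s ^ 3) : pK N ≤ 54 * s ^ 2 := by
  have h1 := pg_le hs
  have h2 := sq_le hs
  have h3 := pq_le hs
  have h4 : s ^ 3 ≤ (2 ^ s) ^ 3 := Nat.pow_le_pow_left Nat.lt_two_pow_self.le 3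
  have h5 : Nat.log 2 (2 * pq N + 1) < 8 + s * 3 := by
    refine Nat.log_lt_of_lt_pow (by omega) ?_
    rw [pow_add, pow_mul]
    omega
  unfold pK
  omega

theorem pd_le (hs : pL N ≤ s ^ 3) : pd N ≤ 250 * s ^ 3 := by
  have h1 := pK_le hs
  have h2 := sq_le hs
  have h3 := pq_le hs
  unfold pd
  omega

theorem pnl_le (hs : pL N ≤ s ^ 3) (hl : s < 2 ^ l) : pnl N ≤ 12 + l * 3 := by
  have h1 := pd_le hs
  have h2 := sq_le hs
  have h4 : s ^ 3 ≤ (2 ^ l) ^ 3 := Nat.pow_le_pow_left hl.le 3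
  have h5 : Nat.log 2 (6 * pd N / (pg N - 3)) ≤ 11 + l * 3 := by
    refine le_trans (Nat.log_mono_right (m := 2 ^ (11 + l * 3)) ?_) (Nat.log_pow (by omega) _).le
    refine (Nat.div_le_self _ _).trans ?_
    rw [pow_add, pow_mul]
    omega
  unfold pnl
  omega

theorem bud_le (hs : pL N ≤ s ^ 3) (hl : s < 2 ^ l) : bud N ≤ 3 * 2 ^ (601000 * (s ^ 4 * l)) := by
  have h0 := s_pos hs
  have hl0 : 1 ≤ l := by
    rcases Nat.eq_zero_or_pos l with h | h
    · subst h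
      omega
    · exact h
  have h1 := sq_le hs
  have hK := pK_le hs
  have hd := pd_le hs
  have hq := pq_le hs
  have hr := pr_le hs
  have hn := pnl_le hs hl
  have hE : s ^ 4 ≤ s ^ 4 * l := Nat.le_mul_of_pos_right _ hl0
  have e1 : 2 ^ ((plam N + 1) * (pJ N + 1)) ≤ 2 ^ (601000 * (s ^ 4 * l)) := by
    refine Nat.pow_le_pow_right (by omega) ?_
    have a1 : plam N + 1 ≤ 4000 * s ^ 3 := by
      unfold plam
      omega
    have a2 : pJ N ≤ 2 * s * (17 * l) := Nat.mul_le_mul hr (by omega)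
    have a3 : 1 ≤ s * l := Nat.mul_pos h0 hl0
    have a4 : pJ N + 1 ≤ 35 * (s * l) := by nlinarith
    refine (Nat.mul_le_mul a1 a4).trans ?_
    have a5 : 4000 * s ^ 3 * (35 * (s * l)) = 140000 * (s ^ 4 * l) := by ring
    omega
  have e2 : pp N ^ (par N).T0 ≤ 2 ^ (601000 * (s ^ 4 * l)) := by
    refine (Nat.pow_le_pow_left (pp_le N) _).trans ?_
    rw [← pow_mul]
    refine Nat.pow_le_pow_right (by omega) ?_
    have a1 : (par N).T0 = 12 * pK N + pe N := rfl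
    have a2 := pe_le N
    have a3 : (16 * pK N + 1) * (12 * pK N) ≤ 17 * (54 * s ^ 2) * (12 * (54 * s ^ 2)) :=
      Nat.mul_le_mul (by omega) (by omega)
    have a4 : 17 * (54 * s ^ 2) * (12 * (54 * s ^ 2)) = 594864 * s ^ 4 := by ring
    rw [a1, mul_add]
    omega
  have e3 : pS N ^ (3 * pr N) ≤ 2 ^ (601000 * (s ^ 4 * l)) := by
    rw [pS, ← pow_mul]
    refine Nat.pow_le_pow_right (by omega) ?_
    have a1 : (pq N - 2) * (3 * pr N) ≤ 65 * s ^ 3 * (3 * (2 * s)) :=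
      Nat.mul_le_mul (by omega) (by omega)
    have a2 : 65 * s ^ 3 * (3 * (2 * s)) = 390 * s ^ 4 := by ring
    omega
  unfold bud
  omega

end bounds

theorem log_le {a : ℕ} (ha : a ≠ 0) : (Nat.log 2 a : ℝ) ≤ 2 * Real.log a := by
  have h1 : ((2 : ℝ) ^ Nat.log 2 a) ≤ a := by exact_mod_cast Nat.pow_log_le_self 2 ha
  have h2 := Real.log_le_log (by positivity) h1
  rw [Real.log_pow] at h2
  have h3 := Real.log_two_gt_d9
  have h4 : (0 : ℝ) ≤ Nat.log 2 a := Nat.cast_nonneg _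
  nlinarith

theorem pL_le {n N c : ℕ} (hn : 2 ≤ n) (hy : 1 ≤ Real.log n) (h : N ≤ (n + 2) ^ c) :
    (pL N : ℝ) ≤ (4 * c + 1) * Real.log n := by
  have h1 : N ≤ n ^ (2 * c) := by
    rw [pow_mul]
    exact h.trans (Nat.pow_le_pow_left (by nlinarith) _)
  have h2 : (Nat.log 2 N : ℝ) ≤ Nat.log 2 (n ^ (2 * c)) := by
    exact_mod_cast Nat.log_mono_right h1
  have h3 := log_le (a := n ^ (2 * c)) (by positivity)
  unfold pL
  push_cast at h3 ⊢
  rw [Real.log_pow] at h3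
  push_cast at h3
  linarith

theorem hd_lt (D : Dat) {B : ℕ} (h0 : D.P.N < B) (h1 : D.P.Pq < B) (h2 : D.P.Pg < B)
    (h3 : D.P.Q < B) (h4 : D.P.om < B) (h5 : D.P.p < B) (h6 : D.P.Pd < B) (h7 : D.P.D < B)
    (h8 : D.P.K < B) (h9 : D.P.e < B) (h10 : D.P.Pe < B) (h11 : D.P.Pf < B) (h12 : D.P.nl < B)
    (h13 : D.P.E3 < B) (h14 : D.j < B) (h15 : D.len < B) (i : ℕ) : D.hd i < B := by
  have key : ∀ (c : Prop) [Decidable c] (a b : ℕ), a < B → b < B → (if c then a else b) < B := by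
    intro c _ a b ha hb
    split_ifs
    exacts [ha, hb]
  exact key _ _ _ h0 <| key _ _ _ h1 <| key _ _ _ h2 <| key _ _ _ h3 <| key _ _ _ h4 <|
    key _ _ _ h5 <| key _ _ _ h6 <| key _ _ _ h7 <| key _ _ _ h8 <| key _ _ _ h9 <|
    key _ _ _ h10 <| key _ _ _ h11 <| key _ _ _ h12 <| key _ _ _ h13 <| key _ _ _ h14 <|
    key _ _ _ h15 (by omega)

theorem pL_le_log {s : ℕ} {a z y : ℝ} (hs : 1 ≤ s) (ha : 0 < a) (hz : 0 < z) (h : s ≤ a * z)
    (hzy : Real.log z ≤ y) (hy : 1 ≤ y) : (pL s : ℝ) ≤ (2 * a + 3) * y := by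
  have h1 := log_le (a := s) (by omega)
  have h2 : Real.log s ≤ Real.log (a * z) := Real.log_le_log (by exact_mod_cast hs) h
  rw [Real.log_mul ha.ne' hz.ne'] at h2
  have h3 : Real.log a ≤ a := (Real.log_le_sub_one_of_pos ha).trans (by linarith)
  have h4 : a * 1 ≤ a * y := mul_le_mul_of_nonneg_left hy ha.le
  unfold pL
  push_cast
  linarith

end PB

theorem dat0_fits {N : ℕ} (hN : 2 ≤ N) {A0 : ℕ → ℕ → ℕ} (hA : ∀ u < N, ∀ v < N, A0 u v ≤ 2)
    (w1 w2 : ℕ) : (dat0 N A0 w1 w2).Fits (plam N) := by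
  have h1 : pq N = 3 * pL N + 2 * pg N + 20 := rfl
  have h2 : pd N = 3 * pq N + pK N + 1 := rfl
  have h3 : plam N = 12 * pd N + 17 * pK N + 20 := rfl
  have h4 : pe N ≤ 10 * pd N + 1 := Nat.succ_le_succ (Nat.div_le_self _ _)
  have h5 : pr N ≤ pL N + 10 + 1 := Nat.succ_le_succ (Nat.div_le_self _ _)
  have h6 : pnl N ≤ 6 * pd N + 1 :=
    Nat.succ_le_succ ((Nat.log_le_self _ _).trans (Nat.div_le_self _ _))
  have h7 : (par N).T0 = 12 * pK N + pe N := rfl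
  have hp : pp N < 2 ^ plam N := (PB.pp_le N).trans_lt (PB.pow_lt (by omega))
  have hz : 0 < 2 ^ plam N := by positivity
  have hd : pd N < 2 ^ pd N := Nat.lt_two_pow_self
  have hNd : N ≤ 2 ^ pd N := (PB.lt_pL N).le.trans (Nat.pow_le_pow_right (by omega) (by omega))
  have hlen : 16 + ((par N).T0 + 3 * pr N) ≤ 64 * 2 ^ pd N := by omega
  refine ⟨?_, fun i => ?_, fun i => ⟨(PB.digs_lt (PB.pp_pos N)).trans hp, fun h => ?_⟩,
    fun i => ⟨(PB.digs_lt (by unfold pS; positivity)).trans (PB.pow_lt (by omega)), fun h => ?_⟩,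
    fun u v => ⟨?_, fun h => if_neg h⟩, fun v => ⟨?_, fun h => if_neg h⟩,
    fun u v => ⟨hz, fun _ => rfl⟩, fun u v => ⟨hz, fun _ => rfl⟩⟩
  · change 8 * (16 + ((par N).T0 + 3 * pr N) + N * N) * plam N ≤ 2 ^ plam N
    have a1 : N * N ≤ 2 ^ pd N * 2 ^ pd N := Nat.mul_le_mul hNd hNd
    have a2 : 2 ^ pd N ≤ 2 ^ pd N * 2 ^ pd N := Nat.le_mul_self _
    have a3 : 8 * (16 + ((par N).T0 + 3 * pr N) + N * N) ≤ 2 ^ 10 * (2 ^ pd N * 2 ^ pd N) := by
      omega
    have a4 : plam N ≤ 2 ^ 6 * 2 ^ pd N := by omega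
    refine (Nat.mul_le_mul a3 a4).trans ?_
    rw [← pow_add, ← pow_add, ← pow_add, ← pow_add]
    exact Nat.pow_le_pow_right (by omega) (by omega)
  · have a0 : 64 * 2 ^ pd N < 2 ^ plam N := by
      rw [show (64 : ℕ) = 2 ^ 6 by norm_num, ← pow_add]
      exact PB.pow_lt (by omega)
    have a1 : pp N ^ pe N < 2 ^ plam N := by
      refine lt_of_le_of_lt (Nat.pow_le_pow_left (PB.pp_le N) (pe N)) ?_
      rw [← pow_mul]
      exact PB.pow_lt ((PB.pe_le N).trans_lt (by omega))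
    exact PB.hd_lt (dat0 N A0 w1 w2) ((PB.lt_pL N).trans (PB.pow_lt (by omega)))
      (PB.pow_lt (show pq N < plam N by omega)) (PB.pow_lt (show pg N < plam N by omega))
      (PB.lt_pow (show pq N + pg N ≤ plam N by omega))
      (PB.lt_pow (show 2 * pq N ≤ plam N by omega)) hp (PB.pow_lt (show pd N < plam N by omega))
      (PB.lt_pow (show 4 * pd N ≤ plam N by omega)) (PB.lt_pow (show pK N ≤ plam N by omega))
      (PB.lt_pow (show pe N ≤ plam N by omega)) a1 (PB.pow_lt (show 8 * pd N < plam N by omega))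
      (PB.lt_pow (show pnl N ≤ plam N by omega))
      (PB.pow_lt (show 8 * pd N + pg N - pq N < plam N by omega)) hz
      (lt_of_le_of_lt (show (par N).T0 + 3 * pr N ≤ 64 * 2 ^ pd N by omega) a0) i
  · exact if_neg fun hc => by
      change (par N).T0 + 3 * pr N ≤ i at h
      omega
  · exact if_neg fun hc => by
      change (par N).T0 + 3 * pr N ≤ i at h
      omega
  · change (if u < N ∧ v < N then A0 u v * 2 ^ (pq N - 1) else 0) < 2 ^ plam N
    split_ifs with h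
    · refine lt_of_le_of_lt (Nat.mul_le_mul_right _ (hA u h.1 v h.2)) ?_
      rw [← pow_succ']
      exact PB.pow_lt (by omega)
    · exact hz
  · change (if v < N then 2 ^ pq N * 2 ^ pq N else 0) < 2 ^ plam N
    split_ifs with h
    · rw [← pow_add]
      exact PB.pow_lt (by omega)
    · exact hz

theorem bud_bound (c : ℕ) : ∃ (C : ℝ) (n0 : ℕ), ∀ n N : ℕ, n0 ≤ n → N ≤ (n + 2) ^ c →
    ((Nat.log 2 (bud N + n + 2) : ℕ) : ℝ) ≤
      C * (Real.log n ^ (4 / 3 : ℝ) * Real.log (Real.log n)) := by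
  refine ⟨601002 * ((4 * c + 6) ^ 4 * (8 * c + 15)), 81, fun n N hn hN => ?_⟩
  have hc : (0 : ℝ) ≤ c := Nat.cast_nonneg c
  have he : Real.exp 1 ≤ 3 := by linarith [Real.exp_one_lt_d9]
  have hy3 : 3 ≤ Real.log n := by
    rw [Real.le_log_iff_exp_le (by exact_mod_cast (by omega : 0 < n))]
    have h1 : Real.exp 3 = Real.exp 1 ^ 3 := by
      rw [← Real.exp_nat_mul]
      norm_num
    have h2 : Real.exp 1 ^ 3 ≤ 3 ^ 3 := pow_le_pow_left₀ (Real.exp_pos 1).le he 3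
    have h3 : (81 : ℝ) ≤ n := by exact_mod_cast hn
    linarith
  have hL1 := PB.pL_le (by omega) (by linarith) hN
  have hL2 := PB.pL_le (n := n) (N := n + 2) (c := 1) (by omega) (by linarith) (by simp)
  generalize Real.log n = y at *
  have hy0 : 0 < y := by linarith
  have hl1 : 1 ≤ Real.log y := by
    rw [Real.le_log_iff_exp_le hy0]
    linarith
  obtain ⟨z, hz⟩ : ∃ z, z = y ^ (1 / 3 : ℝ) := ⟨_, rfl⟩
  have hz1 : 1 ≤ z := hz ▸ Real.one_le_rpow (by linarith) (by norm_num)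
  have hz3 : z ^ 3 = y := by
    rw [hz, ← Real.rpow_natCast, ← Real.rpow_mul hy0.le]
    norm_num
  have hz4 : z ^ 4 = y ^ (4 / 3 : ℝ) := by
    rw [hz, ← Real.rpow_natCast, ← Real.rpow_mul hy0.le]
    norm_num
  have hzl : Real.log z ≤ Real.log y := by
    refine Real.log_le_log (by linarith) ?_
    rw [← hz3]
    exact le_self_pow₀ hz1 (by omega)
  obtain ⟨s, hs⟩ : ∃ s, s = ⌈(4 * c + 5) * z⌉₊ := ⟨_, rfl⟩
  have hs1 : (4 * c + 5) * z ≤ s := hs ▸ Nat.le_ceil _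
  have hs2 : (s : ℝ) ≤ (4 * c + 6) * z := by
    have h1 := Nat.ceil_lt_add_one (a := (4 * c + 5) * z) (by positivity)
    rw [← hs] at h1
    linarith
  have hs3 : (4 * c + 5) * y ≤ (s : ℝ) ^ 3 := by
    refine le_trans ?_ (pow_le_pow_left₀ (by positivity) hs1 3)
    rw [mul_pow, hz3]
    exact mul_le_mul_of_nonneg_right (le_self_pow₀ (by linarith) (by omega)) hy0.le
  have hN3 : pL N ≤ s ^ 3 := by
    have h1 : (pL N : ℝ) ≤ (s : ℝ) ^ 3 := by nlinarith
    exact_mod_cast h1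
  have hn3 : pL (n + 2) ≤ s ^ 3 := by
    have h1 : (pL (n + 2) : ℝ) ≤ (s : ℝ) ^ 3 := by
      push_cast at hL2
      nlinarith
    exact_mod_cast h1
  have hs0 := PB.s_pos hN3
  have hb := PB.bud_le hN3 (PB.lt_pL s)
  have hE : 1 ≤ pL s := Nat.le_add_left _ _
  have hsq := PB.sq_le hN3
  have hE2 : s ^ 4 ≤ s ^ 4 * pL s := Nat.le_mul_of_pos_right _ hE
  have hn4 : n + 2 ≤ 2 ^ (601000 * (s ^ 4 * pL s)) :=
    (PB.lt_pL (n + 2)).le.trans (Nat.pow_le_pow_right (by omega) (by omega))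
  have hlog : Nat.log 2 (bud N + n + 2) ≤ 601002 * (s ^ 4 * pL s) := by
    refine le_trans (Nat.log_mono_right (m := 2 ^ (2 + 601000 * (s ^ 4 * pL s))) ?_)
      ((Nat.log_pow (by omega) _).le.trans (by omega))
    rw [pow_add]
    omega
  have hls : (pL s : ℝ) ≤ (8 * c + 15) * Real.log y :=
    (PB.pL_le_log hs0 (by positivity) (by linarith) hs2 hzl hl1).trans (le_of_eq (by ring))
  have hs4 : (s : ℝ) ^ 4 ≤ (4 * c + 6) ^ 4 * y ^ (4 / 3 : ℝ) := by
    rw [← hz4, ← mul_pow]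
    exact pow_le_pow_left₀ (by positivity) hs2 4
  have hfin : ((Nat.log 2 (bud N + n + 2) : ℕ) : ℝ) ≤ 601002 * ((s : ℝ) ^ 4 * pL s) := by
    exact_mod_cast hlog
  refine hfin.trans ?_
  rw [mul_assoc]
  refine mul_le_mul_of_nonneg_left ?_ (by norm_num)
  refine (mul_le_mul hs4 hls (by positivity) (by positivity)).trans (le_of_eq (by ring))

end Vale.Agent.P313.F43
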