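import Vale.Agent.P313.F43.CanPot
import Vale.Agent.P313.F43.Agree

/-! Most of the random strings lead to a correct run. -/

namespace Vale.Agent.P313.F43

open Finset Matrix

namespace Par

variable {P : Par} {q g d : ℕ} {s : (ℕ → ℕ → ℕ) × (ℕ → ℕ)} {dg sh : ℕ → ℕ}

namespace PrP

/-- The canonical run keeps the invariant and almost keeps the acceptance probability. -/
theorem can_inv (hP : P.WF q g d) (hs : P.Inv s) (hsh : ∀ i, sh i < 2 ^ (q - 2)) (j : ℕ) :
    P.Inv (P.stagesC sh s j) ∧ P.mu (P.stagesC sh s j).1 (P.N - 1) ≤ P.mu s.1 (P.N - 1) ∧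
      P.mu s.1 (P.N - 1) - j * (2 * (P.N : ℝ) ^ 2 / P.Pq) ≤
        P.mu (P.stagesC sh s j).1 (P.N - 1) := by
  induction j with
  | zero => exact ⟨hs, le_rfl, by simp [stagesC]⟩
  | succ j ih =>
    obtain ⟨h1, h2, h3⟩ := hP.stageC_inv (δ := fun c => sh (3 * j + c)) ih.1 fun c _ => hsh _
    refine ⟨h1, h2.trans ih.2.1, ?_⟩
    have h4 := ih.2.2
    simp only [stagesC]
    push_cast
    linarith

/-- The potential of the canonical run decreases geometrically. -/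
theorem can_pot (hP : P.WF q g d) (hs : P.Inv s) (hsh : ∀ i, sh i < 2 ^ (q - 2)) (j : ℕ) :
    (P.pot (P.stagesC sh s j).2 : ℝ) ≤
      ((32 / P.Pg) ^ j * P.N + 4 * (32 / P.Pg)) * (P.Pq * P.Pq) := by
  have hg : (2 : ℝ) ^ 20 ≤ P.Pg := by
    rw [hP.Pg_eq]
    push_cast
    exact pow_le_pow_right₀ one_le_two hP.g_ge
  have hg0 : (0 : ℝ) < P.Pg := lt_of_lt_of_le (by positivity) hg
  have ha0 : (0 : ℝ) ≤ 32 / P.Pg := by positivity
  have ha1 : (32 : ℝ) / P.Pg ≤ 1 / 2 := by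
    rw [div_le_iff₀ hg0]
    linarith
  have hZ : (0 : ℝ) ≤ (P.Pq : ℝ) * P.Pq := by positivity
  induction j with
  | zero =>
    have h1 : P.pot s.2 ≤ P.N * (P.Pq * P.Pq) := by
      refine (sum_le_card_nsmul _ _ (P.Pq * P.Pq) fun v hv => ?_).trans (by simp)
      split_ifs
      · exact Nat.zero_le _
      · exact hs.le v (mem_range.1 hv)
    have h2 : (P.pot s.2 : ℝ) ≤ P.N * (P.Pq * P.Pq) := by exact_mod_cast h1
    simp only [stagesC, pow_zero, one_mul]
    nlinarith [mul_nonneg ha0 hZ]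
  | succ j ih =>
    have h1 := hP.stageC_pot (δ := fun c => sh (3 * j + c)) (can_inv hP hs hsh j).1
      fun c _ => hsh _
    simp only [stagesC]
    refine h1.trans ?_
    generalize (32 : ℝ) / P.Pg = a at *
    generalize (P.Pq : ℝ) * P.Pq = Z at *
    have h2 : a * (P.pot (P.stagesC sh s j).2 : ℝ) ≤ a * ((a ^ j * P.N + 4 * a) * Z) :=
      mul_le_mul_of_nonneg_left ih ha0
    have h3 : a * Z * a ≤ a * Z * (1 / 2) := mul_le_mul_of_nonneg_left ha1 (mul_nonneg ha0 hZ)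
    rw [pow_succ]
    nlinarith

/-- The last canonical matrix gives the acceptance probability. -/
theorem can_err (hP : P.WF q g d) (hs : P.Inv s) (hsh : ∀ i, sh i < 2 ^ (q - 2)) {r : ℕ}
    (hr1 : r * P.N ^ 2 * 2 ^ 10 ≤ 2 ^ q) (hr2 : P.N * 2 ^ 10 ≤ 2 ^ ((g - 5) * r)) :
    |((P.stagesC sh s r).1 0 (P.N - 1) : ℝ) / P.Pq - P.mu s.1 (P.N - 1)| ≤ 1 / 50 := by
  obtain ⟨h1, h2, h3⟩ := can_inv hP hs hsh r
  obtain ⟨h4, h5⟩ := hP.mu_approx h1
  have h6 := can_pot hP hs hsh r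
  have hq0 : (0 : ℝ) < P.Pq := by
    rw [hP.Pq_eq]
    positivity
  have hg : (2 : ℝ) ^ 20 ≤ P.Pg := by
    rw [hP.Pg_eq]
    push_cast
    exact pow_le_pow_right₀ one_le_two hP.g_ge
  have hg0 : (0 : ℝ) < P.Pg := lt_of_lt_of_le (by positivity) hg
  have ha1 : (32 : ℝ) / P.Pg ≤ 1 / 1024 := by
    rw [div_le_iff₀ hg0]
    linarith
  have ha : (32 : ℝ) / P.Pg = 1 / 2 ^ (g - 5) := by
    have h20 := hP.g_ge
    obtain ⟨k, hk⟩ : ∃ k, g = k + 5 := ⟨g - 5, by omega⟩
    rw [hP.Pg_eq, hk, Nat.add_sub_cancel]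
    push_cast
    rw [pow_add]
    field_simp
    norm_num
  have h7 : (32 / P.Pg : ℝ) ^ r * P.N ≤ 1 / 1024 := by
    have h8 : (P.N : ℝ) * 2 ^ 10 ≤ 2 ^ ((g - 5) * r) := by exact_mod_cast hr2
    rw [ha, _root_.one_div_pow, ← pow_mul, div_mul_eq_mul_div, div_le_iff₀ (by positivity)]
    linarith
  have h8 : (P.pot (P.stagesC sh s r).2 : ℝ) / (P.Pq * P.Pq) ≤ 5 / 1024 := by
    rw [div_le_iff₀ (by positivity)]
    refine h6.trans (mul_le_mul_of_nonneg_right ?_ (by positivity))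
    linarith
  have h9 : (r : ℝ) * (2 * (P.N : ℝ) ^ 2 / P.Pq) ≤ 2 / 1024 := by
    have h10 : (r : ℝ) * (P.N : ℝ) ^ 2 * 2 ^ 10 ≤ P.Pq := by
      rw [hP.Pq_eq]
      exact_mod_cast hr1
    rw [← mul_div_assoc, div_le_iff₀ hq0]
    linarith
  rw [abs_le]
  constructor <;> linarith

/-- With good shifts and good digits the run is the canonical one. -/
theorem stages_eq (hP : P.WF q g d) (hs : P.Inv s) (hsh : ∀ i, sh i < 2 ^ (q - 2)) {r : ℕ}
    (h1 : ∀ j < r, P.GoodSh (fun c => sh (3 * j + c)) (P.stagesC sh s j))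
    (h2 : ∀ j < r, P.GoodDg dg (fun c => sh (3 * j + c)) (P.stagesC sh s j)) :
    ∀ j ≤ r, P.stages dg sh s j = P.stagesC sh s j := by
  intro j
  induction j with
  | zero => exact fun _ => rfl
  | succ j ih =>
    intro hj
    simp only [stages, stagesC]
    rw [ih (by omega)]
    exact (hP.stage_eq (can_inv hP hs hsh j).1 (h1 j hj) (h2 j hj)).1

theorem runOK (hP : P.WF q g d) (hs : P.Inv s) (hsh : ∀ i, sh i < 2 ^ (q - 2)) {r : ℕ}
    (hr1 : r * P.N ^ 2 * 2 ^ 10 ≤ 2 ^ q) (hr2 : P.N * 2 ^ 10 ≤ 2 ^ ((g - 5) * r))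
    (h1 : ∀ j < r, P.GoodSh (fun c => sh (3 * j + c)) (P.stagesC sh s j))
    (h2 : ∀ j < r, P.GoodDg dg (fun c => sh (3 * j + c)) (P.stagesC sh s j)) :
    P.RunOK d r s dg sh := by
  have he := stages_eq hP hs hsh h1 h2
  refine ⟨fun j hj => ?_, fun j hj => ?_, ?_⟩
  · rw [he j hj]
    exact (can_inv hP hs hsh j).1
  · rw [he j hj.le]
    exact (hP.stage_eq (can_inv hP hs hsh j).1 (h1 j hj) (h2 j hj)).2
  · rw [he r le_rfl]
    exact can_err hP hs hsh hr1 hr2

theorem cK_congr {δ δ' : ℕ → ℕ} (h0 : δ 0 = δ' 0) : P.cK δ = P.cK δ' := by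
  funext A n
  simp only [cK, h0]

theorem cH_congr {δ δ' : ℕ → ℕ} (h0 : δ 0 = δ' 0) (h1 : δ 1 = δ' 1) : P.cH δ = P.cH δ' := by
  funext A n v
  simp only [cH, cK_congr h0, h1]

theorem cC_congr {δ δ' : ℕ → ℕ} (h0 : δ 0 = δ' 0) (h1 : δ 1 = δ' 1) : P.cC δ = P.cC δ' := by
  funext A n
  simp only [cC, cK_congr h0, cH_congr h0 h1]

/-- The canonical run depends only on the shifts of the earlier stages. -/
theorem stagesC_congr {sh sh' : ℕ → ℕ} (j : ℕ) (h : ∀ i < 3 * j, sh i = sh' i) :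
    P.stagesC sh s j = P.stagesC sh' s j := by
  induction j with
  | zero => rfl
  | succ j ih =>
    have h0 : sh (3 * j + 0) = sh' (3 * j + 0) := h _ (by omega)
    have h1 : sh (3 * j + 1) = sh' (3 * j + 1) := h _ (by omega)
    have h2 : sh (3 * j + 2) = sh' (3 * j + 2) := h _ (by omega)
    simp only [stagesC, stageC]
    rw [ih fun i hi => h i (by omega), h2,
      cK_congr (δ := fun c => sh (3 * j + c)) (δ' := fun c => sh' (3 * j + c)) h0,
      cH_congr (δ := fun c => sh (3 * j + c)) (δ' := fun c => sh' (3 * j + c)) h0 h1,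
      cC_congr (δ := fun c => sh (3 * j + c)) (δ' := fun c => sh' (3 * j + c)) h0 h1]

/-- The value `x` of the shift number `c` of a stage is bad. -/
def Bad (P : Par) (δ : ℕ → ℕ) (s : (ℕ → ℕ → ℕ) × (ℕ → ℕ)) (c x : ℕ) : Prop :=
  if c = 0 then ∃ v : Fin P.N, badSh (P.occV s.1 s.2 (P.k0 s.1 s.2) v) 1 P.PQ x
  else if c = 1 then ∃ v : Fin P.N, badSh (P.occV s.1 s.2 (P.cK δ s.1 s.2) v) 1 P.PQ x
  else ∃ z : Fin P.N × Fin P.N, badSh ((P.Pf * P.PQ : ℝ) * P.Aex s.1 (P.cC δ s.1 s.2) z.1 z.2)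
    P.E3 (P.Pf * P.Pg) x

theorem Bad_congr {δ δ' : ℕ → ℕ} {c : ℕ} (h : ∀ i < c, δ i = δ' i) :
    Bad P δ s c = Bad P δ' s c := by
  funext x
  unfold Bad
  split_ifs with h0 h1
  · rfl
  · rw [cK_congr (h 0 (by omega))]
  · rw [cC_congr (h 0 (by omega)) (h 1 (by omega))]

theorem goodSh_of {δ : ℕ → ℕ} (h : ∀ c < 3, ¬Bad P δ s c (δ c)) : P.GoodSh δ s := by
  have h0 := h 0 (by omega)
  have h1 := h 1 (by omega)
  have h2 := h 2 (by omega)
  simp only [Bad, if_true, one_ne_zero, if_false, not_exists] at h0 h1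
  simp only [Bad, OfNat.ofNat_ne_zero, OfNat.ofNat_ne_one, if_false, not_exists] at h2
  exact ⟨fun v hv => h0 ⟨v, hv⟩, fun v hv => h1 ⟨v, hv⟩, fun u v => h2 (u, v)⟩

open Classical in
theorem card_exists_le {I : Type} [Fintype I] {S : ℕ} (F : I → ℕ → Prop) {m : ℕ}
    (h : ∀ i, ((range S).filter (F i)).card ≤ m) :
    ((range S).filter fun x => ∃ i, F i x).card ≤ Fintype.card I * m := by
  have h1 : ((range S).filter fun x => ∃ i, F i x) =
      univ.biUnion fun i => (range S).filter (F i) := by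
    ext x
    simp only [mem_filter, mem_biUnion, mem_univ, true_and]
    exact ⟨fun ⟨a, i, b⟩ => ⟨i, a, b⟩, fun ⟨i, a, b⟩ => ⟨a, i, b⟩⟩
  rw [h1]
  exact card_biUnion_le_card_mul _ _ _ fun i _ => h i

open Classical in
theorem card_Bad (hP : P.WF q g d) (δ : ℕ → ℕ) (s : (ℕ → ℕ → ℕ) × (ℕ → ℕ)) (c : ℕ) :
    ((range (2 ^ (q - 2))).filter (Bad P δ s c)).card ≤ 2 * P.N ^ 2 := by
  have hN := hP.two_le
  have hg := hP.g_ge
  have hq := hP.q_lt
  have hq2 : 2 ≤ q := by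
    have h1 : 2 ^ (2 * g + 10) ≤ 2 ^ q := le_trans (Nat.le_mul_of_pos_left _ (by omega)) hP.N_le
    have h2 := (Nat.pow_le_pow_iff_right (by omega : 1 < 2)).1 h1
    omega
  have hA : 3 * (1 : ℝ) * ((2 ^ (q - 2) : ℕ) : ℝ) ≤ (P.PQ : ℝ) := by
    have h1 : 3 * 1 * 2 ^ (q - 2) ≤ P.PQ := by
      rw [PQ, hP.Pq_eq, hP.Pg_eq, mul_comm]
      refine Nat.mul_le_mul (Nat.pow_le_pow_right (by omega) (by omega)) ?_
      exact le_trans (by norm_num) (Nat.pow_le_pow_right (by omega : 0 < 2) hg)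
    exact_mod_cast h1
  have hB : 3 * (P.E3 : ℝ) * ((2 ^ (q - 2) : ℕ) : ℝ) ≤ (P.Pf : ℝ) * P.Pg := by
    have h1 : 3 * P.E3 * 2 ^ (q - 2) ≤ P.Pf * P.Pg := by
      rw [hP.E3_eq, hP.Pf_eq, hP.Pg_eq, mul_assoc, ← pow_add, ← pow_add]
      have h2 : 8 * d + g = (8 * d + g - q + (q - 2)) + 2 := by omega
      rw [h2, pow_add (2 : ℕ) _ 2]
      have h3 : 8 * d + g - q + (q - 2) + 2 - q + (q - 2) = 8 * d + g - q + (q - 2) := by omega
      rw [h3]
      omega
    exact_mod_cast h1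
  have hE : (0 : ℝ) < P.E3 := by
    rw [hP.E3_eq]
    positivity
  have hNN : P.N * 2 ≤ 2 * P.N ^ 2 := by nlinarith
  unfold Bad
  split_ifs with h0 h1
  · refine Nat.le_trans ?_ hNN
    have := card_exists_le (I := Fin P.N) (S := 2 ^ (q - 2))
      (fun v x => badSh (P.occV s.1 s.2 (P.k0 s.1 s.2) v) 1 P.PQ x)
      fun v => by convert card_badSh one_pos hA
    rw [Fintype.card_fin] at this
    convert this
  · refine Nat.le_trans ?_ hNN
    have := card_exists_le (I := Fin P.N) (S := 2 ^ (q - 2))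
      (fun v x => badSh (P.occV s.1 s.2 (P.cK δ s.1 s.2) v) 1 P.PQ x)
      fun v => by convert card_badSh one_pos hA
    rw [Fintype.card_fin] at this
    convert this
  · have := card_exists_le (I := Fin P.N × Fin P.N) (S := 2 ^ (q - 2))
      (fun z x => badSh ((P.Pf * P.PQ : ℝ) * P.Aex s.1 (P.cC δ s.1 s.2) z.1 z.2)
        P.E3 (P.Pf * P.Pg) x) fun v => by convert card_badSh hE hB
    rw [Fintype.card_prod, Fintype.card_fin] at this
    refine le_trans ?_ (le_of_eq (by ring : P.N * P.N * 2 = 2 * P.N ^ 2))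
    convert this

theorem dgN_lt {T p : ℕ} (hp : 0 < p) (w : Fin T → Fin p) (i : ℕ) : dgN w i < p := by
  unfold dgN
  split_ifs
  · exact (w _).2
  · exact hp

theorem dgN_update {T p : ℕ} (w : Fin T → Fin p) (i : Fin T) (x : Fin p) {k : ℕ} (hk : k < i) :
    dgN (Function.update w i x) k = dgN w k := by
  unfold dgN
  split_ifs with h
  · rw [Function.update_of_ne]
    intro he
    rw [← he] at hk
    exact lt_irrefl _ hk
  · rfl

open Classical in
/-- Few strings of shifts are bad. -/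
theorem card_badShifts (hP : P.WF q g d) (s : (ℕ → ℕ → ℕ) × (ℕ → ℕ)) {r : ℕ}
    (hr1 : r * P.N ^ 2 * 2 ^ 10 ≤ 2 ^ q) :
    (univ.filter fun w : Fin (3 * r) → Fin (2 ^ (q - 2)) =>
      ¬∀ j < r, P.GoodSh (fun c => dgN w (3 * j + c)) (P.stagesC (dgN w) s j)).card * 1024 ≤
      24 * (2 ^ (q - 2)) ^ (3 * r) := by
  have h1 := card_bad_shift (J := 3 * r) (S := 2 ^ (q - 2)) (m := 2 * P.N ^ 2)
    (fun w i => Bad P (fun c => dgN w (3 * (i / 3) + c)) (P.stagesC (dgN w) s (i / 3)) (i % 3))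
    (fun w i x => by
      rw [stagesC_congr (sh' := dgN w) _ fun k hk => dgN_update w i x (by omega)]
      exact Bad_congr fun c hc => dgN_update w i x (by omega))
    (fun w i => by convert card_Bad hP _ _ _)
  have h2 : (univ.filter fun w : Fin (3 * r) → Fin (2 ^ (q - 2)) =>
      ¬∀ j < r, P.GoodSh (fun c => dgN w (3 * j + c)) (P.stagesC (dgN w) s j)).card *
        2 ^ (q - 2) ≤ 3 * r * (2 * P.N ^ 2) * (2 ^ (q - 2)) ^ (3 * r) := by
    refine le_trans (Nat.mul_le_mul_right _ (card_le_card fun w hw => ?_)) h1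
    simp only [mem_filter, mem_univ, true_and] at hw ⊢
    by_contra hc
    refine hw fun j hj => goodSh_of fun c hc3 hb => hc ⟨⟨3 * j + c, by omega⟩, ?_⟩
    have e1 : (3 * j + c) / 3 = j := by omega
    have e2 : (3 * j + c) % 3 = c := by omega
    have e3 : dgN w (3 * j + c) = (w ⟨3 * j + c, by omega⟩ : ℕ) := dif_pos (by omega)
    simp only [e1, e2]
    rw [← e3]
    exact hb
  have h3 : 2 ^ q ≤ 4 * 2 ^ (q - 2) := by
    rw [show (4 : ℕ) = 2 ^ 2 by norm_num, ← pow_add]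
    exact Nat.pow_le_pow_right (by omega) (by omega)
  refine Nat.le_of_mul_le_mul_right ?_ (by positivity : 0 < 2 ^ (q - 2))
  generalize (2 ^ (q - 2)) ^ (3 * r) = Y at *
  generalize 2 ^ (q - 2) = S at *
  have h4 : r * P.N ^ 2 * 1024 ≤ 4 * S := le_trans (le_of_eq (by norm_num)) (hr1.trans h3)
  have h5 := Nat.mul_le_mul_right Y h4
  nlinarith

open Classical in
/-- Few strings of digits are bad. -/
theorem card_badDigits (hP : P.WF q g d) (hs : P.Inv s) (hsh : ∀ i, sh i < 2 ^ (q - 2)) {r : ℕ}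
    (hr1 : r * P.N ^ 2 * 2 ^ 10 ≤ 2 ^ q) :
    (univ.filter fun w : Fin P.T0 → Fin P.p =>
      ¬∀ j < r, P.GoodDg (dgN w) (fun c => sh (3 * j + c)) (P.stagesC sh s j)).card * 256 ≤
      P.p ^ P.T0 := by
  have h1 : (univ.filter fun w : Fin P.T0 → Fin P.p =>
      ¬∀ j < r, P.GoodDg (dgN w) (fun c => sh (3 * j + c)) (P.stagesC sh s j)) =
      (range r).biUnion fun j => univ.filter fun w : Fin P.T0 → Fin P.p =>
        ¬P.GoodDg (dgN w) (fun c => sh (3 * j + c)) (P.stagesC sh s j) := by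
    ext w
    simp
  have h2 : (univ.filter fun w : Fin P.T0 → Fin P.p =>
      ¬∀ j < r, P.GoodDg (dgN w) (fun c => sh (3 * j + c)) (P.stagesC sh s j)).card *
        2 ^ (2 * d) ≤ r * (4 * P.p ^ P.T0) := by
    rw [h1]
    refine le_trans (Nat.mul_le_mul_right _ card_biUnion_le) ?_
    rw [sum_mul]
    refine (sum_le_card_nsmul _ _ (4 * P.p ^ P.T0) fun j _ => ?_).trans (by simp)
    exact hP.card_not_goodDg (can_inv hP hs hsh j).1 _
  have h3 : r * 1024 ≤ 2 ^ (2 * d) := by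
    have hN := hP.two_le
    have hq := hP.q_lt
    have h4 : 2 ^ q ≤ 2 ^ (2 * d) := Nat.pow_le_pow_right (by omega) (by omega)
    have h5 : r * 1 ≤ r * P.N ^ 2 := Nat.mul_le_mul_left _ (Nat.one_le_pow _ _ (by omega))
    refine le_trans ?_ (hr1.trans h4)
    rw [mul_one] at h5
    exact Nat.mul_le_mul h5 (by norm_num)
  refine Nat.le_of_mul_le_mul_right ?_ (by positivity : 0 < 2 ^ (2 * d))
  generalize P.p ^ P.T0 = X at *
  generalize 2 ^ (2 * d) = S at *
  have h5 := Nat.mul_le_mul_left X h3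
  nlinarith

open Classical in
theorem count_prod {α β : Type} [Fintype α] [Fintype β] [Nonempty α] [Nonempty β]
    (G : α × β → Prop) (G1 : β → α → Prop) (G2 : β → Prop)
    (h : ∀ a b, G1 b a → G2 b → G (a, b))
    (h1 : ∀ b, (univ.filter fun a => ¬G1 b a).card * 256 ≤ Fintype.card α)
    (h2 : (univ.filter fun b => ¬G2 b).card * 1024 ≤ 24 * Fintype.card β) :
    Fintype.card α * Fintype.card β < 2 * (univ.filter G).card := by
  have h3 : (univ.filter fun w => ¬G w) ⊆ (univ ×ˢ univ.filter fun b => ¬G2 b) ∪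
      univ.biUnion fun b => (univ.filter fun a => ¬G1 b a).image fun a => (a, b) := by
    rintro ⟨a, b⟩ hw
    simp only [mem_filter, mem_univ, true_and] at hw
    by_cases hb : G2 b
    · refine mem_union_right _ (mem_biUnion.2 ⟨b, mem_univ _, mem_image.2 ⟨a, ?_, rfl⟩⟩)
      exact mem_filter.2 ⟨mem_univ _, fun ha => hw (h a b ha hb)⟩
    · exact mem_union_left _ (mem_product.2 ⟨mem_univ _, mem_filter.2 ⟨mem_univ _, hb⟩⟩)
  have h4 := (card_le_card h3).trans (card_union_le _ _)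
  rw [card_product, card_univ] at h4
  have h5 : (univ.biUnion fun b => (univ.filter fun a => ¬G1 b a).image fun a => (a, b)).card *
      256 ≤ Fintype.card β * Fintype.card α := by
    refine le_trans (Nat.mul_le_mul_right _ card_biUnion_le) ?_
    rw [sum_mul]
    refine (sum_le_card_nsmul _ _ (Fintype.card α) fun b _ => ?_).trans (by simp)
    exact le_trans (Nat.mul_le_mul_right _ card_image_le) (h1 b)
  have h6 := card_filter_add_card_filter_not (s := univ) G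
  rw [card_univ, Fintype.card_prod] at h6
  have h7 : 0 < Fintype.card α * Fintype.card β := Nat.mul_pos Fintype.card_pos Fintype.card_pos
  have h8 := Nat.mul_le_mul_left (Fintype.card α) h2
  nlinarith

end PrP

open Classical in
theorem WF.majority (hP : P.WF q g d) (hs : P.Inv s) {r : ℕ}
    (hr1 : r * P.N ^ 2 * 2 ^ 10 ≤ 2 ^ q) (hr2 : P.N * 2 ^ 10 ≤ 2 ^ ((g - 5) * r)) :
    P.p ^ P.T0 * (2 ^ (q - 2)) ^ (3 * r) < 2 * (univ.filter
      fun w : (Fin P.T0 → Fin P.p) × (Fin (3 * r) → Fin (2 ^ (q - 2))) =>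
        P.RunOK d r s (dgN w.1) (dgN w.2)).card := by
  have hp := hP.prime.pos
  have hS : 0 < 2 ^ (q - 2) := by positivity
  have : Nonempty (Fin P.T0 → Fin P.p) := ⟨fun _ => ⟨0, hp⟩⟩
  have : Nonempty (Fin (3 * r) → Fin (2 ^ (q - 2))) := ⟨fun _ => ⟨0, hS⟩⟩
  have h := PrP.count_prod
    (fun w : (Fin P.T0 → Fin P.p) × (Fin (3 * r) → Fin (2 ^ (q - 2))) =>
      P.RunOK d r s (dgN w.1) (dgN w.2))
    (fun b a => ∀ j < r, P.GoodDg (dgN a) (fun c => dgN b (3 * j + c)) (P.stagesC (dgN b) s j))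
    (fun b => ∀ j < r, P.GoodSh (fun c => dgN b (3 * j + c)) (P.stagesC (dgN b) s j))
    (fun a b h1 h2 => PrP.runOK hP hs (PrP.dgN_lt hS b) hr1 hr2 h2 h1)
    (fun b => by
      rw [Fintype.card_fun, Fintype.card_fin, Fintype.card_fin]
      convert PrP.card_badDigits hP hs (PrP.dgN_lt hS b) hr1)
    (by
      rw [Fintype.card_fun, Fintype.card_fin, Fintype.card_fin]
      convert PrP.card_badShifts hP s hr1)
  simp only [Fintype.card_fun, Fintype.card_fin] at h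
  convert h

end Par

end Vale.Agent.P313.F43
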