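import Vale.Agent.P313.F43.SPWalk

/-! One layer of the algorithm is computed with polynomially bounded registers. -/

set_option linter.unusedTactic false
set_option linter.unreachableTactic false

namespace Vale.Agent.P313.F43

open Finset Vale.Agent.Lib.Space

variable {A : Type} {α β γ : Type} [Enc A α] [Enc A β] [Enc A γ] {B : Bud A}

/-- A computable family of parameters. -/
structure SPPar (B : Bud A) (P : α → Par) : Prop where
  N : SP B fun a => (P a).N
  Pq : SP B fun a => (P a).Pq
  Pg : SP B fun a => (P a).Pg
  Q : SP B fun a => (P a).Q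
  om : SP B fun a => (P a).om
  p : SP B fun a => (P a).p
  Pd : SP B fun a => (P a).Pd
  D : SP B fun a => (P a).D
  K : SP B fun a => (P a).K
  e : SP B fun a => (P a).e
  Pe : SP B fun a => (P a).Pe
  Pf : SP B fun a => (P a).Pf
  nl : SP B fun a => (P a).nl
  E3 : SP B fun a => (P a).E3

namespace SPPar

variable {P : α → Par} {M C Xp Xm h : α → ℕ → ℕ → ℕ} {n nh oa dg δ : α → ℕ → ℕ}
  {k : α → ℕ → Bool} {u v x y z : α → ℕ}

theorem comp (h : SPPar B P) {g : γ → α} (hg : SP B g) : SPPar B fun c => P (g c) :=
  ⟨h.N.comp hg, h.Pq.comp hg, h.Pg.comp hg, h.Q.comp hg, h.om.comp hg, h.p.comp hg, h.Pd.comp hg,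
    h.D.comp hg, h.K.comp hg, h.e.comp hg, h.Pe.comp hg, h.Pf.comp hg, h.nl.comp hg, h.E3.comp hg⟩

theorem PQ (h : SPPar B P) : SP B fun a => (P a).PQ := h.Pq.mul h.Pg

theorem M' (h : SPPar B P) : SP B fun a => (P a).M := h.Pg.mul h.Pg

theorem R (h : SPPar B P) : SP B fun a => (P a).R := (h.Pg.mul h.Pg).mul h.Pg


theorem seedN (hP : SPPar B P) (hdg : SP1 B dg) (hx : SP B x) (hy : SP B y) (hz : SP B z) :
    SP B fun a => (P a).seedN (dg a) (x a) (y a) (z a) := by
  unfold Par.seedN
  with_reducible repeat' first
      | assumption | exact SP.const _ | exact SP.id | apply SPPar.N | apply SPPar.Pq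
      | apply SPPar.Pg | apply SPPar.Q | apply SPPar.om | apply SPPar.p | apply SPPar.Pd
      | apply SPPar.D | apply SPPar.K | apply SPPar.e | apply SPPar.Pe | apply SPPar.Pf
      | apply SPPar.nl | apply SPPar.E3 | apply SPPar.PQ | apply SPPar.M' | apply SPPar.R
      | (apply SPPar.comp; assumption) | apply SP1.intro | apply SP2.intro | apply SP.ite
      | apply SP.decide_or | apply SP.decide_and | apply SP.decide_true | apply SP.decide_eq
      | apply SP.decide_ne | apply SP.decide_lt | apply SP.decide_le | apply SP.decide_not
      | apply SP.or | apply SP.and | apply SP.sum_range | apply SP.div_pow | apply SP.min_pow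
      | apply sp_log2 | apply SP.add | apply SP.sub | apply SP.mul | apply SP.div | apply SP.mod
      | apply SP.min | apply SP.fst | apply SP.snd | apply SP.pair | (apply SP2.app; assumption)
      | (apply SP1.app; assumption) | (apply sp_app0; assumption)

theorem Bm (hP : SPPar B P) (hM : SP2 B M) (hu : SP B u) (hv : SP B v) :
    SP B fun a => (P a).Bm (M a) (u a) (v a) := by
  unfold Par.Bm
  with_reducible repeat' first
      | assumption | exact SP.const _ | exact SP.id | apply SPPar.N | apply SPPar.Pq
      | apply SPPar.Pg | apply SPPar.Q | apply SPPar.om | apply SPPar.p | apply SPPar.Pd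
      | apply SPPar.D | apply SPPar.K | apply SPPar.e | apply SPPar.Pe | apply SPPar.Pf
      | apply SPPar.nl | apply SPPar.E3 | apply SPPar.PQ | apply SPPar.M' | apply SPPar.R
      | (apply SPPar.comp; assumption) | apply SP1.intro | apply SP2.intro | apply SP.ite
      | apply SP.decide_or | apply SP.decide_and | apply SP.decide_true | apply SP.decide_eq
      | apply SP.decide_ne | apply SP.decide_lt | apply SP.decide_le | apply SP.decide_not
      | apply SP.or | apply SP.and | apply SP.sum_range | apply SP.div_pow | apply SP.min_pow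
      | apply sp_log2 | apply SP.add | apply SP.sub | apply SP.mul | apply SP.div | apply SP.mod
      | apply SP.min | apply SP.fst | apply SP.snd | apply SP.pair | (apply SP2.app; assumption)
      | (apply SP1.app; assumption) | (apply sp_app0; assumption)


theorem inf (hP : SPPar B P) (hM : SP2 B M) (hn : SP1 B n) (hv : SP B v) :
    SP B fun a => (P a).inf (M a) (n a) (v a) := by
  unfold Par.inf
  with_reducible repeat' first
      | assumption | exact SP.const _ | exact SP.id | apply SPPar.seedN | apply SPPar.Bm
      | apply SPPar.N | apply SPPar.Pq | apply SPPar.Pg | apply SPPar.Q | apply SPPar.om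
      | apply SPPar.p | apply SPPar.Pd | apply SPPar.D | apply SPPar.K | apply SPPar.e
      | apply SPPar.Pe | apply SPPar.Pf | apply SPPar.nl | apply SPPar.E3 | apply SPPar.PQ
      | apply SPPar.M' | apply SPPar.R | (apply SPPar.comp; assumption) | apply SP1.intro
      | apply SP2.intro | apply SP.ite | apply SP.decide_or | apply SP.decide_and
      | apply SP.decide_true | apply SP.decide_eq | apply SP.decide_ne | apply SP.decide_lt
      | apply SP.decide_le | apply SP.decide_not | apply SP.or | apply SP.and | apply SP.sum_range
      | apply SP.div_pow | apply SP.min_pow | apply sp_log2 | apply SP.add | apply SP.sub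
      | apply SP.mul | apply SP.div | apply SP.mod | apply SP.min | apply SP.fst | apply SP.snd
      | apply SP.pair | (apply SP2.app; assumption) | (apply SP1.app; assumption)
      | (apply sp_app0; assumption)


theorem k0 (hP : SPPar B P) (hM : SP2 B M) (hn : SP1 B n) (hv : SP B v) :
    SP B fun a => (P a).k0 (M a) (n a) (v a) := by
  unfold Par.k0
  with_reducible repeat' first
      | assumption | exact SP.const _ | exact SP.id | apply SPPar.inf | apply SPPar.seedN
      | apply SPPar.Bm | apply SPPar.N | apply SPPar.Pq | apply SPPar.Pg | apply SPPar.Q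
      | apply SPPar.om | apply SPPar.p | apply SPPar.Pd | apply SPPar.D | apply SPPar.K
      | apply SPPar.e | apply SPPar.Pe | apply SPPar.Pf | apply SPPar.nl | apply SPPar.E3
      | apply SPPar.PQ | apply SPPar.M' | apply SPPar.R | (apply SPPar.comp; assumption)
      | apply SP1.intro | apply SP2.intro | apply SP.ite | apply SP.decide_or | apply SP.decide_and
      | apply SP.decide_true | apply SP.decide_eq | apply SP.decide_ne | apply SP.decide_lt
      | apply SP.decide_le | apply SP.decide_not | apply SP.or | apply SP.and | apply SP.sum_range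
      | apply SP.div_pow | apply SP.min_pow | apply sp_log2 | apply SP.add | apply SP.sub
      | apply SP.mul | apply SP.div | apply SP.mod | apply SP.min | apply SP.fst | apply SP.snd
      | apply SP.pair | (apply SP2.app; assumption) | (apply SP1.app; assumption)
      | (apply sp_app0; assumption)

theorem wk1 (hP : SPPar B P) (hM : SP2 B M) (hn : SP1 B n) (hk : SP1 B k) :
    SPWk B fun a => (P a).wk1 (M a) (n a) (k a) := by
  unfold Par.wk1
  refine ⟨hP.N, hP.PQ, hP.om, hP.p, hP.Pd, hP.D, hP.M'.mul (hP.om.add (SP.const 1)), hn,
    (hP.comp SP.fst').Bm (hM.app SP.fst'.fst SP.snd'.fst SP.snd'.snd) SP.snd'.fst SP.snd'.snd,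
    sp_log2 hn, hk.app SP.fst' SP.snd'.snd⟩

theorem wk2 (hP : SPPar B P) (hC : SP2 B C) (hn : SP1 B nh) :
    SPWk B fun a => (P a).wk2 (C a) (nh a) := by
  unfold Par.wk2
  refine ⟨hP.N, hP.PQ, hP.om, hP.p, hP.Pd, hP.D, hP.M'.mul (hP.om.add (SP.const 1)), hn, hC,
    hP.Q.comp SP.fst', SP.const false⟩


theorem occ (hP : SPPar B P) (hM : SP2 B M) (hn : SP1 B n) (hk : SP1 B k) (hh : SP2 B h)
    (hv : SP B v) : SP B fun a => (P a).occ (M a) (n a) (k a) (h a) (v a) := by
  unfold Par.occ
  with_reducible repeat' first
      | assumption | exact SP.const _ | exact SP.id | apply SPPar.k0 | apply SPPar.wk1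
      | apply SPPar.wk2 | apply SPWk.cnt | apply SPPar.inf | apply SPPar.seedN | apply SPPar.Bm
      | apply SPPar.N | apply SPPar.Pq | apply SPPar.Pg | apply SPPar.Q | apply SPPar.om
      | apply SPPar.p | apply SPPar.Pd | apply SPPar.D | apply SPPar.K | apply SPPar.e
      | apply SPPar.Pe | apply SPPar.Pf | apply SPPar.nl | apply SPPar.E3 | apply SPPar.PQ
      | apply SPPar.M' | apply SPPar.R | (apply SPPar.comp; assumption) | apply SP1.intro
      | apply SP2.intro | apply SP.ite | apply SP.decide_or | apply SP.decide_and
      | apply SP.decide_true | apply SP.decide_eq | apply SP.decide_ne | apply SP.decide_lt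
      | apply SP.decide_le | apply SP.decide_not | apply SP.or | apply SP.and | apply SP.sum_range
      | apply SP.div_pow | apply SP.min_pow | apply sp_log2 | apply SP.add | apply SP.sub
      | apply SP.mul | apply SP.div | apply SP.mod | apply SP.min | apply SP.fst | apply SP.snd
      | apply SP.pair | (apply SP2.app; assumption) | (apply SP1.app; assumption)
      | (apply sp_app0; assumption)


theorem occR (hP : SPPar B P) (hdg : SP1 B dg) (hx : SP B x) (hM : SP2 B M) (hn : SP1 B n)
    (hk : SP1 B k) (hv : SP B v) :
    SP B fun a => (P a).occR (dg a) (x a) (M a) (n a) (k a) (v a) := by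
  unfold Par.occR
  with_reducible repeat' first
      | assumption | exact SP.const _ | exact SP.id | apply SPPar.occ | apply SPPar.k0
      | apply SPPar.wk1 | apply SPPar.wk2 | apply SPWk.cnt | apply SPPar.inf | apply SPPar.seedN
      | apply SPPar.Bm | apply SPPar.N | apply SPPar.Pq | apply SPPar.Pg | apply SPPar.Q
      | apply SPPar.om | apply SPPar.p | apply SPPar.Pd | apply SPPar.D | apply SPPar.K
      | apply SPPar.e | apply SPPar.Pe | apply SPPar.Pf | apply SPPar.nl | apply SPPar.E3
      | apply SPPar.PQ | apply SPPar.M' | apply SPPar.R | (apply SPPar.comp; assumption)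
      | apply SP1.intro | apply SP2.intro | apply SP.ite | apply SP.decide_or | apply SP.decide_and
      | apply SP.decide_true | apply SP.decide_eq | apply SP.decide_ne | apply SP.decide_lt
      | apply SP.decide_le | apply SP.decide_not | apply SP.or | apply SP.and | apply SP.sum_range
      | apply SP.div_pow | apply SP.min_pow | apply sp_log2 | apply SP.add | apply SP.sub
      | apply SP.mul | apply SP.div | apply SP.mod | apply SP.min | apply SP.fst | apply SP.snd
      | apply SP.pair | (apply SP2.app; assumption) | (apply SP1.app; assumption)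
      | (apply sp_app0; assumption)

theorem k1 (hP : SPPar B P) (hM : SP2 B M) (hn : SP1 B n) (ho : SP1 B oa) (hv : SP B v) :
    SP B fun a => (P a).k1 (M a) (n a) (oa a) (v a) := by
  unfold Par.k1
  with_reducible repeat' first
      | assumption | exact SP.const _ | exact SP.id | apply SPPar.occ | apply SPPar.k0
      | apply SPPar.wk1 | apply SPPar.wk2 | apply SPWk.cnt | apply SPPar.inf | apply SPPar.seedN
      | apply SPPar.Bm | apply SPPar.N | apply SPPar.Pq | apply SPPar.Pg | apply SPPar.Q
      | apply SPPar.om | apply SPPar.p | apply SPPar.Pd | apply SPPar.D | apply SPPar.K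
      | apply SPPar.e | apply SPPar.Pe | apply SPPar.Pf | apply SPPar.nl | apply SPPar.E3
      | apply SPPar.PQ | apply SPPar.M' | apply SPPar.R | (apply SPPar.comp; assumption)
      | apply SP1.intro | apply SP2.intro | apply SP.ite | apply SP.decide_or | apply SP.decide_and
      | apply SP.decide_true | apply SP.decide_eq | apply SP.decide_ne | apply SP.decide_lt
      | apply SP.decide_le | apply SP.decide_not | apply SP.or | apply SP.and | apply SP.sum_range
      | apply SP.div_pow | apply SP.min_pow | apply sp_log2 | apply SP.add | apply SP.sub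
      | apply SP.mul | apply SP.div | apply SP.mod | apply SP.min | apply SP.fst | apply SP.snd
      | apply SP.pair | (apply SP2.app; assumption) | (apply SP1.app; assumption)
      | (apply sp_app0; assumption)

theorem Cm (hP : SPPar B P) (hM : SP2 B M) (hk : SP1 B k) (hn : SP1 B nh) (hu : SP B u)
    (hv : SP B v) : SP B fun a => (P a).Cm (M a) (k a) (nh a) (u a) (v a) := by
  unfold Par.Cm
  with_reducible repeat' first
      | assumption | exact SP.const _ | exact SP.id | apply SPPar.occ | apply SPPar.k0
      | apply SPPar.wk1 | apply SPPar.wk2 | apply SPWk.cnt | apply SPPar.inf | apply SPPar.seedN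
      | apply SPPar.Bm | apply SPPar.N | apply SPPar.Pq | apply SPPar.Pg | apply SPPar.Q
      | apply SPPar.om | apply SPPar.p | apply SPPar.Pd | apply SPPar.D | apply SPPar.K
      | apply SPPar.e | apply SPPar.Pe | apply SPPar.Pf | apply SPPar.nl | apply SPPar.E3
      | apply SPPar.PQ | apply SPPar.M' | apply SPPar.R | (apply SPPar.comp; assumption)
      | apply SP1.intro | apply SP2.intro | apply SP.ite | apply SP.decide_or | apply SP.decide_and
      | apply SP.decide_true | apply SP.decide_eq | apply SP.decide_ne | apply SP.decide_lt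
      | apply SP.decide_le | apply SP.decide_not | apply SP.or | apply SP.and | apply SP.sum_range
      | apply SP.div_pow | apply SP.min_pow | apply sp_log2 | apply SP.add | apply SP.sub
      | apply SP.mul | apply SP.div | apply SP.mod | apply SP.min | apply SP.fst | apply SP.snd
      | apply SP.pair | (apply SP2.app; assumption) | (apply SP1.app; assumption)
      | (apply sp_app0; assumption)

theorem grn (hP : SPPar B P) (hC : SP2 B C) (hn : SP1 B nh) (hh : SP2 B h) (hu : SP B u)
    (hv : SP B v) : SP B fun a => (P a).grn (C a) (nh a) (h a) (u a) (v a) := by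
  unfold Par.grn
  with_reducible repeat' first
      | assumption | exact SP.const _ | exact SP.id | apply SPPar.occ | apply SPPar.k0
      | apply SPPar.wk1 | apply SPPar.wk2 | apply SPWk.cnt | apply SPPar.inf | apply SPPar.seedN
      | apply SPPar.Bm | apply SPPar.N | apply SPPar.Pq | apply SPPar.Pg | apply SPPar.Q
      | apply SPPar.om | apply SPPar.p | apply SPPar.Pd | apply SPPar.D | apply SPPar.K
      | apply SPPar.e | apply SPPar.Pe | apply SPPar.Pf | apply SPPar.nl | apply SPPar.E3
      | apply SPPar.PQ | apply SPPar.M' | apply SPPar.R | (apply SPPar.comp; assumption)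
      | apply SP1.intro | apply SP2.intro | apply SP.ite | apply SP.decide_or | apply SP.decide_and
      | apply SP.decide_true | apply SP.decide_eq | apply SP.decide_ne | apply SP.decide_lt
      | apply SP.decide_le | apply SP.decide_not | apply SP.or | apply SP.and | apply SP.sum_range
      | apply SP.div_pow | apply SP.min_pow | apply sp_log2 | apply SP.add | apply SP.sub
      | apply SP.mul | apply SP.div | apply SP.mod | apply SP.min | apply SP.fst | apply SP.snd
      | apply SP.pair | (apply SP2.app; assumption) | (apply SP1.app; assumption)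
      | (apply sp_app0; assumption)


theorem x0 (hP : SPPar B P) (hdg : SP1 B dg) (hC : SP2 B C) (hn : SP1 B nh) (hu : SP B u)
    (hv : SP B v) : SP B fun a => (P a).x0 (dg a) (C a) (nh a) (u a) (v a) := by
  unfold Par.x0
  with_reducible repeat' first
      | assumption | exact SP.const _ | exact SP.id | apply SPPar.occR | apply SPPar.k1
      | apply SPPar.Cm | apply SPPar.grn | apply SPPar.occ | apply SPPar.k0 | apply SPPar.wk1
      | apply SPPar.wk2 | apply SPWk.cnt | apply SPPar.inf | apply SPPar.seedN | apply SPPar.Bm
      | apply SPPar.N | apply SPPar.Pq | apply SPPar.Pg | apply SPPar.Q | apply SPPar.om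
      | apply SPPar.p | apply SPPar.Pd | apply SPPar.D | apply SPPar.K | apply SPPar.e
      | apply SPPar.Pe | apply SPPar.Pf | apply SPPar.nl | apply SPPar.E3 | apply SPPar.PQ
      | apply SPPar.M' | apply SPPar.R | (apply SPPar.comp; assumption) | apply SP1.intro
      | apply SP2.intro | apply SP.ite | apply SP.decide_or | apply SP.decide_and
      | apply SP.decide_true | apply SP.decide_eq | apply SP.decide_ne | apply SP.decide_lt
      | apply SP.decide_le | apply SP.decide_not | apply SP.or | apply SP.and | apply SP.sum_range
      | apply SP.div_pow | apply SP.min_pow | apply sp_log2 | apply SP.add | apply SP.sub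
      | apply SP.mul | apply SP.div | apply SP.mod | apply SP.min | apply SP.fst | apply SP.snd
      | apply SP.pair | (apply SP2.app; assumption) | (apply SP1.app; assumption)
      | (apply sp_app0; assumption)

theorem nwP (hP : SPPar B P) (hC : SP2 B C) (hp : SP2 B Xp) (hm : SP2 B Xm) (hu : SP B u)
    (hv : SP B v) : SP B fun a => (P a).nwP (C a) (Xp a) (Xm a) (u a) (v a) := by
  unfold Par.nwP
  with_reducible repeat' first
      | assumption | exact SP.const _ | exact SP.id | apply SPPar.occR | apply SPPar.k1
      | apply SPPar.Cm | apply SPPar.grn | apply SPPar.occ | apply SPPar.k0 | apply SPPar.wk1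
      | apply SPPar.wk2 | apply SPWk.cnt | apply SPPar.inf | apply SPPar.seedN | apply SPPar.Bm
      | apply SPPar.N | apply SPPar.Pq | apply SPPar.Pg | apply SPPar.Q | apply SPPar.om
      | apply SPPar.p | apply SPPar.Pd | apply SPPar.D | apply SPPar.K | apply SPPar.e
      | apply SPPar.Pe | apply SPPar.Pf | apply SPPar.nl | apply SPPar.E3 | apply SPPar.PQ
      | apply SPPar.M' | apply SPPar.R | (apply SPPar.comp; assumption) | apply SP1.intro
      | apply SP2.intro | apply SP.ite | apply SP.decide_or | apply SP.decide_and
      | apply SP.decide_true | apply SP.decide_eq | apply SP.decide_ne | apply SP.decide_lt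
      | apply SP.decide_le | apply SP.decide_not | apply SP.or | apply SP.and | apply SP.sum_range
      | apply SP.div_pow | apply SP.min_pow | apply sp_log2 | apply SP.add | apply SP.sub
      | apply SP.mul | apply SP.div | apply SP.mod | apply SP.min | apply SP.fst | apply SP.snd
      | apply SP.pair | (apply SP2.app; assumption) | (apply SP1.app; assumption)
      | (apply sp_app0; assumption)

theorem nwM (hP : SPPar B P) (hC : SP2 B C) (hp : SP2 B Xp) (hm : SP2 B Xm) (hu : SP B u)
    (hv : SP B v) : SP B fun a => (P a).nwM (C a) (Xp a) (Xm a) (u a) (v a) := by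
  unfold Par.nwM
  with_reducible repeat' first
      | assumption | exact SP.const _ | exact SP.id | apply SPPar.occR | apply SPPar.k1
      | apply SPPar.Cm | apply SPPar.grn | apply SPPar.occ | apply SPPar.k0 | apply SPPar.wk1
      | apply SPPar.wk2 | apply SPWk.cnt | apply SPPar.inf | apply SPPar.seedN | apply SPPar.Bm
      | apply SPPar.N | apply SPPar.Pq | apply SPPar.Pg | apply SPPar.Q | apply SPPar.om
      | apply SPPar.p | apply SPPar.Pd | apply SPPar.D | apply SPPar.K | apply SPPar.e
      | apply SPPar.Pe | apply SPPar.Pf | apply SPPar.nl | apply SPPar.E3 | apply SPPar.PQ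
      | apply SPPar.M' | apply SPPar.R | (apply SPPar.comp; assumption) | apply SP1.intro
      | apply SP2.intro | apply SP.ite | apply SP.decide_or | apply SP.decide_and
      | apply SP.decide_true | apply SP.decide_eq | apply SP.decide_ne | apply SP.decide_lt
      | apply SP.decide_le | apply SP.decide_not | apply SP.or | apply SP.and | apply SP.sum_range
      | apply SP.div_pow | apply SP.min_pow | apply sp_log2 | apply SP.add | apply SP.sub
      | apply SP.mul | apply SP.div | apply SP.mod | apply SP.min | apply SP.fst | apply SP.snd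
      | apply SP.pair | (apply SP2.app; assumption) | (apply SP1.app; assumption)
      | (apply sp_app0; assumption)


theorem nw1 (hP : SPPar B P) (hC : SP2 B C) (hp : SP2 B Xp) (hm : SP2 B Xm) :
    SP2 B fun a => ((P a).nw (C a) (Xp a, Xm a)).1 := by
  unfold Par.nw
  refine SP2.intro ?_
  dsimp only
  with_reducible repeat' first
      | assumption | exact SP.const _ | exact SP.id | apply SPPar.x0 | apply SPPar.nwP
      | apply SPPar.nwM | apply SPPar.occR | apply SPPar.k1 | apply SPPar.Cm | apply SPPar.grn
      | apply SPPar.occ | apply SPPar.k0 | apply SPPar.wk1 | apply SPPar.wk2 | apply SPWk.cnt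
      | apply SPPar.inf | apply SPPar.seedN | apply SPPar.Bm | apply SPPar.N | apply SPPar.Pq
      | apply SPPar.Pg | apply SPPar.Q | apply SPPar.om | apply SPPar.p | apply SPPar.Pd
      | apply SPPar.D | apply SPPar.K | apply SPPar.e | apply SPPar.Pe | apply SPPar.Pf
      | apply SPPar.nl | apply SPPar.E3 | apply SPPar.PQ | apply SPPar.M' | apply SPPar.R
      | (apply SPPar.comp; assumption) | apply SP1.intro | apply SP2.intro | apply SP.ite
      | apply SP.decide_or | apply SP.decide_and | apply SP.decide_true | apply SP.decide_eq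
      | apply SP.decide_ne | apply SP.decide_lt | apply SP.decide_le | apply SP.decide_not
      | apply SP.or | apply SP.and | apply SP.sum_range | apply SP.div_pow | apply SP.min_pow
      | apply sp_log2 | apply SP.add | apply SP.sub | apply SP.mul | apply SP.div | apply SP.mod
      | apply SP.min | apply SP.fst | apply SP.snd | apply SP.pair | (apply SP2.app; assumption)
      | (apply SP1.app; assumption) | (apply sp_app0; assumption)

theorem nw2 (hP : SPPar B P) (hC : SP2 B C) (hp : SP2 B Xp) (hm : SP2 B Xm) :
    SP2 B fun a => ((P a).nw (C a) (Xp a, Xm a)).2 := by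
  unfold Par.nw
  refine SP2.intro ?_
  dsimp only
  with_reducible repeat' first
      | assumption | exact SP.const _ | exact SP.id | apply SPPar.x0 | apply SPPar.nwP
      | apply SPPar.nwM | apply SPPar.occR | apply SPPar.k1 | apply SPPar.Cm | apply SPPar.grn
      | apply SPPar.occ | apply SPPar.k0 | apply SPPar.wk1 | apply SPPar.wk2 | apply SPWk.cnt
      | apply SPPar.inf | apply SPPar.seedN | apply SPPar.Bm | apply SPPar.N | apply SPPar.Pq
      | apply SPPar.Pg | apply SPPar.Q | apply SPPar.om | apply SPPar.p | apply SPPar.Pd
      | apply SPPar.D | apply SPPar.K | apply SPPar.e | apply SPPar.Pe | apply SPPar.Pf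
      | apply SPPar.nl | apply SPPar.E3 | apply SPPar.PQ | apply SPPar.M' | apply SPPar.R
      | (apply SPPar.comp; assumption) | apply SP1.intro | apply SP2.intro | apply SP.ite
      | apply SP.decide_or | apply SP.decide_and | apply SP.decide_true | apply SP.decide_eq
      | apply SP.decide_ne | apply SP.decide_lt | apply SP.decide_le | apply SP.decide_not
      | apply SP.or | apply SP.and | apply SP.sum_range | apply SP.div_pow | apply SP.min_pow
      | apply sp_log2 | apply SP.add | apply SP.sub | apply SP.mul | apply SP.div | apply SP.mod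
      | apply SP.min | apply SP.fst | apply SP.snd | apply SP.pair | (apply SP2.app; assumption)
      | (apply SP1.app; assumption) | (apply sp_app0; assumption)

theorem newA (hP : SPPar B P) (hx : SP B x) (hM : SP2 B M) (hC : SP2 B C) (hp : SP2 B Xp)
    (hm : SP2 B Xm) : SP2 B fun a => (P a).newA (x a) (M a) (C a) (Xp a, Xm a) := by
  unfold Par.newA
  refine SP2.intro ?_
  dsimp only
  with_reducible repeat' first
      | assumption | exact SP.const _ | exact SP.id | apply SPPar.x0 | apply SPPar.nwP
      | apply SPPar.nwM | apply SPPar.occR | apply SPPar.k1 | apply SPPar.Cm | apply SPPar.grn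
      | apply SPPar.occ | apply SPPar.k0 | apply SPPar.wk1 | apply SPPar.wk2 | apply SPWk.cnt
      | apply SPPar.inf | apply SPPar.seedN | apply SPPar.Bm | apply SPPar.N | apply SPPar.Pq
      | apply SPPar.Pg | apply SPPar.Q | apply SPPar.om | apply SPPar.p | apply SPPar.Pd
      | apply SPPar.D | apply SPPar.K | apply SPPar.e | apply SPPar.Pe | apply SPPar.Pf
      | apply SPPar.nl | apply SPPar.E3 | apply SPPar.PQ | apply SPPar.M' | apply SPPar.R
      | (apply SPPar.comp; assumption) | apply SP1.intro | apply SP2.intro | apply SP.ite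
      | apply SP.decide_or | apply SP.decide_and | apply SP.decide_true | apply SP.decide_eq
      | apply SP.decide_ne | apply SP.decide_lt | apply SP.decide_le | apply SP.decide_not
      | apply SP.or | apply SP.and | apply SP.sum_range | apply SP.div_pow | apply SP.min_pow
      | apply sp_log2 | apply SP.add | apply SP.sub | apply SP.mul | apply SP.div | apply SP.mod
      | apply SP.min | apply SP.fst | apply SP.snd | apply SP.pair | (apply SP2.app; assumption)
      | (apply SP1.app; assumption) | (apply sp_app0; assumption)

theorem newn (hP : SPPar B P) (hM : SP2 B M) (hn : SP1 B n) (hk : SP1 B k) (hh : SP1 B nh) :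
    SP1 B fun a => (P a).newn (M a) (n a) (k a) (nh a) := by
  unfold Par.newn
  with_reducible repeat' first
      | assumption | exact SP.const _ | exact SP.id | apply SPPar.x0 | apply SPPar.nwP
      | apply SPPar.nwM | apply SPPar.occR | apply SPPar.k1 | apply SPPar.Cm | apply SPPar.grn
      | apply SPPar.occ | apply SPPar.k0 | apply SPPar.wk1 | apply SPPar.wk2 | apply SPWk.cnt
      | apply SPPar.inf | apply SPPar.seedN | apply SPPar.Bm | apply SPPar.N | apply SPPar.Pq
      | apply SPPar.Pg | apply SPPar.Q | apply SPPar.om | apply SPPar.p | apply SPPar.Pd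
      | apply SPPar.D | apply SPPar.K | apply SPPar.e | apply SPPar.Pe | apply SPPar.Pf
      | apply SPPar.nl | apply SPPar.E3 | apply SPPar.PQ | apply SPPar.M' | apply SPPar.R
      | (apply SPPar.comp; assumption) | apply SP1.intro | apply SP2.intro | apply SP.ite
      | apply SP.decide_or | apply SP.decide_and | apply SP.decide_true | apply SP.decide_eq
      | apply SP.decide_ne | apply SP.decide_lt | apply SP.decide_le | apply SP.decide_not
      | apply SP.or | apply SP.and | apply SP.sum_range | apply SP.div_pow | apply SP.min_pow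
      | apply sp_log2 | apply SP.add | apply SP.sub | apply SP.mul | apply SP.div | apply SP.mod
      | apply SP.min | apply SP.fst | apply SP.snd | apply SP.pair | (apply SP2.app; assumption)
      | (apply SP1.app; assumption) | (apply sp_app0; assumption)

theorem aK (hP : SPPar B P) (hdg : SP1 B dg) (hδ : SP1 B δ) (hM : SP2 B M) (hn : SP1 B n) :
    SP1 B fun a => (P a).aK (dg a) (δ a) (M a) (n a) := by
  unfold Par.aK
  with_reducible repeat' first
      | assumption | exact SP.const _ | exact SP.id | apply SPPar.x0 | apply SPPar.nwP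
      | apply SPPar.nwM | apply SPPar.occR | apply SPPar.k1 | apply SPPar.Cm | apply SPPar.grn
      | apply SPPar.occ | apply SPPar.k0 | apply SPPar.wk1 | apply SPPar.wk2 | apply SPWk.cnt
      | apply SPPar.inf | apply SPPar.seedN | apply SPPar.Bm | apply SPPar.N | apply SPPar.Pq
      | apply SPPar.Pg | apply SPPar.Q | apply SPPar.om | apply SPPar.p | apply SPPar.Pd
      | apply SPPar.D | apply SPPar.K | apply SPPar.e | apply SPPar.Pe | apply SPPar.Pf
      | apply SPPar.nl | apply SPPar.E3 | apply SPPar.PQ | apply SPPar.M' | apply SPPar.R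
      | (apply SPPar.comp; assumption) | apply SP1.intro | apply SP2.intro | apply SP.ite
      | apply SP.decide_or | apply SP.decide_and | apply SP.decide_true | apply SP.decide_eq
      | apply SP.decide_ne | apply SP.decide_lt | apply SP.decide_le | apply SP.decide_not
      | apply SP.or | apply SP.and | apply SP.sum_range | apply SP.div_pow | apply SP.min_pow
      | apply sp_log2 | apply SP.add | apply SP.sub | apply SP.mul | apply SP.div | apply SP.mod
      | apply SP.min | apply SP.fst | apply SP.snd | apply SP.pair | (apply SP2.app; assumption)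
      | (apply SP1.app; assumption) | (apply sp_app0; assumption)

theorem aH (hP : SPPar B P) (hdg : SP1 B dg) (hδ : SP1 B δ) (hM : SP2 B M) (hn : SP1 B n) :
    SP1 B fun a => (P a).aH (dg a) (δ a) (M a) (n a) := by
  have hK := hP.aK hdg hδ hM hn
  generalize hk : (fun a => (P a).aK (dg a) (δ a) (M a) (n a)) = k at hK
  have h : SP1 B fun a v => n a v + (P a).occR (dg a) (δ a 1) (M a) (n a) (k a) v := by
    with_reducible repeat' first
        | assumption | exact SP.const _ | exact SP.id | apply SPPar.x0 | apply SPPar.nwP
        | apply SPPar.nwM | apply SPPar.occR | apply SPPar.k1 | apply SPPar.Cm | apply SPPar.grn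
        | apply SPPar.occ | apply SPPar.k0 | apply SPPar.wk1 | apply SPPar.wk2 | apply SPWk.cnt
        | apply SPPar.inf | apply SPPar.seedN | apply SPPar.Bm | apply SPPar.N | apply SPPar.Pq
        | apply SPPar.Pg | apply SPPar.Q | apply SPPar.om | apply SPPar.p | apply SPPar.Pd
        | apply SPPar.D | apply SPPar.K | apply SPPar.e | apply SPPar.Pe | apply SPPar.Pf
        | apply SPPar.nl | apply SPPar.E3 | apply SPPar.PQ | apply SPPar.M' | apply SPPar.R
        | (apply SPPar.comp; assumption) | apply SP1.intro | apply SP2.intro | apply SP.ite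
        | apply SP.decide_or | apply SP.decide_and | apply SP.decide_true | apply SP.decide_eq
        | apply SP.decide_ne | apply SP.decide_lt | apply SP.decide_le | apply SP.decide_not
        | apply SP.or | apply SP.and | apply SP.sum_range | apply SP.div_pow | apply SP.min_pow
        | apply sp_log2 | apply SP.add | apply SP.sub | apply SP.mul | apply SP.div | apply SP.mod
        | apply SP.min | apply SP.fst | apply SP.snd | apply SP.pair | (apply SP2.app; assumption)
        | (apply SP1.app; assumption) | (apply sp_app0; assumption)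
  subst hk
  exact h

theorem aC (hP : SPPar B P) (hdg : SP1 B dg) (hδ : SP1 B δ) (hM : SP2 B M) (hn : SP1 B n) :
    SP2 B fun a => (P a).aC (dg a) (δ a) (M a) (n a) :=
  (hP.comp SP.fst').Cm (hM.app SP.fst'.fst SP.snd'.fst SP.snd'.snd)
    ((hP.aK hdg hδ hM hn).app SP.fst'.fst SP.snd') ((hP.aH hdg hδ hM hn).app SP.fst'.fst SP.snd')
    SP.snd'.fst SP.snd'.snd

theorem aX0 (hP : SPPar B P) (hdg : SP1 B dg) (hδ : SP1 B δ) (hM : SP2 B M) (hn : SP1 B n) :
    SP2 B fun a => ((P a).aX0 (dg a) (δ a) (M a) (n a)).1 := by
  have hC := hP.aC hdg hδ hM hn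
  have hH := hP.aH hdg hδ hM hn
  generalize hc : (fun a => (P a).aC (dg a) (δ a) (M a) (n a)) = C at hC
  generalize hh : (fun a => (P a).aH (dg a) (δ a) (M a) (n a)) = H at hH
  have h : SP2 B fun a u v =>
      if u < (P a).N ∧ v < (P a).N then (P a).x0 (dg a) (C a) (H a) u v else 0 := by
    with_reducible repeat' first
        | assumption | exact SP.const _ | exact SP.id | apply SPPar.x0 | apply SPPar.nwP
        | apply SPPar.nwM | apply SPPar.occR | apply SPPar.k1 | apply SPPar.Cm | apply SPPar.grn
        | apply SPPar.occ | apply SPPar.k0 | apply SPPar.wk1 | apply SPPar.wk2 | apply SPWk.cnt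
        | apply SPPar.inf | apply SPPar.seedN | apply SPPar.Bm | apply SPPar.N | apply SPPar.Pq
        | apply SPPar.Pg | apply SPPar.Q | apply SPPar.om | apply SPPar.p | apply SPPar.Pd
        | apply SPPar.D | apply SPPar.K | apply SPPar.e | apply SPPar.Pe | apply SPPar.Pf
        | apply SPPar.nl | apply SPPar.E3 | apply SPPar.PQ | apply SPPar.M' | apply SPPar.R
        | (apply SPPar.comp; assumption) | apply SP1.intro | apply SP2.intro | apply SP.ite
        | apply SP.decide_or | apply SP.decide_and | apply SP.decide_true | apply SP.decide_eq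
        | apply SP.decide_ne | apply SP.decide_lt | apply SP.decide_le | apply SP.decide_not
        | apply SP.or | apply SP.and | apply SP.sum_range | apply SP.div_pow | apply SP.min_pow
        | apply sp_log2 | apply SP.add | apply SP.sub | apply SP.mul | apply SP.div | apply SP.mod
        | apply SP.min | apply SP.fst | apply SP.snd | apply SP.pair | (apply SP2.app; assumption)
        | (apply SP1.app; assumption) | (apply sp_app0; assumption)
  subst hc hh
  exact h

end SPPar

/-- A computable family of data. -/
structure SPDat (B : Bud A) (d : α → Dat) : Prop where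
  P : SPPar B fun a => (d a).P
  j : SP B fun a => (d a).j
  dg : SP1 B fun a => (d a).dg
  sh : SP1 B fun a => (d a).sh
  len : SP B fun a => (d a).len
  M : SP2 B fun a => (d a).A
  n : SP1 B fun a => (d a).n
  X1 : SP2 B fun a => (d a).X.1
  X2 : SP2 B fun a => (d a).X.2

namespace SPDat

variable {d d' : α → Dat}

theorem hd (h : SPDat B d) {i : α → ℕ} (hi : SP B i) : SP B fun a => (d a).hd (i a) := by
  obtain ⟨⟨_, _, _, _, _, _, _, _, _, _, _, _, _, _⟩, _, -, -, _, -⟩ := h
  unfold Dat.hd
  with_reducible repeat' first
      | assumption | exact SP.const _ | exact SP.id | apply SP1.intro | apply SP2.intro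
      | apply SP.ite | apply SP.decide_or | apply SP.decide_and | apply SP.decide_true
      | apply SP.decide_eq | apply SP.decide_ne | apply SP.decide_lt | apply SP.decide_le
      | apply SP.decide_not | apply SP.or | apply SP.and | apply SP.sum_range | apply SP.div_pow
      | apply SP.min_pow | apply sp_log2 | apply SP.add | apply SP.sub | apply SP.mul
      | apply SP.div | apply SP.mod | apply SP.min | apply SP.fst | apply SP.snd | apply SP.pair
      | (apply SP2.app; assumption) | (apply SP1.app; assumption) | (apply sp_app0; assumption)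

theorem enc (h : SPDat B d) {k : α → ℕ} (hk : SP B k) : SP B fun a => (d a).enc (k a) := by
  have h8 : SP B fun a => k a / 8 := hk.div (SP.const 8)
  have h1 : SP B fun a => k a / 8 / (d a).P.N := h8.div h.P.N
  have h2 : SP B fun a => k a / 8 % (d a).P.N := h8.mod h.P.N
  have h3 := h.hd h8
  have h4 := h.dg.app SP.id h8
  have h5 := h.sh.app SP.id h8
  have h6 := h.M.app SP.id h1 h2
  have h7 := h.n.app SP.id h8
  have h8 := h.X1.app SP.id h1 h2
  have h9 := h.X2.app SP.id h1 h2
  unfold Dat.enc
  with_reducible repeat' first
      | assumption | exact SP.const _ | exact SP.id | apply SP1.intro | apply SP2.intro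
      | apply SP.ite | apply SP.decide_or | apply SP.decide_and | apply SP.decide_true
      | apply SP.decide_eq | apply SP.decide_ne | apply SP.decide_lt | apply SP.decide_le
      | apply SP.decide_not | apply SP.or | apply SP.and | apply SP.sum_range | apply SP.div_pow
      | apply SP.min_pow | apply sp_log2 | apply SP.add | apply SP.sub | apply SP.mul
      | apply SP.div | apply SP.mod | apply SP.min | apply SP.fst | apply SP.snd | apply SP.pair
      | (apply SP2.app; assumption) | (apply SP1.app; assumption) | (apply sp_app0; assumption)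

theorem comp (h : SPDat B d) {g : γ → α} (hg : SP B g) : SPDat B fun c => d (g c) :=
  ⟨h.P.comp hg, h.j.comp hg, h.dg.app (hg.comp SP.fst') SP.snd', h.sh.app (hg.comp SP.fst') SP.snd',
    h.len.comp hg, h.M.app (hg.comp SP.fst') SP.snd'.fst SP.snd'.snd,
    h.n.app (hg.comp SP.fst') SP.snd', h.X1.app (hg.comp SP.fst') SP.snd'.fst SP.snd'.snd,
    h.X2.app (hg.comp SP.fst') SP.snd'.fst SP.snd'.snd⟩

theorem δ (h : SPDat B d) : SP1 B fun a => (d a).δ :=
  h.sh.app SP.fst' (((SP.const 3).mul ((h.j.comp SP.fst').div
    ((h.P.nl.comp SP.fst').add (SP.const 2)))).add SP.snd')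

theorem layer_enc (h : SPDat B d) {k : α → ℕ} (hk : SP B k) :
    SP B fun a => (d a).layer.enc (k a) := by
  have hj : SP B fun a => (d a).j + 1 := h.j.add (SP.const 1)
  have hr : SP B fun a => (d a).j % ((d a).P.nl + 2) := h.j.mod (h.P.nl.add (SP.const 2))
  have hC := h.P.aC h.dg h.δ h.M h.n
  have h1 : SPDat B fun a => { d a with
      j := (d a).j + 1, X := (d a).P.aX0 (d a).dg (d a).δ (d a).A (d a).n } :=
    ⟨h.P, hj, h.dg, h.sh, h.len, h.M, h.n, h.P.aX0 h.dg h.δ h.M h.n, SP.const 0⟩
  have h2 : SPDat B fun a => { d a with
      j := (d a).j + 1, X := (d a).P.nw ((d a).P.aC (d a).dg (d a).δ (d a).A (d a).n) (d a).X } :=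
    ⟨h.P, hj, h.dg, h.sh, h.len, h.M, h.n, h.P.nw1 hC h.X1 h.X2, h.P.nw2 hC h.X1 h.X2⟩
  have h3 : SPDat B fun a => { d a with
      j := (d a).j + 1
      A := (d a).P.newA ((d a).δ 2) (d a).A ((d a).P.aC (d a).dg (d a).δ (d a).A (d a).n) (d a).X
      n := (d a).P.newn (d a).A (d a).n ((d a).P.aK (d a).dg (d a).δ (d a).A (d a).n)
        ((d a).P.aH (d a).dg (d a).δ (d a).A (d a).n) } :=
    ⟨h.P, hj, h.dg, h.sh, h.len, h.P.newA (h.δ.app SP.id (SP.const 2)) h.M hC h.X1 h.X2,
      h.P.newn h.M h.n (h.P.aK h.dg h.δ h.M h.n) (h.P.aH h.dg h.δ h.M h.n), h.X1, h.X2⟩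
  refine (SP.ite (hr.decide_eq (SP.const 0)) (h1.enc hk)
    (SP.ite (hr.decide_le h.P.nl) (h2.enc hk) (h3.enc hk))).congr fun a => ?_
  unfold Dat.layer
  split_ifs <;> rfl

end SPDat

theorem spDat_dec {T : α → ℕ → ℕ} (hT : SP1 B T) : SPDat B fun a => Dat.dec (T a) := by
  have h0 : ∀ i, SP B fun a => T a i := fun i => hT.app SP.id (SP.const i)
  unfold Dat.dec
  refine ⟨⟨h0 _, h0 _, h0 _, h0 _, h0 _, h0 _, h0 _, h0 _, h0 _, h0 _, h0 _, h0 _, h0 _, h0 _⟩,
    h0 _, SP1.intro ?_, SP1.intro ?_, h0 _, SP2.intro ?_, SP1.intro ?_, SP2.intro ?_,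
    SP2.intro ?_⟩ <;> dsimp only <;>
    with_reducible repeat' first
        | assumption | exact SP.const _ | exact SP.id | apply SP1.intro | apply SP2.intro
        | apply SP.ite | apply SP.decide_or | apply SP.decide_and | apply SP.decide_true
        | apply SP.decide_eq | apply SP.decide_ne | apply SP.decide_lt | apply SP.decide_le
        | apply SP.decide_not | apply SP.or | apply SP.and | apply SP.sum_range | apply SP.div_pow
        | apply SP.min_pow | apply sp_log2 | apply SP.add | apply SP.sub | apply SP.mul
        | apply SP.div | apply SP.mod | apply SP.min | apply SP.fst | apply SP.snd | apply SP.pair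
        | (apply SP2.app; assumption) | (apply SP1.app; assumption) | (apply sp_app0; assumption)

theorem sp_Phi : SP lenB fun p : Inp Bool × ℕ => Phi (cell p.1) p.2 :=
  (spDat_dec (T := fun p : Inp Bool × ℕ => cell p.1)
    (sp_cell SP.fst'.fst SP.snd')).layer_enc SP.snd'

end Vale.Agent.P313.F43
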