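import Vale.Agent.P313.F43.Alg
import Vale.Agent.P313.F43.Iter

/-! The pseudo-random walk is computed with polynomially bounded registers. -/

set_option linter.unusedTactic false
set_option linter.unreachableTactic false

namespace Vale.Agent.P313.F43

open Finset Vale.Agent.Lib.Space

variable {A : Type} {α β γ : Type} [Enc A α] [Enc A β] [Enc A γ] {B : Bud A}

/-- A computable family of functions of one number. -/
def SP1 (B : Bud A) (f : α → ℕ → β) : Prop := SP B fun p : α × ℕ => f p.1 p.2

/-- A computable family of functions of two numbers. -/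
def SP2 (B : Bud A) (f : α → ℕ → ℕ → β) : Prop := SP B fun p : α × ℕ × ℕ => f p.1 p.2.1 p.2.2

theorem SP1.intro {f : α → ℕ → β} (h : SP B fun p : α × ℕ => f p.1 p.2) : SP1 B f := h

theorem SP2.intro {f : α → ℕ → ℕ → β} (h : SP B fun p : α × ℕ × ℕ => f p.1 p.2.1 p.2.2) :
    SP2 B f := h

theorem SP1.app {f : α → ℕ → β} (h : SP1 B f) {g : γ → α} {x : γ → ℕ} (hg : SP B g)
    (hx : SP B x) : SP B fun c => f (g c) (x c) := SP.comp h (hg.pair hx)

theorem SP2.app {f : α → ℕ → ℕ → β} (h : SP2 B f) {g : γ → α} {x y : γ → ℕ} (hg : SP B g)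
    (hx : SP B x) (hy : SP B y) : SP B fun c => f (g c) (x c) (y c) :=
  SP.comp h (hg.pair (hx.pair hy))

theorem sp_app0 {f : α → β} (h : SP B f) {g : γ → α} (hg : SP B g) : SP B fun c => f (g c) :=
  h.comp hg

theorem sp_powmod {p g j : α → ℕ} (hp : SP B p) (hg : SP B g) (hj : SP B j) :
    SP B fun a => if p a = 0 then 0 else g a ^ j a % p a :=
  (SP.prod_mod (f := fun a _ => g a) hp hj (hg.comp SP.fst')).congr fun a => by simp

theorem sp_fpN {p D g c : α → ℕ} (hp : SP B p) (hD : SP B D) (hg : SP B g) (hc : SP B c) :
    SP B fun a => fpN (p a) (D a) (g a) (c a) := by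
  unfold fpN
  refine SP.mod (SP.sum_range hD (SP.mul ?_ (sp_powmod ?_ ?_ ?_))) hp <;>
    with_reducible repeat' first
        | assumption | exact SP.const _ | exact SP.id | apply SP1.intro | apply SP2.intro
        | apply SP.ite | apply SP.decide_or | apply SP.decide_and | apply SP.decide_true
        | apply SP.decide_eq | apply SP.decide_ne | apply SP.decide_lt | apply SP.decide_le
        | apply SP.decide_not | apply SP.or | apply SP.and | apply SP.sum_range | apply SP.div_pow
        | apply SP.min_pow | apply sp_log2 | apply SP.add | apply SP.sub | apply SP.mul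
        | apply SP.div | apply SP.mod | apply SP.min | apply SP.fst | apply SP.snd | apply SP.pair
        | (apply SP2.app; assumption) | (apply SP1.app; assumption) | (apply sp_app0; assumption)


theorem sp_hashN {p D c d : α → ℕ} {s : α → ℕ → ℕ} (hp : SP B p) (hD : SP B D) (hs : SP1 B s)
    (hc : SP B c) (hd : SP B d) : SP B fun a => hashN (p a) (D a) (s a) (c a) (d a) := by
  unfold hashN
  with_reducible repeat' first
      | assumption | exact SP.const _ | exact SP.id | apply sp_fpN | apply SP1.intro
      | apply SP2.intro | apply SP.ite | apply SP.decide_or | apply SP.decide_and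
      | apply SP.decide_true | apply SP.decide_eq | apply SP.decide_ne | apply SP.decide_lt
      | apply SP.decide_le | apply SP.decide_not | apply SP.or | apply SP.and | apply SP.sum_range
      | apply SP.div_pow | apply SP.min_pow | apply sp_log2 | apply SP.add | apply SP.sub
      | apply SP.mul | apply SP.div | apply SP.mod | apply SP.min | apply SP.fst | apply SP.snd
      | apply SP.pair | (apply SP2.app; assumption) | (apply SP1.app; assumption)
      | (apply sp_app0; assumption)

theorem sp_lev {t : α → ℕ} (ht : SP B t) : SP B fun a => lev (t a) := by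
  have h : SP B fun a => ∑ j ∈ range (t a),
      if t a % min (t a + 1) (2 ^ (j + 1)) = 0 then 1 else 0 := by
    with_reducible repeat' first
        | assumption | exact SP.const _ | exact SP.id | apply sp_fpN | apply SP1.intro
        | apply SP2.intro | apply SP.ite | apply SP.decide_or | apply SP.decide_and
        | apply SP.decide_true | apply SP.decide_eq | apply SP.decide_ne | apply SP.decide_lt
        | apply SP.decide_le | apply SP.decide_not | apply SP.or | apply SP.and
        | apply SP.sum_range | apply SP.div_pow | apply SP.min_pow | apply sp_log2 | apply SP.add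
        | apply SP.sub | apply SP.mul | apply SP.div | apply SP.mod | apply SP.min | apply SP.fst
        | apply SP.snd | apply SP.pair | (apply SP2.app; assumption) | (apply SP1.app; assumption)
        | (apply sp_app0; assumption)
  refine h.congr fun a => sum_congr rfl fun j _ => ?_
  rcases le_total (t a + 1) (2 ^ (j + 1)) with h1 | h1
  · rw [min_eq_left h1, Nat.mod_eq_of_lt (Nat.lt_succ_self _), Nat.mod_eq_of_lt h1]
  · rw [min_eq_right h1]


/-- A computable family of walks. -/
structure SPWk (B : Bud A) (W : α → Wk) : Prop where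
  N : SP B fun a => (W a).N
  PQ : SP B fun a => (W a).PQ
  om : SP B fun a => (W a).om
  p : SP B fun a => (W a).p
  Pd : SP B fun a => (W a).Pd
  D : SP B fun a => (W a).D
  T : SP B fun a => (W a).T
  n1 : SP1 B fun a => (W a).n
  B2 : SP2 B fun a => (W a).B
  rot1 : SP1 B fun a => (W a).rot
  kill2 : SP2 B fun a => (W a).kill

namespace SPWk

variable {W : α → Wk}

theorem comp (h : SPWk B W) {g : γ → α} (hg : SP B g) : SPWk B fun c => W (g c) :=
  ⟨h.N.comp hg, h.PQ.comp hg, h.om.comp hg, h.p.comp hg, h.Pd.comp hg, h.D.comp hg, h.T.comp hg,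
    h.n1.app (hg.comp SP.fst') SP.snd', h.B2.app (hg.comp SP.fst') SP.snd'.fst SP.snd'.snd,
    h.rot1.app (hg.comp SP.fst') SP.snd', h.kill2.app (hg.comp SP.fst') SP.snd'.fst SP.snd'.snd⟩

theorem n (h : SPWk B W) {x : α → ℕ} (hx : SP B x) : SP B fun a => (W a).n (x a) :=
  h.n1.app SP.id hx

theorem rot (h : SPWk B W) {x : α → ℕ} (hx : SP B x) : SP B fun a => (W a).rot (x a) :=
  h.rot1.app SP.id hx

theorem Bm (h : SPWk B W) {x y : α → ℕ} (hx : SP B x) (hy : SP B y) :
    SP B fun a => (W a).B (x a) (y a) := h.B2.app SP.id hx hy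

theorem kill (h : SPWk B W) {x y : α → ℕ} (hx : SP B x) (hy : SP B y) :
    SP B fun a => (W a).kill (x a) (y a) := h.kill2.app SP.id hx hy


theorem cdf (h : SPWk B W) {u v : α → ℕ} (hu : SP B u) (hv : SP B v) :
    SP B fun a => (W a).cdf (u a) (v a) := by
  unfold Wk.cdf
  with_reducible repeat' first
      | assumption | exact SP.const _ | exact SP.id | apply SPWk.N | apply SPWk.PQ | apply SPWk.om
      | apply SPWk.p | apply SPWk.Pd | apply SPWk.D | apply SPWk.T | apply SPWk.n | apply SPWk.rot
      | apply SPWk.Bm | apply SPWk.kill | (apply SPWk.comp; assumption) | apply sp_hashN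
      | apply sp_lev | apply sp_fpN | apply SP1.intro | apply SP2.intro | apply SP.ite
      | apply SP.decide_or | apply SP.decide_and | apply SP.decide_true | apply SP.decide_eq
      | apply SP.decide_ne | apply SP.decide_lt | apply SP.decide_le | apply SP.decide_not
      | apply SP.or | apply SP.and | apply SP.sum_range | apply SP.div_pow | apply SP.min_pow
      | apply sp_log2 | apply SP.add | apply SP.sub | apply SP.mul | apply SP.div | apply SP.mod
      | apply SP.min | apply SP.fst | apply SP.snd | apply SP.pair | (apply SP2.app; assumption)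
      | (apply SP1.app; assumption) | (apply sp_app0; assumption)

theorem off (h : SPWk B W) {u v : α → ℕ} (hu : SP B u) (hv : SP B v) :
    SP B fun a => (W a).off (u a) (v a) := by
  unfold Wk.off
  with_reducible repeat' first
      | assumption | exact SP.const _ | exact SP.id | apply SPWk.N | apply SPWk.PQ | apply SPWk.om
      | apply SPWk.p | apply SPWk.Pd | apply SPWk.D | apply SPWk.T | apply SPWk.n | apply SPWk.rot
      | apply SPWk.Bm | apply SPWk.kill | (apply SPWk.comp; assumption) | apply sp_hashN
      | apply sp_lev | apply sp_fpN | apply SP1.intro | apply SP2.intro | apply SP.ite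
      | apply SP.decide_or | apply SP.decide_and | apply SP.decide_true | apply SP.decide_eq
      | apply SP.decide_ne | apply SP.decide_lt | apply SP.decide_le | apply SP.decide_not
      | apply SP.or | apply SP.and | apply SP.sum_range | apply SP.div_pow | apply SP.min_pow
      | apply sp_log2 | apply SP.add | apply SP.sub | apply SP.mul | apply SP.div | apply SP.mod
      | apply SP.min | apply SP.fst | apply SP.snd | apply SP.pair | (apply SP2.app; assumption)
      | (apply SP1.app; assumption) | (apply sp_app0; assumption)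


theorem tgt (h : SPWk B W) {u v : α → ℕ} (hu : SP B u) (hv : SP B v) :
    SP B fun a => (W a).tgt (u a) (v a) := by
  unfold Wk.tgt
  with_reducible repeat' first
      | assumption | exact SP.const _ | exact SP.id | apply SPWk.cdf | apply SPWk.off
      | apply SPWk.N | apply SPWk.PQ | apply SPWk.om | apply SPWk.p | apply SPWk.Pd | apply SPWk.D
      | apply SPWk.T | apply SPWk.n | apply SPWk.rot | apply SPWk.Bm | apply SPWk.kill
      | (apply SPWk.comp; assumption) | apply sp_hashN | apply sp_lev | apply sp_fpN
      | apply SP1.intro | apply SP2.intro | apply SP.ite | apply SP.decide_or | apply SP.decide_and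
      | apply SP.decide_true | apply SP.decide_eq | apply SP.decide_ne | apply SP.decide_lt
      | apply SP.decide_le | apply SP.decide_not | apply SP.or | apply SP.and | apply SP.sum_range
      | apply SP.div_pow | apply SP.min_pow | apply sp_log2 | apply SP.add | apply SP.sub
      | apply SP.mul | apply SP.div | apply SP.mod | apply SP.min | apply SP.fst | apply SP.snd
      | apply SP.pair | (apply SP2.app; assumption) | (apply SP1.app; assumption)
      | (apply sp_app0; assumption)


theorem slot (h : SPWk B W) {u v : α → ℕ} (hu : SP B u) (hv : SP B v) :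
    SP B fun a => (W a).slot (u a) (v a) := by
  unfold Wk.slot
  with_reducible repeat' first
      | assumption | exact SP.const _ | exact SP.id | apply SPWk.tgt | apply SPWk.cdf
      | apply SPWk.off | apply SPWk.N | apply SPWk.PQ | apply SPWk.om | apply SPWk.p
      | apply SPWk.Pd | apply SPWk.D | apply SPWk.T | apply SPWk.n | apply SPWk.rot | apply SPWk.Bm
      | apply SPWk.kill | (apply SPWk.comp; assumption) | apply sp_hashN | apply sp_lev
      | apply sp_fpN | apply SP1.intro | apply SP2.intro | apply SP.ite | apply SP.decide_or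
      | apply SP.decide_and | apply SP.decide_true | apply SP.decide_eq | apply SP.decide_ne
      | apply SP.decide_lt | apply SP.decide_le | apply SP.decide_not | apply SP.or | apply SP.and
      | apply SP.sum_range | apply SP.div_pow | apply SP.min_pow | apply sp_log2 | apply SP.add
      | apply SP.sub | apply SP.mul | apply SP.div | apply SP.mod | apply SP.min | apply SP.fst
      | apply SP.snd | apply SP.pair | (apply SP2.app; assumption) | (apply SP1.app; assumption)
      | (apply sp_app0; assumption)


theorem step (h : SPWk B W) {t i : α → ℕ} {s : α → WS} (ht : SP B t) (hs : SP B s)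
    (hi : SP B i) : SP B fun a => (W a).step (t a) (s a) (i a) := by
  unfold Wk.step
  with_reducible repeat' first
      | assumption | exact SP.const _ | exact SP.id | apply SPWk.slot | apply SPWk.tgt
      | apply SPWk.cdf | apply SPWk.off | apply SPWk.N | apply SPWk.PQ | apply SPWk.om
      | apply SPWk.p | apply SPWk.Pd | apply SPWk.D | apply SPWk.T | apply SPWk.n | apply SPWk.rot
      | apply SPWk.Bm | apply SPWk.kill | (apply SPWk.comp; assumption) | apply sp_hashN
      | apply sp_lev | apply sp_fpN | apply SP1.intro | apply SP2.intro | apply SP.ite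
      | apply SP.decide_or | apply SP.decide_and | apply SP.decide_true | apply SP.decide_eq
      | apply SP.decide_ne | apply SP.decide_lt | apply SP.decide_le | apply SP.decide_not
      | apply SP.or | apply SP.and | apply SP.sum_range | apply SP.div_pow | apply SP.min_pow
      | apply sp_log2 | apply SP.add | apply SP.sub | apply SP.mul | apply SP.div | apply SP.mod
      | apply SP.min | apply SP.fst | apply SP.snd | apply SP.pair | (apply SP2.app; assumption)
      | (apply SP1.app; assumption) | (apply sp_app0; assumption)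

theorem code (h : SPWk B W) {y : α → WS × ℕ} (hy : SP B y) :
    SP B fun a => (W a).code (y a) := by
  unfold Wk.code
  with_reducible repeat' first
      | assumption | exact SP.const _ | exact SP.id | apply SPWk.slot | apply SPWk.tgt
      | apply SPWk.cdf | apply SPWk.off | apply SPWk.N | apply SPWk.PQ | apply SPWk.om
      | apply SPWk.p | apply SPWk.Pd | apply SPWk.D | apply SPWk.T | apply SPWk.n | apply SPWk.rot
      | apply SPWk.Bm | apply SPWk.kill | (apply SPWk.comp; assumption) | apply sp_hashN
      | apply sp_lev | apply sp_fpN | apply SP1.intro | apply SP2.intro | apply SP.ite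
      | apply SP.decide_or | apply SP.decide_and | apply SP.decide_true | apply SP.decide_eq
      | apply SP.decide_ne | apply SP.decide_lt | apply SP.decide_le | apply SP.decide_not
      | apply SP.or | apply SP.and | apply SP.sum_range | apply SP.div_pow | apply SP.min_pow
      | apply sp_log2 | apply SP.add | apply SP.sub | apply SP.mul | apply SP.div | apply SP.mod
      | apply SP.min | apply SP.fst | apply SP.snd | apply SP.pair | (apply SP2.app; assumption)
      | (apply SP1.app; assumption) | (apply sp_app0; assumption)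


end SPWk

theorem Wk.tgt_le_sp (W : Wk) (u z : ℕ) : W.tgt u z ≤ W.N := by
  unfold Wk.tgt
  refine (sum_le_card_nsmul _ _ 1 fun y _ => ?_).trans (by simp)
  split_ifs <;> simp

theorem Wk.step_le_sp (W : Wk) (τ : ℕ) (s : WS) (i : ℕ) {V : ℕ} (hN : W.N ≤ V) (hs : s.2.1 ≤ V) :
    (W.step τ s i).1.1.1 ≤ s.1 + τ + 1 ∧ (W.step τ s i).1.1.2.1 ≤ V ∧
      (W.step τ s i).1.1.2.2 ≤ s.2.2 + ∑ v ∈ range (V + 1), W.n v := by
  have h1 : ∀ v ≤ V, W.n v ≤ ∑ v ∈ range (V + 1), W.n v := fun v hv =>
    single_le_sum (f := W.n) (fun _ _ => Nat.zero_le _) (mem_range.2 (Nat.lt_succ_of_le hv))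
  have h2 := (W.tgt_le_sp s.2.1 (s.2.2 % W.PQ)).trans hN
  unfold Wk.step
  split_ifs with c1 c2 c3 c4 c5
  · simp only
    omega
  · simp only
    omega
  · have h3 := h1 _ hs
    have h4 : i % 2 * min (W.n s.2.1) (2 ^ (τ % (W.om + 1))) ≤ 1 * W.n s.2.1 :=
      Nat.mul_le_mul (by omega) (min_le_left _ _)
    simp only
    omega
  · simp only
    omega
  · simp only
    omega
  · have h3 := h1 _ h2
    have h4 : W.n (W.tgt s.2.1 (s.2.2 % W.PQ)) ≠ 0 := fun h => c5 (Or.inr (Or.inl h))
    have h5 := Nat.mod_lt (W.slot s.2.1 s.2.2) (Nat.pos_of_ne_zero h4)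
    simp only
    omega

theorem hashN_le_sp (p D : ℕ) (s : ℕ → ℕ) (c d : ℕ) : hashN p D s c d ≤ p := by
  unfold hashN
  split_ifs with h
  · exact Nat.zero_le _
  all_goals exact (Nat.mod_lt _ (Nat.pos_of_ne_zero h)).le

theorem Wk.run_le_sp (W : Wk) (h : ℕ → ℕ → ℕ) (s : WS) (i τ : ℕ) :
    (W.run h s i τ).1.1 ≤ s.1 + τ * τ + τ ∧ (W.run h s i τ).1.2.1 ≤ s.2.1 + W.N ∧
      (W.run h s i τ).1.2.2 ≤ s.2.2 + τ * ∑ v ∈ range (s.2.1 + W.N + 1), W.n v ∧
      (W.run h s i τ).2 ≤ i + W.p := by
  induction τ with
  | zero => simp [Wk.run]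
  | succ τ ih =>
    obtain ⟨h1, h2, h3, -⟩ := ih
    obtain ⟨h4, h5, h6⟩ := W.step_le_sp τ (W.run h s i τ).1 (W.run h s i τ).2
      (Nat.le_add_left _ _) h2
    refine ⟨?_, h5, ?_, (hashN_le_sp _ _ _ _ _).trans (Nat.le_add_left _ _)⟩
    · exact h4.trans (by nlinarith)
    · exact h6.trans (by nlinarith)

theorem enc_four_le (y : WS × ℕ) {m : ℕ} (h1 : y.1.1 ≤ m) (h2 : y.1.2.1 ≤ m) (h3 : y.1.2.2 ≤ m)
    (h4 : y.2 ≤ m) : Enc.enc A y ≤ ((m + (m + m + 1) ^ 2 + 1) ^ 2 + m + 1) ^ 2 := by
  have e1 : Enc.enc A y.1.2 ≤ (m + m + 1) ^ 2 :=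
    (enc_prod_le _).trans (Nat.pow_le_pow_left (by simp only [enc_nat]; omega) 2)
  have e2 : Enc.enc A y.1 ≤ (m + (m + m + 1) ^ 2 + 1) ^ 2 :=
    (enc_prod_le _).trans (Nat.pow_le_pow_left (by simp only [enc_nat]; omega) 2)
  exact (enc_prod_le _).trans (Nat.pow_le_pow_left (by simp only [enc_nat]; omega) 2)

namespace SPWk

variable {W : α → Wk}

theorem run (hW : SPWk B W) {h : α → ℕ → ℕ → ℕ} (hh : SP2 B h) {s : α → WS} {i t : α → ℕ}
    (hs : SP B s) (hi : SP B i) (ht : SP B t) :
    SP B fun a => (W a).run (h a) (s a) (i a) (t a) := by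
  have key : ∀ (a : α) (k : ℕ), Nat.rec (motive := fun _ => WS × ℕ) (s a, i a)
      (fun τ y => (((W a).step τ y.1 y.2).1.1, hashN (W a).p (W a).D (h a (lev (τ + 1)))
        ((W a).code ((W a).step τ y.1 y.2).1) ((W a).step τ y.1 y.2).2)) k =
      (W a).run (h a) (s a) (i a) k := by
    intro a k
    induction k with
    | zero => rfl
    | succ k ih => simp only [ih, Wk.run]
  have hm : SP B fun a => (s a).1 + t a * t a + t a + ((s a).2.1 + (W a).N) +
      ((s a).2.2 + t a * ∑ v ∈ range ((s a).2.1 + (W a).N + 1), (W a).n v) + (i a + (W a).p) := by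
    with_reducible repeat' first
        | assumption | exact SP.const _ | exact SP.id | apply SPWk.step | apply SPWk.code
        | apply SPWk.slot | apply SPWk.tgt | apply SPWk.cdf | apply SPWk.off | apply SPWk.N
        | apply SPWk.PQ | apply SPWk.om | apply SPWk.p | apply SPWk.Pd | apply SPWk.D
        | apply SPWk.T | apply SPWk.n | apply SPWk.rot | apply SPWk.Bm | apply SPWk.kill
        | (apply SPWk.comp; assumption) | apply sp_hashN | apply sp_lev | apply sp_fpN
        | apply SP1.intro | apply SP2.intro | apply SP.ite | apply SP.decide_or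
        | apply SP.decide_and | apply SP.decide_true | apply SP.decide_eq | apply SP.decide_ne
        | apply SP.decide_lt | apply SP.decide_le | apply SP.decide_not | apply SP.or
        | apply SP.and | apply SP.sum_range | apply SP.div_pow | apply SP.min_pow | apply sp_log2
        | apply SP.add | apply SP.sub | apply SP.mul | apply SP.div | apply SP.mod | apply SP.min
        | apply SP.fst | apply SP.snd | apply SP.pair | (apply SP2.app; assumption)
        | (apply SP1.app; assumption) | (apply sp_app0; assumption)
  have hm' := hm.pbd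
  have hst : SP B fun p : α × ℕ × WS × ℕ => (((W p.1).step p.2.1 p.2.2.1 p.2.2.2).1.1,
      hashN (W p.1).p (W p.1).D (h p.1 (lev (p.2.1 + 1)))
        ((W p.1).code ((W p.1).step p.2.1 p.2.2.1 p.2.2.2).1)
        ((W p.1).step p.2.1 p.2.2.1 p.2.2.2).2) := by
    with_reducible repeat' first
        | assumption | exact SP.const _ | exact SP.id | apply SPWk.step | apply SPWk.code
        | apply SPWk.slot | apply SPWk.tgt | apply SPWk.cdf | apply SPWk.off | apply SPWk.N
        | apply SPWk.PQ | apply SPWk.om | apply SPWk.p | apply SPWk.Pd | apply SPWk.D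
        | apply SPWk.T | apply SPWk.n | apply SPWk.rot | apply SPWk.Bm | apply SPWk.kill
        | (apply SPWk.comp; assumption) | apply sp_hashN | apply sp_lev | apply sp_fpN
        | apply SP1.intro | apply SP2.intro | apply SP.ite | apply SP.decide_or
        | apply SP.decide_and | apply SP.decide_true | apply SP.decide_eq | apply SP.decide_ne
        | apply SP.decide_lt | apply SP.decide_le | apply SP.decide_not | apply SP.or
        | apply SP.and | apply SP.sum_range | apply SP.div_pow | apply SP.min_pow | apply sp_log2
        | apply SP.add | apply SP.sub | apply SP.mul | apply SP.div | apply SP.mod | apply SP.min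
        | apply SP.fst | apply SP.snd | apply SP.pair | (apply SP2.app; assumption)
        | (apply SP1.app; assumption) | (apply sp_app0; assumption)
  refine (SP.natRec (step := fun a τ y => (((W a).step τ y.1 y.2).1.1,
    hashN (W a).p (W a).D (h a (lev (τ + 1))) ((W a).code ((W a).step τ y.1 y.2).1)
      ((W a).step τ y.1 y.2).2)) ht (hs.pair hi) hst
    (((((hm'.add (((hm'.add hm').add (PBd.const 1)).pow 2)).add (PBd.const 1)).pow 2).add hm').add
      (PBd.const 1) |>.pow 2) fun x a _ k hk => ?_).congr fun a => key a _
  rw [key]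
  obtain ⟨h1, h2, h3, h4⟩ := (W a).run_le_sp (h a) (s a) (i a) k
  have h5 : k * k ≤ t a * t a := Nat.mul_le_mul hk hk
  have h6 : k * ∑ v ∈ range ((s a).2.1 + (W a).N + 1), (W a).n v ≤
      t a * ∑ v ∈ range ((s a).2.1 + (W a).N + 1), (W a).n v := Nat.mul_le_mul_right _ hk
  refine enc_four_le _ ?_ ?_ ?_ ?_ <;> simp only [enc_nat] <;> omega


theorem cnt (hW : SPWk B W) {h : α → ℕ → ℕ → ℕ} (hh : SP2 B h) {t u v : α → ℕ}
    (ht : SP B t) (hu : SP B u) (hv : SP B v) :
    SP B fun a => (W a).cnt (h a) (t a) (u a) (v a) := by
  unfold Wk.cnt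
  with_reducible repeat' first
      | assumption | exact SP.const _ | exact SP.id | apply SPWk.run | apply SPWk.step
      | apply SPWk.code | apply SPWk.slot | apply SPWk.tgt | apply SPWk.cdf | apply SPWk.off
      | apply SPWk.N | apply SPWk.PQ | apply SPWk.om | apply SPWk.p | apply SPWk.Pd | apply SPWk.D
      | apply SPWk.T | apply SPWk.n | apply SPWk.rot | apply SPWk.Bm | apply SPWk.kill
      | (apply SPWk.comp; assumption) | apply sp_hashN | apply sp_lev | apply sp_fpN
      | apply SP1.intro | apply SP2.intro | apply SP.ite | apply SP.decide_or | apply SP.decide_and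
      | apply SP.decide_true | apply SP.decide_eq | apply SP.decide_ne | apply SP.decide_lt
      | apply SP.decide_le | apply SP.decide_not | apply SP.or | apply SP.and | apply SP.sum_range
      | apply SP.div_pow | apply SP.min_pow | apply sp_log2 | apply SP.add | apply SP.sub
      | apply SP.mul | apply SP.div | apply SP.mod | apply SP.min | apply SP.fst | apply SP.snd
      | apply SP.pair | (apply SP2.app; assumption) | (apply SP1.app; assumption)
      | (apply sp_app0; assumption)


end SPWk

end Vale.Agent.P313.F43
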