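import Vale.Agent.P313.F43.TopDef
import Vale.Agent.P313.F43.Iter

/-! The tables of the iterated transducer hold the data of the layers. -/

namespace Vale.Agent.P313.F43

open Finset

namespace TabP

theorem enc_hd (D : Dat) (i : ℕ) : D.enc (8 * i) = D.hd i := by
  have h1 : 8 * i % 8 = 0 := by omega
  have h2 : 8 * i / 8 = i := by omega
  simp only [Dat.enc, h1, h2, if_true]

theorem enc_dg (D : Dat) (i : ℕ) : D.enc (8 * i + 1) = D.dg i := by
  have h1 : (8 * i + 1) % 8 = 1 := by omega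
  have h2 : (8 * i + 1) / 8 = i := by omega
  simp only [Dat.enc, h1, h2]
  rfl

theorem enc_sh (D : Dat) (i : ℕ) : D.enc (8 * i + 2) = D.sh i := by
  have h1 : (8 * i + 2) % 8 = 2 := by omega
  have h2 : (8 * i + 2) / 8 = i := by omega
  simp only [Dat.enc, h1, h2]
  rfl

theorem enc_n (D : Dat) (i : ℕ) : D.enc (8 * i + 4) = D.n i := by
  have h1 : (8 * i + 4) % 8 = 4 := by omega
  have h2 : (8 * i + 4) / 8 = i := by omega
  simp only [Dat.enc, h1, h2]
  rfl

theorem div_mod {N v : ℕ} (u : ℕ) (hv : v < N) : (u * N + v) / N = u ∧ (u * N + v) % N = v := by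
  rw [mul_comm]
  exact ⟨by rw [Nat.mul_add_div (by omega), Nat.div_eq_of_lt hv, add_zero],
    by rw [Nat.mul_add_mod, Nat.mod_eq_of_lt hv]⟩

theorem enc_A (D : Dat) (u : ℕ) {v : ℕ} (hv : v < D.P.N) :
    D.enc (8 * (u * D.P.N + v) + 3) = D.A u v := by
  have h1 : (8 * (u * D.P.N + v) + 3) % 8 = 3 := by omega
  have h2 : (8 * (u * D.P.N + v) + 3) / 8 = u * D.P.N + v := by omega
  simp only [Dat.enc, h1, h2, (div_mod u hv).1, (div_mod u hv).2]
  rfl

theorem enc_X1 (D : Dat) (u : ℕ) {v : ℕ} (hv : v < D.P.N) :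
    D.enc (8 * (u * D.P.N + v) + 5) = D.X.1 u v := by
  have h1 : (8 * (u * D.P.N + v) + 5) % 8 = 5 := by omega
  have h2 : (8 * (u * D.P.N + v) + 5) / 8 = u * D.P.N + v := by omega
  simp only [Dat.enc, h1, h2, (div_mod u hv).1, (div_mod u hv).2]
  rfl

theorem enc_X2 (D : Dat) (u : ℕ) {v : ℕ} (hv : v < D.P.N) :
    D.enc (8 * (u * D.P.N + v) + 6) = D.X.2 u v := by
  have h1 : (8 * (u * D.P.N + v) + 6) % 8 = 6 := by omega
  have h2 : (8 * (u * D.P.N + v) + 6) / 8 = u * D.P.N + v := by omega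
  simp only [Dat.enc, h1, h2, (div_mod u hv).1, (div_mod u hv).2]
  rfl

theorem enc_lt {D : Dat} {lam : ℕ} (h : D.Fits lam) (k : ℕ) : D.enc k < 2 ^ lam := by
  unfold Dat.enc
  split_ifs
  exacts [h.hd _, (h.dg _).1, (h.sh _).1, (h.A _ _).1, (h.n _).1, (h.X1 _ _).1, (h.X2 _ _).1]

theorem trunc_enc {D : Dat} {lam : ℕ} (h : D.Fits lam) {k : ℕ}
    (hk : k < 8 * (16 + D.len + D.P.N * D.P.N)) : trunc lam D.enc k = D.enc k := by
  rw [trunc_eq _ ((Nat.mul_le_mul_right _ hk).trans h.size), Nat.mod_eq_of_lt (enc_lt h k)]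

theorem pair_lt {N u v : ℕ} (hu : u < N) (hv : v < N) : u * N + v < N * N := by
  have h : (u + 1) * N ≤ N * N := Nat.mul_le_mul_right _ hu
  rw [add_mul, one_mul] at h
  omega

theorem dat_ext {D E : Dat} (h1 : D.P = E.P) (h2 : D.j = E.j) (h3 : D.dg = E.dg)
    (h4 : D.sh = E.sh) (h5 : D.len = E.len) (h6 : D.A = E.A) (h7 : D.n = E.n) (h8 : D.X = E.X) :
    D = E := by
  cases D
  cases E
  simp_all

end TabP

theorem Dat.Fits.dec_trunc {D : Dat} {lam : ℕ} (h : D.Fits lam) :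
    Dat.dec (trunc lam D.enc) = D := by
  have hh : ∀ i < 16, trunc lam D.enc (8 * i) = D.hd i := fun i hi => by
    rw [TabP.trunc_enc h (by omega), TabP.enc_hd]
  have h0 : trunc lam D.enc 0 = D.P.N := hh 0 (by omega)
  have h15 : trunc lam D.enc 120 = D.len := hh 15 (by omega)
  have hNN : D.P.N ≤ D.P.N * D.P.N := Nat.le_mul_self _
  refine TabP.dat_ext ?_ (hh 14 (by omega)) ?_ ?_ h15 ?_ ?_ (Prod.ext ?_ ?_)
  · have e : D.P = ⟨D.hd 0, D.hd 1, D.hd 2, D.hd 3, D.hd 4, D.hd 5, D.hd 6, D.hd 7, D.hd 8, D.hd 9,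
        D.hd 10, D.hd 11, D.hd 12, D.hd 13⟩ := rfl
    rw [e, ← hh 0 (by omega), ← hh 1 (by omega), ← hh 2 (by omega), ← hh 3 (by omega),
      ← hh 4 (by omega), ← hh 5 (by omega), ← hh 6 (by omega), ← hh 7 (by omega),
      ← hh 8 (by omega), ← hh 9 (by omega), ← hh 10 (by omega), ← hh 11 (by omega),
      ← hh 12 (by omega), ← hh 13 (by omega)]
    rfl
  · funext i
    simp only [Dat.dec, h15]
    split_ifs with hi
    · rw [TabP.trunc_enc h (by omega), TabP.enc_dg]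
    · exact ((h.dg i).2 (by omega)).symm
  · funext i
    simp only [Dat.dec, h15]
    split_ifs with hi
    · rw [TabP.trunc_enc h (by omega), TabP.enc_sh]
    · exact ((h.sh i).2 (by omega)).symm
  · funext u v
    simp only [Dat.dec, h0]
    split_ifs with hi
    · have := TabP.pair_lt hi.1 hi.2
      rw [TabP.trunc_enc h (by omega), TabP.enc_A _ _ hi.2]
    · exact ((h.A u v).2 hi).symm
  · funext v
    simp only [Dat.dec, h0]
    split_ifs with hi
    · rw [TabP.trunc_enc h (by omega), TabP.enc_n]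
    · exact ((h.n v).2 hi).symm
  · funext u v
    simp only [Dat.dec, h0]
    split_ifs with hi
    · have := TabP.pair_lt hi.1 hi.2
      rw [TabP.trunc_enc h (by omega), TabP.enc_X1 _ _ hi.2]
    · exact ((h.X1 u v).2 hi).symm
  · funext u v
    simp only [Dat.dec, h0]
    split_ifs with hi
    · have := TabP.pair_lt hi.1 hi.2
      rw [TabP.trunc_enc h (by omega), TabP.enc_X2 _ _ hi.2]
    · exact ((h.X2 u v).2 hi).symm

theorem tabs_Phi_eq {D : Dat} {lam : ℕ} {J : ℕ} (h : ∀ j ≤ J, (Dat.layer^[j] D).Fits lam) :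
    tabs Phi lam D.enc J = trunc lam (Dat.layer^[J] D).enc := by
  induction J with
  | zero => rfl
  | succ J ih =>
    rw [tabs, ih fun j hj => h j (by omega), Phi, (h J (by omega)).dec_trunc,
      Function.iterate_succ_apply']

namespace TabP

/-- The layers of the Newton iteration. -/
theorem iter_newton (E : Dat) {j : ℕ} (hj : E.j = j * (E.P.nl + 2)) (c : ℕ) (hc : c ≤ E.P.nl) :
    Dat.layer^[c + 1] E = { E with
      j := j * (E.P.nl + 2) + (c + 1)
      X := E.P.aX E.dg (fun a => E.sh (3 * j + a)) E.A E.n c } := by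
  induction c with
  | zero =>
    have h1 : E.j % (E.P.nl + 2) = 0 := by rw [hj, Nat.mul_mod_left]
    have h2 : E.δ = fun a => E.sh (3 * j + a) := by
      funext a
      rw [Dat.δ, hj, Nat.mul_div_cancel _ (by omega)]
    rw [zero_add, Function.iterate_one, Dat.layer, if_pos h1, h2, hj]
    rfl
  | succ c ih =>
    obtain ⟨h1, h2⟩ := div_mod (N := E.P.nl + 2) (v := c + 1) j (by omega)
    rw [Function.iterate_succ_apply', ih (by omega), Dat.layer, if_neg (by simp only [h2]; omega),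
      if_pos (by simp only [h2]; omega)]
    refine dat_ext rfl rfl rfl rfl rfl rfl rfl ?_
    simp only [Par.aX, Function.iterate_succ_apply']
    unfold Dat.δ
    simp only [h1]

/-- The layers of a stage. -/
theorem iter_stage (E : Dat) {j : ℕ} (hj : E.j = j * (E.P.nl + 2)) :
    Dat.layer^[E.P.nl + 2] E = { E with
      j := (j + 1) * (E.P.nl + 2)
      X := E.P.aX E.dg (fun a => E.sh (3 * j + a)) E.A E.n E.P.nl
      A := (E.P.stage E.dg (fun a => E.sh (3 * j + a)) (E.A, E.n)).1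
      n := (E.P.stage E.dg (fun a => E.sh (3 * j + a)) (E.A, E.n)).2 } := by
  obtain ⟨h1, h2⟩ := div_mod (N := E.P.nl + 2) (v := E.P.nl + 1) j (by omega)
  rw [Function.iterate_succ_apply', iter_newton E hj _ le_rfl, Dat.layer,
    if_neg (by simp only [h2]; omega), if_neg (by simp only [h2]; omega)]
  refine dat_ext rfl (by simp only; ring) rfl rfl rfl ?_ ?_ rfl
  · unfold Dat.δ
    simp only [h1, Par.stage]
  · unfold Dat.δ
    simp only [h1, Par.stage]

/-- The data at the beginning of a stage. -/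
theorem iter_all (D : Dat) (h0 : D.j = 0) (j : ℕ) : ∃ X, Dat.layer^[j * (D.P.nl + 2)] D =
    { D with
      j := j * (D.P.nl + 2)
      X := X
      A := (D.P.stages D.dg D.sh (D.A, D.n) j).1
      n := (D.P.stages D.dg D.sh (D.A, D.n) j).2 } ∧
    (X = D.X ∨ ∃ i < j, X = D.P.aX D.dg (fun a => D.sh (3 * i + a))
      (D.P.stages D.dg D.sh (D.A, D.n) i).1 (D.P.stages D.dg D.sh (D.A, D.n) i).2 D.P.nl) := by
  induction j with
  | zero =>
    refine ⟨D.X, ?_, Or.inl rfl⟩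
    rw [zero_mul, Function.iterate_zero_apply]
    exact dat_ext rfl h0 rfl rfl rfl rfl rfl rfl
  | succ j ih =>
    obtain ⟨X, hX, -⟩ := ih
    refine ⟨_, ?_, Or.inr ⟨j, by omega, rfl⟩⟩
    rw [show (j + 1) * (D.P.nl + 2) = D.P.nl + 2 + j * (D.P.nl + 2) by ring,
      Function.iterate_add_apply, hX]
    refine (iter_stage { D with
      j := j * (D.P.nl + 2)
      X := X
      A := (D.P.stages D.dg D.sh (D.A, D.n) j).1
      n := (D.P.stages D.dg D.sh (D.A, D.n) j).2 } (j := j) rfl).trans ?_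
    exact dat_ext rfl (by simp only; ring) rfl rfl rfl rfl rfl rfl

theorem aX_out (P : Par) (dg δ : ℕ → ℕ) (A : ℕ → ℕ → ℕ) (n : ℕ → ℕ) (l : ℕ) {u v : ℕ}
    (h : ¬(u < P.N ∧ v < P.N)) : (P.aX dg δ A n l).1 u v = 0 ∧ (P.aX dg δ A n l).2 u v = 0 := by
  cases l with
  | zero => exact ⟨if_neg h, rfl⟩
  | succ l =>
    rw [Par.aX, Function.iterate_succ_apply']
    exact ⟨if_neg h, if_neg h⟩

theorem fits_of {D : Dat} {q g d lam j : ℕ} (hP : D.P.WF q g d) (hF : D.Fits lam)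
    (hlam : 11 * d ≤ lam) (hj : j < 2 ^ lam) {s : (ℕ → ℕ → ℕ) × (ℕ → ℕ)} (hs : D.P.Inv s)
    {X : (ℕ → ℕ → ℕ) × (ℕ → ℕ → ℕ)} (hX : ∀ u v, X.1 u v < 2 ^ lam ∧ X.2 u v < 2 ^ lam)
    (hX0 : ∀ u v, ¬(u < D.P.N ∧ v < D.P.N) → X.1 u v = 0 ∧ X.2 u v = 0) :
    ({ D with j := j, X := X, A := s.1, n := s.2 } : Dat).Fits lam := by
  have hq := hP.q_lt
  have hz : 0 < 2 ^ lam := by positivity
  refine ⟨hF.size, fun i => ?_, hF.dg, hF.sh, fun u v => ⟨?_, hs.A_out u v⟩,
    fun v => ⟨?_, hs.n_out v⟩, fun u v => ⟨(hX u v).1, fun h => (hX0 u v h).1⟩,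
    fun u v => ⟨(hX u v).2, fun h => (hX0 u v h).2⟩⟩
  · by_cases hi : i = 14
    · subst hi
      exact hj
    · have h1 := hF.hd i
      simp only [Dat.hd, hi, if_false] at h1 ⊢
      exact h1
  · change s.1 u v < 2 ^ lam
    by_cases h : u < D.P.N ∧ v < D.P.N
    · have h1 := (single_le_sum (f := fun v => mat D.P.N s.1 D.P.Pq ⟨u, h.1⟩ v)
        (fun v _ => hs.sub.nonneg _ v) (mem_univ ⟨v, h.2⟩)).trans (hs.sub.row ⟨u, h.1⟩)
      simp only [mat] at h1
      rw [hP.Pq_eq, div_le_one (by positivity)] at h1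
      have h2 : s.1 u v ≤ 2 ^ q := by exact_mod_cast h1
      exact h2.trans_lt (Nat.pow_lt_pow_right (by omega) (by omega))
    · rw [hs.A_out u v h]
      exact hz
  · change s.2 v < 2 ^ lam
    by_cases h : v < D.P.N
    · refine (hs.le v h).trans_lt ?_
      rw [hP.Pq_eq, ← pow_add]
      exact Nat.pow_lt_pow_right (by omega) (by omega)
    · rw [hs.n_out v h]
      exact hz

end TabP

theorem layer_iter (D : Dat) (h0 : D.j = 0) (j : ℕ) :
    let E := Dat.layer^[j * (D.P.nl + 2)] D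
    E.P = D.P ∧ E.j = j * (D.P.nl + 2) ∧ E.dg = D.dg ∧ E.sh = D.sh ∧ E.len = D.len ∧
      (E.A, E.n) = D.P.stages D.dg D.sh (D.A, D.n) j := by
  obtain ⟨X, hX, -⟩ := TabP.iter_all D h0 j
  rw [hX]
  exact ⟨rfl, rfl, rfl, rfl, rfl, rfl⟩

theorem fits_layers {D : Dat} {q g d r lam : ℕ} (hP : D.P.WF q g d) (h0 : D.j = 0)
    (hF : D.Fits lam) (hlam : 11 * d ≤ lam) (hJ : r * (D.P.nl + 2) < 2 ^ lam)
    (hR : D.P.RunOK d r (D.A, D.n) D.dg D.sh) :
    ∀ j ≤ r * (D.P.nl + 2), (Dat.layer^[j] D).Fits lam := by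
  intro k hk
  have hpow : 2 ^ (11 * d) ≤ 2 ^ lam := Nat.pow_le_pow_right (by omega) hlam
  obtain ⟨j, c, hc, rfl⟩ : ∃ j c, c < D.P.nl + 2 ∧ k = c + j * (D.P.nl + 2) :=
    ⟨k / (D.P.nl + 2), k % (D.P.nl + 2), Nat.mod_lt _ (by omega), (Nat.mod_add_div' _ _).symm⟩
  have hjr : j ≤ r := Nat.le_of_mul_le_mul_right (le_trans (Nat.le_add_left _ _) hk) (by omega)
  obtain ⟨X, hX, hX'⟩ := TabP.iter_all D h0 j
  rw [Function.iterate_add_apply, hX]
  cases c with
  | zero =>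
    refine TabP.fits_of hP hF hlam (by omega) (hR.1 j hjr) ?_ ?_
    · rcases hX' with rfl | ⟨i, hi, rfl⟩
      · exact fun u v => ⟨(hF.X1 u v).1, (hF.X2 u v).1⟩
      · exact fun u v => ⟨(hR.2.1 i (by omega) _ le_rfl u v).1.trans_le hpow,
          (hR.2.1 i (by omega) _ le_rfl u v).2.trans_le hpow⟩
    · rcases hX' with rfl | ⟨i, hi, rfl⟩
      · exact fun u v h => ⟨(hF.X1 u v).2 h, (hF.X2 u v).2 h⟩
      · exact fun u v h => TabP.aX_out _ _ _ _ _ _ h
  | succ c =>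
    have hjr' : j < r := Nat.lt_of_mul_lt_mul_right (a := D.P.nl + 2) (by omega)
    rw [TabP.iter_newton _ (j := j) rfl c (by simp only; omega)]
    exact TabP.fits_of hP hF hlam (j := j * (D.P.nl + 2) + (c + 1)) (by omega) (hR.1 j hjr)
      (fun u v => ⟨(hR.2.1 j hjr' c (by omega) u v).1.trans_le hpow,
        (hR.2.1 j hjr' c (by omega) u v).2.trans_le hpow⟩)
      fun u v h => TabP.aX_out _ _ _ _ _ _ h

end Vale.Agent.P313.F43
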