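import Vale.Agent.P313.F43.Prob
import Vale.Agent.P313.F43.Tab
import Vale.Agent.P313.F43.ParamsA

/-! The decision procedure is correct. -/

namespace Vale.Agent.P313.F43

open Finset Matrix

namespace TopP

theorem digs_eq {T b : ℕ} (w : Fin (b ^ T)) : digs T b w = dgN (finFunctionFinEquiv.symm w) := by
  funext i
  unfold digs dgN
  split_ifs with h
  · rw [finFunctionFinEquiv_symm_apply_val]
  · rfl

theorem inv_of {P : Par} {q g d : ℕ} {s : (ℕ → ℕ → ℕ) × (ℕ → ℕ)} (hP : P.WF q g d)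
    (hsub : Sub (mat P.N s.1 P.Pq)) (hA : ∀ u v, ¬(u < P.N ∧ v < P.N) → s.1 u v = 0)
    (hn : ∀ v, s.2 v = if v < P.N then P.Pq * P.Pq else 0) : P.Inv s := by
  have hN := hP.two_le
  refine ⟨hsub, hA, fun v h => by rw [hn, if_neg h], fun v h => ⟨q + q, ?_⟩,
    fun v h => ?_, fun v h => by rw [hn, if_pos h], by rw [hn, if_pos (by omega)],
    fun v h => ?_⟩
  · rw [hn, if_pos h, hP.Pq_eq, pow_add]
  · have h1 : 2 ^ (2 * g + 10) ≤ 2 ^ q := le_trans (Nat.le_mul_of_pos_left _ (by omega)) hP.N_le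
    have h2 := (Nat.pow_le_pow_iff_right (by omega : 1 < 2)).1 h1
    rw [hn, if_pos h, Par.PQ, hP.Pq_eq, hP.Pg_eq]
    exact Nat.mul_le_mul_left _ (Nat.pow_le_pow_right (by omega) (by omega))
  · have h0 : v < P.N := by omega
    rw [hn, if_pos h0, Par.mu, dif_pos h0]
    push_cast
    exact mul_le_of_le_one_right (by positivity) (hsub.gr_le_one _ _)

variable {N : ℕ} {A0 : ℕ → ℕ → ℕ}

theorem mat_st0 (N : ℕ) (A0 : ℕ → ℕ → ℕ) : mat N (st0 N A0).1 (2 ^ pq N) = mat N A0 2 := by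
  funext u v
  obtain ⟨k, hk⟩ : ∃ k, pq N = k + 1 := ⟨pq N - 1, by unfold pq; omega⟩
  simp only [mat, st0, u.2, v.2, and_self, if_true, hk, Nat.add_sub_cancel]
  push_cast
  rw [pow_succ]
  field_simp

theorem inv_st0 (hN : 2 ≤ N) (hA : Sub (mat N A0 2)) : (par N).Inv (st0 N A0) := by
  refine inv_of (par_wf hN) ?_ (fun u v h => if_neg h) fun v => rfl
  rw [← mat_st0] at hA
  exact hA

theorem mu_st0 (hN : 2 ≤ N) : (par N).mu (st0 N A0).1 (N - 1) =
    gr (mat N A0 2) ⟨0, by omega⟩ ⟨N - 1, by omega⟩ := by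
  rw [← mat_st0]
  exact dif_pos (show N - 1 < N by omega)

theorem entry_le (hA : Sub (mat N A0 2)) : ∀ u < N, ∀ v < N, A0 u v ≤ 2 := by
  intro u hu v hv
  have h1 := (single_le_sum (f := fun v => mat N A0 2 ⟨u, hu⟩ v) (fun v _ => hA.nonneg _ v)
    (mem_univ ⟨v, hv⟩)).trans (hA.row ⟨u, hu⟩)
  simp only [mat] at h1
  rw [div_le_one (by norm_num)] at h1
  exact_mod_cast h1

theorem enc_A (D : Dat) {v : ℕ} (hv : v < D.P.N) : D.enc (8 * v + 3) = D.A 0 v := by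
  have h1 : (8 * v + 3) % 8 = 3 := by omega
  have h2 : (8 * v + 3) / 8 = v := by omega
  simp only [Dat.enc, h1, h2, Nat.div_eq_of_lt hv, Nat.mod_eq_of_lt hv]
  simp

/-- In a correct run the table contains the entry of the last matrix. -/
theorem tabs_run {D : Dat} {q g d r lam : ℕ} (hP : D.P.WF q g d) (h0 : D.j = 0)
    (hF : D.Fits lam) (hlam : 11 * d ≤ lam) (hJ : r * (D.P.nl + 2) < 2 ^ lam)
    (hR : D.P.RunOK d r (D.A, D.n) D.dg D.sh) :
    tabs Phi lam D.enc (r * (D.P.nl + 2)) (8 * (D.P.N - 1) + 3) =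
      (D.P.stages D.dg D.sh (D.A, D.n) r).1 0 (D.P.N - 1) := by
  have hN := hP.two_le
  have h1 := fits_layers hP h0 hF hlam hJ hR
  obtain ⟨e1, -, -, -, -, e2⟩ := layer_iter D h0 r
  have h2 : (8 * (D.P.N - 1) + 3 + 1) * lam ≤ 2 ^ lam := by
    refine le_trans (Nat.mul_le_mul_right _ ?_) hF.size
    have : D.P.N ≤ D.P.N * D.P.N := Nat.le_mul_self _
    omega
  rw [tabs_Phi_eq h1, trunc_eq _ h2, enc_A _ (by rw [e1]; omega), ← e2]
  exact Nat.mod_eq_of_lt ((h1 _ le_rfl).A _ _).1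

/-- In a correct run the vote is right. -/
theorem vote_run (hN : 2 ≤ N) (hA : Sub (mat N A0 2)) {w1 w2 : ℕ}
    (hR : (par N).RunOK (pd N) (pr N) (st0 N A0) (digs (par N).T0 (pp N) w1)
      (digs (3 * pr N) (pS N) w2)) :
    (1 / 2 ≤ (par N).mu (st0 N A0).1 (N - 1) → vote N A0 w1 w2 = 1) ∧
      ((par N).mu (st0 N A0).1 (N - 1) ≤ 1 / 3 → vote N A0 w1 w2 = 0) := by
  have h1 : tabs Phi (plam N) (dat0 N A0 w1 w2).enc (pJ N) (8 * (N - 1) + 3) =
      ((par N).stages (digs (par N).T0 (pp N) w1) (digs (3 * pr N) (pS N) w2) (st0 N A0)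
        (pr N)).1 0 (N - 1) :=
    tabs_run (D := dat0 N A0 w1 w2) (par_wf hN) rfl (dat0_fits hN (entry_le hA) w1 w2)
      (by unfold plam; omega) (pr_ok hN).2.2 hR
  have h2 : |((((par N).stages (digs (par N).T0 (pp N) w1) (digs (3 * pr N) (pS N) w2) (st0 N A0)
      (pr N)).1 0 (N - 1) : ℕ) : ℝ) / ((2 ^ pq N : ℕ) : ℝ) -
      (par N).mu (st0 N A0).1 (N - 1)| ≤ 1 / 50 := hR.2.2
  rw [vote, h1]
  generalize ((par N).stages (digs (par N).T0 (pp N) w1) (digs (3 * pr N) (pS N) w2) (st0 N A0)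
    (pr N)).1 0 (N - 1) = a at h2 ⊢
  generalize (par N).mu (st0 N A0).1 (N - 1) = m at h2 ⊢
  have h3 : 0 < 2 ^ pq N := by positivity
  generalize 2 ^ pq N = Z at h2 h3 ⊢
  have h4 : (0 : ℝ) < Z := by exact_mod_cast h3
  obtain ⟨h5, h6⟩ := abs_le.1 h2
  refine ⟨fun h => if_pos ?_, fun h => if_neg fun hc => ?_⟩
  · have h7 : (5 : ℝ) / 12 ≤ a / Z := by linarith
    rw [div_le_div_iff₀ (by norm_num) h4] at h7
    have h8 : (5 : ℝ) * Z ≤ 12 * a := by linarith
    exact_mod_cast h8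
  · have h7 : (a : ℝ) / Z < 5 / 12 := by linarith
    rw [div_lt_div_iff₀ h4 (by norm_num)] at h7
    have h8 : (5 : ℝ) * Z ≤ 12 * a := by exact_mod_cast hc
    linarith

theorem sum_range_pow {T b T' b' : ℕ} (f : ℕ → ℕ → ℕ) :
    ∑ w1 ∈ range (b ^ T), ∑ w2 ∈ range (b' ^ T'), f w1 w2 =
      ∑ w : (Fin T → Fin b) × (Fin T' → Fin b'),
        f (finFunctionFinEquiv w.1) (finFunctionFinEquiv w.2) := by
  rw [Fintype.sum_prod_type, sum_range,
    ← (finFunctionFinEquiv (m := b) (n := T)).sum_comp]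
  refine sum_congr rfl fun x _ => ?_
  rw [sum_range, ← (finFunctionFinEquiv (m := b') (n := T')).sum_comp]

open Classical in
theorem major {α : Type} [Fintype α] (G : α → Prop) (f : α → ℕ) {M : ℕ}
    (hM : M < 2 * (univ.filter G).card) (hc : Fintype.card α = M) (hf : ∀ w, f w ≤ 1) :
    ((∀ w, G w → f w = 1) → M < 2 * ∑ w, f w) ∧ ((∀ w, G w → f w = 0) → ¬M < 2 * ∑ w, f w) := by
  constructor
  · intro h
    refine hM.trans_le (Nat.mul_le_mul_left _ ?_)
    rw [card_eq_sum_ones]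
    refine le_trans (le_of_eq (sum_congr rfl fun w hw => (h w (mem_filter.1 hw).2).symm)) ?_
    exact sum_le_sum_of_subset (subset_univ _)
  · intro h
    have h1 := card_filter_add_card_filter_not (s := univ) G
    rw [card_univ, hc] at h1
    have h2 : ∑ w, f w ≤ (univ.filter fun w => ¬G w).card := by
      rw [← sum_filter_add_sum_filter_not univ G,
        sum_eq_zero fun w hw => h w (mem_filter.1 hw).2, zero_add, card_eq_sum_ones]
      exact sum_le_sum fun w _ => hf w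
    omega

end TopP

theorem dec43_spec {N : ℕ} (hN : 2 ≤ N) {A0 : ℕ → ℕ → ℕ} (hA : Sub (mat N A0 2)) :
    (1 / 2 ≤ gr (mat N A0 2) ⟨0, by omega⟩ ⟨N - 1, by omega⟩ → dec43 N A0 = true) ∧
    (gr (mat N A0 2) ⟨0, by omega⟩ ⟨N - 1, by omega⟩ ≤ 1 / 3 → dec43 N A0 = false) := by
  rw [← TopP.mu_st0 hN]
  have h1 := (par_wf hN).majority (TopP.inv_st0 hN hA) (pr_ok hN).1 (pr_ok hN).2.1
  have h2 := TopP.major (α := (Fin (par N).T0 → Fin (pp N)) × (Fin (3 * pr N) → Fin (pS N)))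
    (fun w => (par N).RunOK (pd N) (pr N) (st0 N A0) (dgN w.1) (dgN w.2))
    (fun w => vote N A0 (finFunctionFinEquiv w.1) (finFunctionFinEquiv w.2))
    (M := pp N ^ (par N).T0 * pS N ^ (3 * pr N)) h1 (by simp)
    (fun w => by unfold vote; split_ifs <;> omega)
  have h3 : ∀ w : (Fin (par N).T0 → Fin (pp N)) × (Fin (3 * pr N) → Fin (pS N)),
      (par N).RunOK (pd N) (pr N) (st0 N A0) (dgN w.1) (dgN w.2) →
      (par N).RunOK (pd N) (pr N) (st0 N A0) (digs (par N).T0 (pp N) (finFunctionFinEquiv w.1))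
        (digs (3 * pr N) (pS N) (finFunctionFinEquiv w.2)) := by
    intro w hw
    rw [TopP.digs_eq, TopP.digs_eq, Equiv.symm_apply_apply, Equiv.symm_apply_apply]
    exact hw
  rw [dec43, TopP.sum_range_pow]
  exact ⟨fun h => decide_eq_true (h2.1 fun w hw => (TopP.vote_run hN hA (h3 w hw)).1 h),
    fun h => decide_eq_false (h2.2 fun w hw => (TopP.vote_run hN hA (h3 w hw)).2 h)⟩

end Vale.Agent.P313.F43
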