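import Vale.Agent.P313.F43.WalkWF

/-! The walk with fresh labels: alive masses, idle times and flatness. -/

namespace Vale.Agent.P313.F43

open Finset

namespace Prog

variable {X Y : Type} {p : ℕ} [NeZero p] [DecidableEq X]

/-- One step with a fresh label, on test functions. -/
noncomputable def pull (P : Prog X Y p) (τ : ℕ) (f : X → ℝ) (x : X) : ℝ :=
  (∑ i : ZMod p, f (P.pi (P.step τ x i).1)) / p

theorem sum_push {P : Prog X Y p} {H D τ : ℕ} (hP : P.WF H D) (hτ : τ < H) (ν f : X → ℝ) :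
    ∑ z ∈ P.S (τ + 1), P.push τ ν z * f z = ∑ x ∈ P.S τ, ν x * P.pull τ f x := by
  simp only [push, pull, sum_mul]
  rw [sum_comm]
  refine sum_congr rfl fun x hx => ?_
  rw [sum_comm, sum_div, mul_sum]
  refine sum_congr rfl fun i _ => ?_
  have h1 := hP.pi_mem (τ + 1) hτ _ (hP.mem τ hτ x hx i)
  simp only [ite_mul, zero_mul]
  rw [sum_ite_eq, if_pos h1]
  ring

/-- `n` steps with fresh labels, on test functions. -/
noncomputable def pullN (P : Prog X Y p) (τ : ℕ) : ℕ → (X → ℝ) → X → ℝ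
  | 0, f => f
  | n + 1, f => pullN P τ n (P.pull (τ + n) f)

theorem sum_ideal {P : Prog X Y p} {H D : ℕ} (hP : P.WF H D) (ν : X → ℝ) (τ : ℕ) :
    ∀ (n : ℕ) (f : X → ℝ), τ + n ≤ H →
      ∑ z ∈ P.S (τ + n), P.ideal 0 ν (τ + n) z * f z =
        ∑ x ∈ P.S τ, P.ideal 0 ν τ x * P.pullN τ n f x
  | 0, _, _ => rfl
  | n + 1, f, h => by
    rw [pullN, ← sum_ideal hP ν τ n _ (by omega), ← add_assoc, ideal, zero_add]
    exact sum_push hP (by omega) _ _

theorem push_nonneg {P : Prog X Y p} {τ : ℕ} {ν : X → ℝ} (h : ∀ x ∈ P.S τ, 0 ≤ ν x) (z : X) :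
    0 ≤ P.push τ ν z :=
  sum_nonneg fun x hx => sum_nonneg fun i _ => by
    split_ifs
    · exact div_nonneg (h x hx) (Nat.cast_nonneg _)
    · exact le_rfl

theorem ideal_nonneg_zero {P : Prog X Y p} {ν : X → ℝ} (h : ∀ x, 0 ≤ ν x) :
    ∀ (n : ℕ) (z : X), 0 ≤ P.ideal 0 ν n z
  | 0, z => h z
  | n + 1, z => push_nonneg (fun x _ => ideal_nonneg_zero h n x) z

theorem sum_ideal_mass {P : Prog X Y p} {H D : ℕ} (hP : P.WF H D) (ν : X → ℝ) :
    ∀ n ≤ H, ∑ z ∈ P.S n, P.ideal 0 ν n z = ∑ x ∈ P.S 0, ν x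
  | 0, _ => rfl
  | n + 1, h => by
    have h1 := sum_push hP (τ := n) h (P.ideal 0 ν n) fun _ => 1
    have h2 : (p : ℝ) ≠ 0 := Nat.cast_ne_zero.2 (NeZero.ne p)
    simp only [mul_one, pull, sum_const, card_univ, ZMod.card, nsmul_eq_mul, div_self h2] at h1
    rw [ideal, zero_add, h1, sum_ideal_mass hP ν n (by omega)]

/-- If all states which lead to `z` have mass at most `b` and lead to the extended states in `E`,
then the new mass of `z` is at most `b` times the size of `E`. -/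
theorem push_le {P : Prog X Y p} {H D τ : ℕ} (hP : P.WF H D) (hτ : τ < H) {ν : X → ℝ} {z : X}
    {b : ℝ} (hb : 0 ≤ b) (E : Finset Y)
    (h : ∀ x ∈ P.S τ, ∀ i, P.pi (P.step τ x i).1 = z → ν x ≤ b ∧ (P.step τ x i).1 ∈ E) :
    P.push τ ν z ≤ E.card * b := by
  classical
  have h2 : (0 : ℝ) < p := Nat.cast_pos.2 (Nat.pos_of_ne_zero (NeZero.ne p))
  set A := (P.S τ ×ˢ (univ : Finset (ZMod p))).filter fun q => P.pi (P.step τ q.1 q.2).1 = z
    with hA
  have h3 : A.card ≤ (E ×ˢ (univ : Finset (ZMod p))).card := by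
    refine card_le_card_of_injOn (fun q => P.step τ q.1 q.2) (fun q hq => ?_) fun q hq q' hq' e => ?_
    · have h4 := mem_filter.1 (mem_coe.1 hq)
      exact mem_coe.2 (mem_product.2 ⟨(h _ (mem_product.1 h4.1).1 _ h4.2).2, mem_univ _⟩)
    · have h4 := (mem_product.1 (mem_filter.1 (mem_coe.1 hq)).1).1
      have h5 := (mem_product.1 (mem_filter.1 (mem_coe.1 hq')).1).1
      obtain ⟨h6, h7⟩ := hP.inj τ hτ _ h4 _ h5 _ _ e
      exact Prod.ext h6 h7
  have h4 : P.push τ ν z = ∑ q ∈ A, ν q.1 / p := by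
    rw [push, hA, sum_filter, sum_product]
  have h5 : ∑ q ∈ A, ν q.1 / p ≤ ∑ _q ∈ A, b / p := sum_le_sum fun q hq => by
    have h6 := mem_filter.1 hq
    exact div_le_div_of_nonneg_right (h _ (mem_product.1 h6.1).1 _ h6.2).1 h2.le
  rw [card_product, card_univ, ZMod.card] at h3
  have h6 : (A.card : ℝ) ≤ E.card * p := by exact_mod_cast h3
  rw [h4]
  refine h5.trans ?_
  rw [sum_const, nsmul_eq_mul]
  calc (A.card : ℝ) * (b / p) ≤ E.card * p * (b / p) :=
        mul_le_mul_of_nonneg_right h6 (div_nonneg hb h2.le)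
    _ = E.card * b := by field_simp

end Prog

theorem sum_zmod_val {p : ℕ} [NeZero p] (f : ℕ → ℝ) :
    ∑ i : ZMod p, f i.val = ∑ i ∈ range p, f i := by
  refine sum_bij (fun i _ => i.val) (fun i _ => mem_range.2 (ZMod.val_lt i))
    (fun i _ j _ h => ZMod.val_injective p h) (fun j hj => ?_) fun _ _ => rfl
  exact ⟨j, mem_univ _, ZMod.val_cast_of_lt (mem_range.1 hj)⟩

theorem sum_range_mod_two (g : ℕ → ℝ) (k : ℕ) :
    ∑ i ∈ range (2 * k), g (i % 2) = k * (g 0 + g 1) := by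
  induction k with
  | zero => simp
  | succ k ih =>
    rw [mul_add, mul_one, sum_range_succ, sum_range_succ, ih, Nat.mul_mod_right,
      Nat.mul_add_mod]
    push_cast
    ring

theorem setbit_eq {c x j b : ℕ} (hj : j < 2 ^ c) :
    x / 2 ^ c * 2 ^ c + j - (x / 2 ^ c * 2 ^ c + j) / 2 ^ c % 2 * 2 ^ c + b * 2 ^ c =
      x / 2 ^ (c + 1) * 2 ^ (c + 1) + (b * 2 ^ c + j) := by
  have h1 : (x / 2 ^ c * 2 ^ c + j) / 2 ^ c = x / 2 ^ c := by
    rw [add_comm, Nat.add_mul_div_right _ _ (by positivity), Nat.div_eq_of_lt hj, zero_add]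
  have h2 : x / 2 ^ (c + 1) = x / 2 ^ c / 2 := by rw [pow_succ, Nat.div_div_eq_div_mul]
  rw [h1, h2, pow_succ]
  generalize x / 2 ^ c = q
  have h3 : q * 2 ^ c = q / 2 * (2 ^ c * 2) + q % 2 * 2 ^ c := by
    conv_lhs => rw [← Nat.div_add_mod q 2]
    ring
  omega

namespace Wk

variable {W : Wk} {Q d H Em : ℕ}

theorem sum_SS_alive (τ : ℕ) {F : WS → ℝ} (hF : ∀ s : WS, s.1 ≠ 0 → F s = 0) :
    ∑ s ∈ W.SS τ, F s = ∑ u ∈ range W.N, ∑ x ∈ range (W.n u), F (0, u, x) := by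
  rw [sum_sigma']
  symm
  refine sum_of_injOn (fun z : Σ _ : ℕ, ℕ => ((0, z.1, z.2) : WS)) ?_ ?_ ?_ fun _ _ => rfl
  · rintro ⟨a, b⟩ _ ⟨a', b'⟩ _ h
    simp only [Prod.mk.injEq, true_and] at h
    rw [h.1, h.2]
  · intro z hz
    have h1 := mem_sigma.1 (mem_coe.1 hz)
    exact mem_coe.2 (mem_SS.2 ⟨Nat.zero_le _, mem_range.1 h1.1, mem_range.1 h1.2⟩)
  · intro s hs h
    refine hF s fun h0 => h ⟨⟨s.2.1, s.2.2⟩, ?_, Prod.ext h0.symm rfl⟩
    have h1 := mem_SS.1 hs
    exact mem_coe.2 (mem_sigma.2 ⟨mem_range.2 h1.2.1, mem_range.2 h1.2.2⟩)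

theorem pull_eq [NeZero W.p] (τ : ℕ) (f : WS → ℝ) (s : WS) :
    (W.prog Em).pull τ f s = (∑ i ∈ range W.p, f (W.step τ s i).1.1) / W.p := by
  rw [← sum_zmod_val]
  rfl

theorem pull_idle [NeZero W.p] {τ : ℕ} (f : WS → ℝ) {s : WS} (h : W.T ≤ τ ∨ s.1 ≠ 0) :
    (W.prog Em).pull τ f s = f s := by
  have h2 : (W.p : ℝ) ≠ 0 := Nat.cast_ne_zero.2 (NeZero.ne W.p)
  simp only [pull_eq, step, if_pos h, sum_const, card_range, nsmul_eq_mul]
  field_simp

theorem pullN_frozen [NeZero W.p] (τ : ℕ) {s : WS} (h : s.1 ≠ 0) :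
    ∀ (n : ℕ) (f : WS → ℝ), (W.prog Em).pullN τ n f s = f s
  | 0, _ => rfl
  | n + 1, f => by rw [Prog.pullN, pullN_frozen τ h n, pull_idle f (Or.inr h)]

theorem WF.pull_swap (h : W.WF Q d H Em) [NeZero W.p] {τ : ℕ} (hT : τ < W.T)
    (hc : τ % (W.om + 1) < W.om) {f : WS → ℝ} (hf : ∀ s : WS, s.1 ≠ 0 → f s = 0) {u : ℕ}
    (hu : u < W.N) (x : ℕ) :
    (W.prog Em).pull τ f (0, u, x) = (W.p - 1 : ℝ) / W.p *
      if τ % (W.om + 1) < W.rot u then
        (∑ b ∈ range 2, f (0, u, x - x / 2 ^ (τ % (W.om + 1)) % 2 * 2 ^ (τ % (W.om + 1)) +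
          b * 2 ^ (τ % (W.om + 1)))) / 2
      else f (0, u, x) := by
  obtain ⟨k, hk⟩ := h.prime.odd_of_ne_two h.odd.ne'
  have h1 : ¬(W.T ≤ τ ∨ ((0, u, x) : WS).1 ≠ 0) := by simpa using hT
  have h2 : (W.p - 1 : ℝ) = 2 * k := by rw [hk]; push_cast; ring
  have h3 : ∑ i ∈ range W.p, f (W.step τ (0, u, x) i).1.1 =
      ∑ i ∈ range (2 * k), f (W.step τ (0, u, x) i).1.1 := by
    have h4 : f (W.step τ (0, u, x) (2 * k)).1.1 = 0 := by
      refine hf _ ?_
      simp only [step, if_neg h1, if_pos hc, if_pos hk.symm]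
      exact Nat.succ_ne_zero _
    conv_lhs => rw [hk, sum_range_succ, h4, add_zero]
  rw [pull_eq, h3, h2]
  have h5 : ∀ i ∈ range (2 * k), ¬i + 1 = W.p := fun i hi => by
    have := mem_range.1 hi
    omega
  split_ifs with h6
  · have h7 : min (W.n u) (2 ^ (τ % (W.om + 1))) = 2 ^ (τ % (W.om + 1)) :=
      min_eq_right ((Nat.pow_le_pow_right two_pos h6.le).trans
        (Nat.le_of_dvd (h.pos u hu) (h.dvd u hu)))
    rw [sum_congr rfl fun i hi => by
      simp only [step, if_neg h1, if_pos hc, if_neg (h5 i hi), if_pos h6, h7]; rfl]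
    rw [sum_range_mod_two fun b => f (0, u, x - x / 2 ^ (τ % (W.om + 1)) % 2 *
      2 ^ (τ % (W.om + 1)) + b * 2 ^ (τ % (W.om + 1)))]
    simp only [sum_range_succ, sum_range_zero, zero_add]
    ring
  · rw [sum_congr rfl fun i hi => by
      simp only [step, if_neg h1, if_pos hc, if_neg (h5 i hi), if_neg h6]; rfl]
    rw [sum_const, card_range, nsmul_eq_mul]
    push_cast
    ring

/-- The effect of `c` swap steps on a test function which vanishes on frozen states. -/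
theorem WF.pullN_swap (h : W.WF Q d H Em) [NeZero W.p] {t : ℕ} (hT : (t + 1) * (W.om + 1) ≤ W.T)
    {u : ℕ} (hu : u < W.N) (x : ℕ) : ∀ c ≤ W.om, ∀ f : WS → ℝ, (∀ s : WS, s.1 ≠ 0 → f s = 0) →
      (W.prog Em).pullN (t * (W.om + 1)) c f (0, u, x) = ((W.p - 1 : ℝ) / W.p) ^ c *
        ((∑ j ∈ range (2 ^ min c (W.rot u)),
          f (0, u, x / 2 ^ min c (W.rot u) * 2 ^ min c (W.rot u) + j)) / 2 ^ min c (W.rot u))
  | 0, _, f, _ => by simp [Prog.pullN]
  | c + 1, hc, f, hf => by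
    have h1 : (t * (W.om + 1) + c) % (W.om + 1) = c := by
      rw [Nat.mul_add_mod_of_lt (by omega)]
    have h2 : t * (W.om + 1) + c < W.T := by
      rw [add_mul] at hT
      omega
    rw [Prog.pullN, WF.pullN_swap h hT hu x c (by omega) _
      fun s hs => by rw [pull_idle f (Or.inr hs), hf s hs]]
    simp only [h.pull_swap h2 (by omega) hf hu, h1]
    by_cases h3 : c < W.rot u
    · have h4 : min c (W.rot u) = c := min_eq_left h3.le
      have h5 : min (c + 1) (W.rot u) = c + 1 := min_eq_left h3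
      simp only [if_pos h3, h4, h5]
      rw [sum_congr rfl fun j hj => by simp only [setbit_eq (mem_range.1 hj)]; rfl]
      have h6 : 2 ^ (c + 1) = 2 ^ c + 2 ^ c := by ring
      rw [← mul_sum, ← sum_div, sum_comm, show range (2 ^ (c + 1)) = range (2 ^ c + 2 ^ c) by
        rw [h6], sum_range_add]
      simp only [sum_range_succ, sum_range_zero, zero_add, zero_mul, one_mul]
      ring
    · have h4 : min c (W.rot u) = W.rot u := min_eq_right (by omega)
      have h5 : min (c + 1) (W.rot u) = W.rot u := min_eq_right (by omega)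
      simp only [if_neg h3, h4, h5]
      rw [← mul_sum]
      ring

theorem tgt_eq_iff {u z v : ℕ} (hv : v < W.N) :
    W.tgt u z = v ↔ W.cdf u v ≤ z ∧ z < W.cdf u (v + 1) := by
  have key : ∀ w ≤ W.N, (∀ y < w, W.cdf u (y + 1) ≤ z) →
      (∀ y, w ≤ y → y < W.N → z < W.cdf u (y + 1)) → W.tgt u z = w := by
    intro w hw h1 h2
    obtain ⟨e, he⟩ := Nat.exists_eq_add_of_le hw
    rw [tgt, he, sum_range_add, sum_congr rfl fun y hy => if_pos (h1 y (mem_range.1 hy)),
      sum_congr rfl fun y hy => if_neg (not_le.2 (h2 (w + y) (by omega)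
        (by have := mem_range.1 hy; omega)))]
    simp
  have key2 : ∀ w < W.N, W.cdf u w ≤ z → z < W.cdf u (w + 1) → W.tgt u z = w := fun w hw h1 h2 =>
    key w hw.le (fun y hy => (W.cdf_mono u hy).trans h1)
      fun y hy _ => h2.trans_le (W.cdf_mono u (by omega))
  refine ⟨fun h => ?_, fun h => key2 v hv h.1 h.2⟩
  by_cases h1 : ∃ w, z < W.cdf u (w + 1) ∧ w < W.N
  · classical
    have h2 := Nat.find_spec h1
    have h3 : W.cdf u (Nat.find h1) ≤ z := by
      rcases Nat.eq_zero_or_pos (Nat.find h1) with h4 | h4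
      · rw [h4]; exact Nat.zero_le _
      · have h5 := Nat.find_min h1 (Nat.sub_lt h4 one_pos)
        rw [show Nat.find h1 - 1 + 1 = Nat.find h1 by omega] at h5
        exact not_lt.1 fun h6 => h5 ⟨h6, by omega⟩
    have h4 := key2 _ h2.2 h3 h2.1
    rw [← h, h4]
    exact ⟨h3, h2.1⟩
  · have h2 := key W.N le_rfl (fun y hy => not_lt.1 fun h3 => h1 ⟨y, h3, hy⟩)
      fun y h3 h4 => absurd h4 (not_lt.2 h3)
    omega

theorem WF.sum_tgt (h : W.WF Q d H Em) {u v : ℕ} (hu : u < W.N) (hv : v < W.N) :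
    ∑ z ∈ range W.PQ, (if W.tgt u z = v then (1 : ℝ) else 0) = W.B u v := by
  have h1 : (range W.PQ).filter (fun z => W.tgt u z = v) = Ico (W.cdf u v) (W.cdf u (v + 1)) := by
    ext z
    have h2 : W.cdf u (v + 1) ≤ W.PQ := (W.cdf_mono u (Nat.succ_le_of_lt hv)).trans (h.row u hu)
    simp only [mem_filter, mem_range, tgt_eq_iff hv, mem_Ico]
    omega
  rw [sum_boole, h1, Nat.card_Ico, cdf, cdf, sum_range_succ, Nat.add_sub_cancel_left]

theorem sum_range_mul_mod (g : ℕ → ℝ) (a k : ℕ) :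
    ∑ j ∈ range (a * k), g (j % a) = k * ∑ z ∈ range a, g z := by
  induction k with
  | zero => simp
  | succ k ih =>
    have h1 : ∀ j ∈ range a, g ((a * k + j) % a) = g j := fun j hj => by
      rw [Nat.mul_add_mod, Nat.mod_eq_of_lt (mem_range.1 hj)]
    rw [mul_add, mul_one, sum_range_add, ih, sum_congr rfl h1]
    push_cast
    ring

theorem WF.pull_move (h : W.WF Q d H Em) [NeZero W.p] {t : ℕ} (hT : (t + 1) * (W.om + 1) ≤ W.T)
    {v : ℕ} (hv : v < W.N) (u x : ℕ) :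
    (W.prog Em).pull (t * (W.om + 1) + W.om) (fun s => if s.1 = 0 ∧ s.2.1 = v then 1 else 0)
      (0, u, x) = if W.kill (t + 1) v = true then 0 else
        if W.tgt u (x % W.PQ) = v then 1 else 0 := by
  have h1 : (t * (W.om + 1) + W.om) % (W.om + 1) = W.om := by
    rw [Nat.mul_add_mod_of_lt (by omega)]
  have h2 : ¬(W.T ≤ t * (W.om + 1) + W.om ∨ ((0, u, x) : WS).1 ≠ 0) := by
    rw [add_mul] at hT
    simp only [ne_eq, not_true_eq_false, or_false, not_le]
    omega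
  have h3 : (t * (W.om + 1) + W.om) / (W.om + 1) = t := by
    rw [add_comm, Nat.add_mul_div_right _ _ (by omega), Nat.div_eq_of_lt (by omega), zero_add]
  have h4 : (W.p : ℝ) ≠ 0 := Nat.cast_ne_zero.2 (NeZero.ne W.p)
  have h5 := h.pos v hv
  simp only [pull_eq, step, if_neg h2, h1, h3, lt_irrefl, if_false]
  by_cases h6 : W.tgt u (x % W.PQ) = v
  · rw [h6]
    by_cases h7 : W.kill (t + 1) v = true
    · simp [h7]
    · have h8 : ¬(v = W.N ∨ W.n v = 0 ∨ W.kill (t + 1) v = true) := by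
        rintro (h8 | h8 | h8)
        · omega
        · omega
        · exact h7 h8
      simp only [if_neg h8, if_neg h7]
      simp [h4]
  · split_ifs <;> simp [h6]

theorem WF.al_step (h : W.WF Q d H Em) [NeZero W.p] (ν : WS → ℝ) {t : ℕ}
    (hT : (t + 1) * (W.om + 1) ≤ W.T) (hH : (t + 1) * (W.om + 1) ≤ H) {v : ℕ} (hv : v < W.N) :
    W.al ((W.prog Em).ideal 0 ν ((t + 1) * (W.om + 1))) v = if W.kill (t + 1) v = true then 0 else
      W.rho * ∑ u ∈ range W.N,
        W.al ((W.prog Em).ideal 0 ν (t * (W.om + 1))) u * W.B u v / W.PQ := by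
  have h1 : (t + 1) * (W.om + 1) = t * (W.om + 1) + (W.om + 1) := by ring
  have h2 := Prog.sum_ideal h.prog_wf ν (t * (W.om + 1)) (W.om + 1)
    (fun s => if s.1 = 0 ∧ s.2.1 = v then 1 else 0) (by omega)
  change ∑ z ∈ W.SS _, _ = ∑ z ∈ W.SS _, _ at h2
  rw [sum_SS_alive _ fun s hs => by simp [hs],
    sum_SS_alive _ fun s hs => by rw [pullN_frozen _ hs]; simp [hs],
    sum_eq_single_of_mem v (mem_range.2 hv) fun u _ hu => by simp [hu]] at h2
  simp only [and_self, if_true, mul_one] at h2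
  rw [h1, al, h2]
  have h3 : ∀ u ∈ range W.N, ∀ x, (W.prog Em).pullN (t * (W.om + 1)) (W.om + 1)
      (fun s => if s.1 = 0 ∧ s.2.1 = v then 1 else 0) (0, u, x) =
      if W.kill (t + 1) v = true then 0 else W.rho * (W.B u v / W.PQ) := by
    intro u hu x
    have hu := mem_range.1 hu
    rw [Prog.pullN, h.pullN_swap hT hu x W.om le_rfl _
      fun s hs => by rw [pull_idle _ (Or.inr hs)]; simp [hs]]
    simp only [h.pull_move hT hv, min_eq_right (h.rot_le u hu)]
    split_ifs with h4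
    · simp
    · obtain ⟨e, he⟩ := Nat.exists_eq_add_of_le (h.Q_le u hu)
      have h5 : 2 ^ W.rot u = W.PQ * 2 ^ e := by rw [he, h.PQ_eq, pow_add]
      have h6 : ((2 : ℝ) ^ W.rot u) = W.PQ * 2 ^ e := by exact_mod_cast h5
      have h7 : (W.PQ : ℝ) ≠ 0 := by rw [h.PQ_eq]; positivity
      rw [h6, h5, sum_congr rfl fun j _ => by
        rw [← mul_assoc, mul_right_comm, Nat.mul_add_mod_self_right],
        sum_range_mul_mod (fun z => if W.tgt u z = v then (1 : ℝ) else 0), h.sum_tgt hu hv, rho]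
      push_cast
      field_simp
  rw [sum_congr rfl fun u hu => sum_congr rfl fun x _ => by rw [h3 u hu x]]
  split_ifs
  · simp
  · rw [mul_sum]
    refine sum_congr rfl fun u _ => ?_
    rw [← sum_mul, al]
    ring

theorem WF.al_ideal (h : W.WF Q d H Em) [NeZero W.p] (ν : WS → ℝ) {t : ℕ}
    (hT : t * (W.om + 1) ≤ W.T) (hH : t * (W.om + 1) ≤ H) {v : ℕ} (hv : v < W.N) :
    W.al ((W.prog Em).ideal 0 ν (t * (W.om + 1))) v = W.vm (W.al ν) t v := by
  induction t generalizing v with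
  | zero => rw [zero_mul]; rfl
  | succ t ih =>
    have h1 : t * (W.om + 1) ≤ (t + 1) * (W.om + 1) := Nat.mul_le_mul_right _ (Nat.le_succ t)
    rw [h.al_step ν hT hH hv, vm,
      sum_congr rfl fun u hu => by rw [ih (h1.trans hT) (h1.trans hH) (mem_range.1 hu)]]

theorem WF.ideal_idle (h : W.WF Q d H Em) [NeZero W.p] (ν : WS → ℝ) {τ : ℕ}
    (hT : W.T ≤ τ) (hH : τ ≤ H) {s : WS} (hs : s ∈ W.SS τ) :
    (W.prog Em).ideal 0 ν τ s = if s ∈ W.SS W.T then (W.prog Em).ideal 0 ν W.T s else 0 := by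
  obtain ⟨n, rfl⟩ := Nat.exists_eq_add_of_le hT
  have h1 : ∀ (n : ℕ) (f : WS → ℝ), (W.prog Em).pullN W.T n f = f := by
    intro n
    induction n with
    | zero => exact fun _ => rfl
    | succ n ih =>
      intro f
      rw [Prog.pullN, ih]
      exact funext fun x => pull_idle f (Or.inl (Nat.le_add_right _ _))
  have h2 := Prog.sum_ideal h.prog_wf ν W.T n (fun z => if z = s then 1 else 0) hH
  change ∑ z ∈ W.SS _, _ = ∑ z ∈ W.SS _, _ at h2
  simpa only [h1, mul_ite, mul_one, mul_zero, sum_ite_eq', if_pos hs] using h2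

/-- Before a move the alive masses are uniform on the names of every vertex. -/
theorem WF.ideal_before_move (h : W.WF Q d H Em) [NeZero W.p] (ν : WS → ℝ) {t : ℕ}
    (hT : (t + 1) * (W.om + 1) ≤ W.T) (hH : t * (W.om + 1) + W.om ≤ H) {u x : ℕ} (hu : u < W.N)
    (hn : W.n u = 2 ^ W.rot u) (hx : x < W.n u) :
    (W.prog Em).ideal 0 ν (t * (W.om + 1) + W.om) (0, u, x) =
      W.rho * (W.vm (W.al ν) t u / W.n u) := by
  have h2 := Prog.sum_ideal h.prog_wf ν (t * (W.om + 1)) W.om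
    (fun z => if z = (0, u, x) then 1 else 0) hH
  have h3 : ∀ s : WS, s.1 ≠ 0 → (if s = (0, u, x) then (1 : ℝ) else 0) = 0 := fun s hs =>
    if_neg fun e => hs (by rw [e])
  change ∑ z ∈ W.SS _, _ = ∑ z ∈ W.SS _, _ at h2
  simp only [mul_ite, mul_one, mul_zero, sum_ite_eq',
    if_pos (mem_SS.2 ⟨Nat.zero_le _, hu, hx⟩ : ((0, u, x) : WS) ∈ W.SS _)] at h2
  rw [h2, sum_SS_alive _ fun s hs => by rw [pullN_frozen _ hs, h3 s hs, mul_zero],
    sum_eq_single_of_mem u (mem_range.2 hu) fun u' hu' e => sum_eq_zero fun x' _ => by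
      rw [h.pullN_swap hT (mem_range.1 hu') x' W.om le_rfl _ h3]
      simp [e]]
  have h4 : t * (W.om + 1) ≤ (t + 1) * (W.om + 1) := Nat.mul_le_mul_right _ (Nat.le_succ t)
  rw [← h.al_ideal ν (h4.trans hT) (by omega) hu, al, sum_div, mul_sum]
  refine sum_congr rfl fun x' hx' => ?_
  rw [h.pullN_swap hT hu x' W.om le_rfl _ h3, min_eq_right (h.rot_le u hu), ← hn,
    Nat.div_eq_of_lt (mem_range.1 hx')]
  have h5 : ((2 : ℝ) ^ W.rot u) = W.n u := by rw [hn]; push_cast; rfl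
  simp only [zero_mul, zero_add, Prod.mk.injEq, true_and, sum_ite_eq', mem_range, if_pos hx, h5,
    rho]
  ring

theorem WF.ideal_flat (h : W.WF Q d H Em) [NeZero W.p] (hn : ∀ v < W.N, W.n v = 2 ^ W.rot v)
    {θ : ℝ} (hθ : 1 ≤ θ) {t : ℕ} (hT : W.T = t * (W.om + 1))
    (hb : ∀ t' < t, ∀ v < W.N, W.vm (fun u => W.n u) t' v ≤ θ * W.n v) {τ : ℕ} (hH : τ ≤ H) :
    ∑ z ∈ W.SS τ, (W.prog Em).ideal 0 (fun _ => 1) τ z ^ 2 ≤
      (Em + 1) * θ * ∑ v ∈ range W.N, (W.n v : ℝ) := by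
  have h0 : (0 : ℝ) ≤ θ := by linarith
  have hM : θ ≤ (Em + 1) * θ := le_mul_of_one_le_left h0 (by linarith [Nat.cast_nonneg (α := ℝ) Em])
  have hal : W.al (fun _ => 1) = fun u => (W.n u : ℝ) := funext fun u => by simp [al]
  have hrho : 0 ≤ W.rho ∧ W.rho ≤ 1 := by
    have h1 : (1 : ℝ) ≤ W.p := by exact_mod_cast h.prime.one_le
    have h2 : (0 : ℝ) ≤ (W.p - 1) / W.p := div_nonneg (by linarith) (by linarith)
    exact ⟨pow_nonneg h2 _, pow_le_one₀ h2 (div_le_one_of_le₀ (by linarith) (by linarith))⟩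
  have key : ∀ τ ≤ H, ∀ z ∈ W.SS τ, (W.prog Em).ideal 0 (fun _ => 1) τ z ≤ (Em + 1) * θ := by
    intro τ
    induction τ with
    | zero => exact fun _ _ _ => hθ.trans hM
    | succ τ ih =>
      intro hτ z _
      rw [Prog.ideal, zero_add]
      by_cases h1 : z.1 = 0 ∧ τ < W.T ∧ ¬τ % (W.om + 1) < W.om
      · obtain ⟨h1, h2, h3⟩ := h1
        have h4 := Prog.push_le h.prog_wf hτ (ν := (W.prog Em).ideal 0 (fun _ => 1) τ) (z := z)
          h0 ({z} ×ˢ range (Em + 1)) fun s hs i e => ?_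
        · simpa using h4
        have h5 := mem_product.1 (h.prog_wf.mem τ hτ s hs i)
        refine ⟨?_, mem_product.2 ⟨mem_singleton.2 e, h5.2⟩⟩
        have h6 : s.1 = 0 := by
          by_contra h6
          change (W.step τ s i.val).1.1 = z at e
          rw [step, if_pos (Or.inr h6)] at e
          exact h6 (by rw [← h1, ← e])
        have h7 : τ % (W.om + 1) < W.om + 1 := Nat.mod_lt τ (Nat.succ_pos W.om)
        have h8 : τ = τ / (W.om + 1) * (W.om + 1) + W.om := by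
          have := Nat.div_add_mod' τ (W.om + 1)
          omega
        have h9 : τ / (W.om + 1) < t := Nat.div_lt_of_lt_mul (by rwa [mul_comm, ← hT])
        have h10 := mem_SS.1 hs
        have h11 : (0 : ℝ) < W.n s.2.1 := by exact_mod_cast h.pos _ h10.2.1
        have h12 := h.ideal_before_move (fun _ => 1) (t := τ / (W.om + 1))
          (hT ▸ Nat.mul_le_mul_right _ h9) (by omega) h10.2.1 (hn _ h10.2.1) h10.2.2
        rw [← h8, hal] at h12
        rw [show s = (0, s.2.1, s.2.2) from Prod.ext h6 rfl, h12]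
        have h13 := (div_le_iff₀ h11).2 (hb _ h9 _ h10.2.1)
        calc W.rho * _ ≤ W.rho * θ := mul_le_mul_of_nonneg_left h13 hrho.1
          _ ≤ θ := mul_le_of_le_one_left h0 hrho.2
      · have h4 := Prog.push_le h.prog_wf hτ (ν := (W.prog Em).ideal 0 (fun _ => 1) τ) (z := z)
          (h0.trans hM) {(z, 0)} fun s hs i e => ⟨ih (by omega) s hs, ?_⟩
        · simpa using h4
        refine mem_singleton.2 (Prod.ext e ?_)
        change (W.step τ s i.val).1.1 = z at e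
        change (W.step τ s i.val).1.2 = 0
        rw [step] at e ⊢
        split_ifs at e ⊢ with h5 h6
        all_goals first | rfl | exact absurd ⟨by rw [← e], by omega, h6⟩ h1
  have h1 := Prog.sum_ideal_mass h.prog_wf (fun _ : WS => (1 : ℝ)) τ hH
  change ∑ z ∈ W.SS _, _ = ∑ z ∈ W.SS _, _ at h1
  have h2 : ∑ z ∈ W.SS 0, (1 : ℝ) = ∑ v ∈ range W.N, (W.n v : ℝ) := by
    rw [sum_congr rfl (g := fun s : WS => if s.1 = 0 then (1 : ℝ) else 0) fun s hs =>
      (if_pos (Nat.le_zero.1 (mem_SS.1 hs).1)).symm, sum_SS_alive _ fun s hs => if_neg hs]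
    simp
  rw [← h2, ← h1, mul_sum]
  refine sum_le_sum fun z hz => ?_
  rw [sq]
  exact mul_le_mul_of_nonneg_right (key τ hH z hz) (Prog.ideal_nonneg_zero (fun _ => zero_le_one) τ z)

end Wk

end Vale.Agent.P313.F43
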