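import Vale.Agent.P313.F43.Gen
import Vale.Agent.P313.F43.WalkPath
import Vale.Agent.P313.F43.WalkIdeal

/-! The pseudo-random walk approximates the ideal walk. -/

namespace Vale.Agent.P313.F43

open Finset

namespace Wk

variable {W : Wk} {Q d H K Em : ℕ}

namespace EstP

theorem sum_zmod {p : ℕ} [NeZero p] (f : ℕ → ℝ) :
    ∑ i : ZMod p, f i.val = ∑ i ∈ range p, f i :=
  sum_nbij' (fun i => i.val) (fun n => (n : ZMod p)) (fun i _ => mem_range.2 i.val_lt)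
    (fun _ _ => mem_univ _) (fun i _ => ZMod.natCast_zmod_val i)
    (fun _ hn => ZMod.val_cast_of_lt (mem_range.1 hn)) fun _ _ => rfl

theorem sum_SS_zero (W : Wk) (f : WS → ℝ) :
    ∑ z ∈ W.SS 0, f z = ∑ u ∈ range W.N, ∑ x ∈ range (W.n u), f (0, u, x) := by
  rw [sum_sigma']
  refine sum_nbij' (fun z => ⟨z.2.1, z.2.2⟩) (fun y => (0, y.1, y.2)) (fun z hz => ?_)
    (fun y hy => ?_) (fun z hz => ?_) (fun _ _ => rfl) fun z hz => ?_
  · exact mem_sigma.2 ⟨mem_range.2 (mem_SS.1 hz).2.1, mem_range.2 (mem_SS.1 hz).2.2⟩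
  · exact mem_SS.2 ⟨le_rfl, mem_range.1 (mem_sigma.1 hy).1, mem_range.1 (mem_sigma.1 hy).2⟩
  · exact Prod.ext (Nat.le_zero.1 (mem_SS.1 hz).1).symm rfl
  · congr 1
    exact Prod.ext (Nat.le_zero.1 (mem_SS.1 hz).1) rfl

theorem sum_alive_le (W : Wk) {f : WS → ℝ} (hf : ∀ z, 0 ≤ f z) (τ : ℕ) :
    ∑ u ∈ range W.N, ∑ x ∈ range (W.n u), f (0, u, x) ≤ ∑ z ∈ W.SS τ, f z := by
  rw [← sum_SS_zero]
  exact sum_le_sum_of_subset_of_nonneg
    (fun z hz => mem_SS.2 ⟨(mem_SS.1 hz).1.trans (Nat.zero_le _), (mem_SS.1 hz).2⟩)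
    fun z _ _ => hf z

theorem al_sq_le (W : Wk) (f : WS → ℝ) (τ : ℕ) :
    ∑ v ∈ range W.N, W.al f v ^ 2 / W.n v ≤ ∑ z ∈ W.SS τ, f z ^ 2 := by
  refine le_trans (sum_le_sum fun v _ => ?_) (sum_alive_le W (fun z => sq_nonneg (f z)) τ)
  refine div_le_of_le_mul₀ (Nat.cast_nonneg _) (sum_nonneg fun _ _ => sq_nonneg _) ?_
  have := sq_sum_le_card_mul_sum_sq (s := range (W.n v)) (f := fun x => f (0, v, x))
  rwa [card_range, mul_comm] at this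

theorem al_abs_le (W : Wk) (f : WS → ℝ) (τ : ℕ) :
    ∑ v ∈ range W.N, |W.al f v| ≤ ∑ z ∈ W.SS τ, |f z| :=
  (sum_le_sum fun _ _ => abs_sum_le_sum_abs _ _).trans
    (sum_alive_le W (fun z => abs_nonneg (f z)) τ)

theorem al_sub (W : Wk) (f g : WS → ℝ) (v : ℕ) :
    W.al (fun z => f z - g z) v = W.al f v - W.al g v := sum_sub_distrib _ _

theorem run_mem (h : W.WF Q d H Em) (g : ℕ → ℕ → ℕ) {s : WS} (hs : s ∈ W.SS 0) (i τ : ℕ) :
    (W.run g s i τ).1 ∈ W.SS τ := by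
  induction τ with
  | zero => exact hs
  | succ τ ih => exact (h.step_mem ih _).1

theorem vm_congr {a a' : ℕ → ℝ} (h : ∀ u < W.N, a u = a' u) (t : ℕ) :
    ∀ v < W.N, W.vm a t v = W.vm a' t v := by
  induction t with
  | zero => exact h
  | succ t ih =>
    intro v _
    simp only [vm]
    rw [sum_congr rfl fun u hu => by rw [ih u (mem_range.1 hu)]]

theorem vm_time (T' : ℕ) (a : ℕ → ℝ) (t : ℕ) : ({ W with T := T' } : Wk).vm a t = W.vm a t := by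
  induction t with
  | zero => rfl
  | succ t ih =>
    funext v
    simp only [vm, ih]
    rfl

theorem wf_time (h : W.WF Q d H Em) (T' : ℕ) : ({ W with T := T' } : Wk).WF Q d H Em :=
  ⟨h.prime, h.odd, h.PQ_eq, h.Pd_eq, h.D_eq, h.Q_le, h.rot_le, h.dvd, h.pos, h.row, h.col, h.H_lt,
    h.N_le, h.n_le, h.Em_lt⟩

theorem al_act (h : W.WF Q d H Em) [NeZero W.p] {t : ℕ} (hT : W.T = t * (W.om + 1))
    (hH : W.T ≤ 2 ^ K) (s : Fin K → Sd W.p) (c : ℕ → ℝ) (v : ℕ) :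
    W.al ((W.prog Em).act K s 0 fun z => c z.2.1) v =
      ∑ u ∈ range W.N, c u * (W.cnt (hZ s) t u v / W.p) := by
  unfold al Prog.act
  rw [sum_comm]
  refine (sum_SS_zero W _).trans (sum_congr rfl fun u hu => ?_)
  rw [cnt, Nat.cast_sum, sum_div, mul_sum]
  refine sum_congr rfl fun x hx => ?_
  rw [sum_comm, Nat.cast_sum, sum_div, mul_sum, ← sum_zmod]
  refine sum_congr rfl fun i _ => ?_
  have h1 : (W.prog Em).pi ((W.prog Em).node K s 0 (0, u, x) i).1 =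
      (W.run (hZ s) (0, u, x) i.val (t * (W.om + 1))).1 :=
    (h.node_eq_run s _ i).trans (hT ▸ run_idle _ _ _ hH)
  have h2 := mem_SS.1 (run_mem h (hZ s) (s := (0, u, x))
    (mem_SS.2 ⟨le_rfl, mem_range.1 hu, mem_range.1 hx⟩) i.val (t * (W.om + 1)))
  rw [h1]
  generalize (W.run (hZ s) (0, u, x) i.val (t * (W.om + 1))).1 = z at h2
  obtain ⟨z1, z2, z3⟩ := z
  simp only [Prod.mk.injEq] at h2 ⊢
  by_cases h3 : z1 = 0 ∧ z2 = v
  · obtain ⟨rfl, rfl⟩ := h3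
    simp [h2.2.2, div_eq_mul_inv]
  · rw [if_neg h3, sum_eq_zero fun y _ => if_neg fun h4 => h3 ⟨h4.1, h4.2.1⟩]
    simp

theorem al_end (h : W.WF Q d (2 ^ K) Em) [NeZero W.p] {t : ℕ} (hT : W.T = t * (W.om + 1))
    (hH : W.T ≤ 2 ^ K) (ν : WS → ℝ) {v : ℕ} (hv : v < W.N) :
    W.al ((W.prog Em).ideal 0 ν (2 ^ K)) v = W.vm (W.al ν) t v := by
  rw [← h.al_ideal ν hT.ge (hT ▸ hH) hv, ← hT]
  refine sum_congr rfl fun x hx => ?_
  rw [h.ideal_idle ν hH le_rfl (mem_SS.2 ⟨Nat.zero_le _, hv, mem_range.1 hx⟩),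
    if_pos (mem_SS.2 ⟨Nat.zero_le _, hv, mem_range.1 hx⟩)]

theorem regular (h : W.WF Q d (2 ^ K) 0) {t : ℕ} (hT : W.T = t * (W.om + 1))
    (hH : W.T ≤ 2 ^ K) (a : ℕ → ℝ) :
    (Finset.expect univ fun s : Fin K → Fin 6 → Fin W.p =>
      √(∑ v ∈ range W.N, ((∑ u ∈ range W.N, a u * (W.cnt (hN s) t u v / (W.n u * W.p))) -
        W.vm a t v) ^ 2 / W.n v)) ≤
      2 ^ (K + 1) * √((1 + (W.D : ℝ) ^ 2) / W.p) * √(∑ u ∈ range W.N, a u ^ 2 / W.n u) := by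
  have : Fact W.p.Prime := ⟨h.prime⟩
  have hn : ∀ u < W.N, (W.n u : ℝ) ≠ 0 := fun u hu => Nat.cast_ne_zero.2 (h.pos u hu).ne'
  have h1 := (W.prog 0).regular h.prog_wf (fun τ _ y hy y' hy' e => Prod.ext e (by
    have h2 := mem_range.1 (mem_product.1 hy).2
    have h3 := mem_range.1 (mem_product.1 hy').2
    omega)) fun z => a z.2.1 / W.n z.2.1
  have h2 : ∑ z ∈ (W.prog 0).S 0, (a z.2.1 / W.n z.2.1) ^ 2 =
      ∑ u ∈ range W.N, a u ^ 2 / W.n u := by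
    refine (sum_SS_zero W _).trans (sum_congr rfl fun u hu => ?_)
    have := hn u (mem_range.1 hu)
    simp only [sum_const, card_range, nsmul_eq_mul]
    field_simp
  rw [h2] at h1
  rw [expect_hN fun g => √(∑ v ∈ range W.N,
    ((∑ u ∈ range W.N, a u * (W.cnt g t u v / (W.n u * W.p))) - W.vm a t v) ^ 2 / W.n v)]
  refine le_trans (expect_le_expect fun s _ => Real.sqrt_le_sqrt ?_) h1
  refine le_trans (le_of_eq (sum_congr rfl fun v hv => ?_)) (al_sq_le W _ (2 ^ K))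
  rw [al_sub, al_act h hT hH s fun u => a u / W.n u, al_end h hT hH _ (mem_range.1 hv),
    vm_congr (a := W.al fun z => a z.2.1 / W.n z.2.1) (a' := a) (fun u hu => ?_) t v
      (mem_range.1 hv)]
  · congr 3
    exact sum_congr rfl fun u _ => by ring
  · have := hn u hu
    simp only [al, sum_const, card_range, nsmul_eq_mul]
    field_simp

theorem lossy (h : W.WF Q d (2 ^ K) Em) (hn : ∀ v < W.N, W.n v = 2 ^ W.rot v)
    (hD : W.D ^ 2 ≤ W.p) {θ : ℝ} (hθ : 1 ≤ θ) {t : ℕ} (hT : W.T = t * (W.om + 1))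
    (hH : W.T ≤ 2 ^ K)
    (hb : ∀ t' < t, ∀ v < W.N, W.vm (fun u => W.n u) t' v ≤ θ * W.n v) :
    (Finset.expect univ fun s : Fin K → Fin 6 → Fin W.p =>
      ∑ v ∈ range W.N, |(∑ u ∈ range W.N, (W.cnt (hN s) t u v : ℝ)) / W.p -
        W.vm (fun u => W.n u) t v|) ≤
      2 ^ (K + 1) * (∑ v ∈ range W.N, (W.n v : ℝ)) *
        √((2 ^ K + 1) * ((Em + 1) * θ) * (3 ^ K + (W.D : ℝ) ^ 2) / W.p) := by
  have : Fact W.p.Prime := ⟨h.prime⟩
  have h0 : 0 ≤ ∑ v ∈ range W.N, (W.n v : ℝ) := sum_nonneg fun _ _ => Nat.cast_nonneg _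
  have h1 := (W.prog Em).lossy h.prog_wf hD (Ω := (2 ^ K + 1) * ∑ v ∈ range W.N, (W.n v : ℝ))
    (fun _ => 1) (fun _ _ => zero_le_one) (fun τ hτ => h.ideal_flat hn hθ hT hb hτ) fun τ hτ => by
      have h2 : (W.SS τ).card ≤ (2 ^ K + 1) * ∑ v ∈ range W.N, W.n v :=
        (card_SS_le τ).trans (Nat.mul_le_mul_right _ (Nat.succ_le_succ hτ))
      exact_mod_cast h2
  have h2 : √((2 ^ K + 1) * (∑ v ∈ range W.N, (W.n v : ℝ)) *
      ((Em + 1) * θ * ∑ v ∈ range W.N, (W.n v : ℝ)) * (3 ^ K + (W.D : ℝ) ^ 2) / W.p) =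
      (∑ v ∈ range W.N, (W.n v : ℝ)) *
        √((2 ^ K + 1) * ((Em + 1) * θ) * (3 ^ K + (W.D : ℝ) ^ 2) / W.p) := by
    conv_rhs => rw [← Real.sqrt_sq h0, ← Real.sqrt_mul (sq_nonneg _)]
    congr 1
    ring
  rw [h2, ← mul_assoc] at h1
  rw [expect_hN fun g => ∑ v ∈ range W.N, |(∑ u ∈ range W.N, (W.cnt g t u v : ℝ)) / W.p -
    W.vm (fun u => W.n u) t v|]
  refine le_trans (expect_le_expect fun s _ => ?_) h1
  refine le_trans (le_of_eq (sum_congr rfl fun v hv => ?_)) (al_abs_le W _ (2 ^ K))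
  rw [al_sub, al_act h hT hH s fun _ => 1, al_end h hT hH _ (mem_range.1 hv),
    vm_congr (a := W.al fun _ => 1) (a' := fun u => W.n u) (fun u _ => by simp [al]) t v
      (mem_range.1 hv), sum_div]
  simp only [one_mul]

theorem cnt_time {t : ℕ} (hT : t * (W.om + 1) ≤ W.T) (g : ℕ → ℕ → ℕ) (u v : ℕ) :
    ({ W with T := t * (W.om + 1) } : Wk).cnt g t u v = W.cnt g t u v :=
  cnt_congr (k' := W.kill) hT le_rfl (fun _ _ _ => rfl) g u v

end EstP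

open EstP

theorem WF.cnt_regular (h : W.WF Q d (2 ^ K) 0) {t : ℕ} (hT : t * (W.om + 1) ≤ W.T)
    (hH : t * (W.om + 1) ≤ 2 ^ K) (a : ℕ → ℝ) :
    (Finset.expect univ fun s : Fin K → Fin 6 → Fin W.p =>
      √(∑ v ∈ range W.N, ((∑ u ∈ range W.N, a u * (W.cnt (hN s) t u v / (W.n u * W.p))) -
        W.vm a t v) ^ 2 / W.n v)) ≤
      2 ^ (K + 1) * √((1 + (W.D : ℝ) ^ 2) / W.p) * √(∑ u ∈ range W.N, a u ^ 2 / W.n u) := by
  have h1 := regular (wf_time h (t * (W.om + 1))) (t := t) rfl hH a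
  simp only [cnt_time hT, vm_time] at h1
  exact h1

theorem WF.cnt_lossy (h : W.WF Q d (2 ^ K) Em) (hn : ∀ v < W.N, W.n v = 2 ^ W.rot v)
    (hD : W.D ^ 2 ≤ W.p) {θ : ℝ} (hθ : 1 ≤ θ) {t : ℕ} (hT : t * (W.om + 1) ≤ W.T)
    (hH : t * (W.om + 1) ≤ 2 ^ K)
    (hb : ∀ t' < t, ∀ v < W.N, W.vm (fun u => W.n u) t' v ≤ θ * W.n v) :
    (Finset.expect univ fun s : Fin K → Fin 6 → Fin W.p =>
      ∑ v ∈ range W.N, |(∑ u ∈ range W.N, (W.cnt (hN s) t u v : ℝ)) / W.p -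
        W.vm (fun u => W.n u) t v|) ≤
      2 ^ (K + 1) * (∑ v ∈ range W.N, (W.n v : ℝ)) *
        √((2 ^ K + 1) * ((Em + 1) * θ) * (3 ^ K + (W.D : ℝ) ^ 2) / W.p) := by
  have h1 := lossy (wf_time h (t * (W.om + 1))) hn hD hθ (t := t) rfl hH
    fun t' ht' v hv => by rw [vm_time]; exact hb t' ht' v hv
  simp only [cnt_time hT, vm_time] at h1
  exact h1

end Wk

end Vale.Agent.P313.F43
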