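import Vale.Agent.P313.F43.CanDef
import Vale.Agent.P313.F43.Hash

/-! The walk is a well formed program, and the generator tree is the run of the walk. -/

namespace Vale.Agent.P313.F43

open Finset

/-! ### Exchange of one bit -/

/-- Replace the bit number `c` of `x` by `a`. -/
def swp (c x a : ℕ) : ℕ := x - x / 2 ^ c % 2 * 2 ^ c + a * 2 ^ c

theorem swp_eq (c x a : ℕ) : swp c x a = x % 2 ^ c + 2 ^ c * (a + 2 * (x / 2 ^ (c + 1))) := by
  have h1 := Nat.mod_add_div x (2 ^ c)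
  have h2 := Nat.mod_add_div (x / 2 ^ c) 2
  rw [Nat.div_div_eq_div_mul, ← pow_succ] at h2
  have h3 : x = x % 2 ^ c + 2 ^ c * (2 * (x / 2 ^ (c + 1))) + x / 2 ^ c % 2 * 2 ^ c := by
    conv_lhs => rw [← h1, ← h2]
    ring
  unfold swp
  conv_lhs => rw [h3]
  rw [← h3]
  have h4 : x - x / 2 ^ c % 2 * 2 ^ c = x % 2 ^ c + 2 ^ c * (2 * (x / 2 ^ (c + 1))) := by omega
  rw [h4]
  ring

theorem swp_mod (c x a : ℕ) : swp c x a % 2 ^ c = x % 2 ^ c := by
  rw [swp_eq, Nat.add_mul_mod_self_left, Nat.mod_mod]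

theorem swp_div (c x a : ℕ) : swp c x a / 2 ^ c = a + 2 * (x / 2 ^ (c + 1)) := by
  rw [swp_eq, Nat.add_mul_div_left _ _ (by positivity),
    Nat.div_eq_of_lt (Nat.mod_lt _ (by positivity)), zero_add]

theorem swp_bit (c x : ℕ) {a : ℕ} (ha : a < 2) : swp c x a / 2 ^ c % 2 = a := by
  rw [swp_div]; omega

theorem swp_div_succ (c x : ℕ) {a : ℕ} (ha : a < 2) :
    swp c x a / 2 ^ (c + 1) = x / 2 ^ (c + 1) := by
  rw [pow_succ, ← Nat.div_div_eq_div_mul, swp_div, pow_succ]; omega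

theorem swp_self (c x : ℕ) : swp c x (x / 2 ^ c % 2) = x := by
  have h1 : x / 2 ^ c % 2 * 2 ^ c ≤ x :=
    (Nat.mul_le_mul_right _ (Nat.mod_le _ _)).trans (Nat.div_mul_le_self _ _)
  unfold swp
  omega

theorem swp_swp (c x : ℕ) {a : ℕ} (ha : a < 2) (b : ℕ) : swp c (swp c x a) b = swp c x b := by
  rw [swp_eq c (swp c x a), swp_mod, swp_div_succ c x ha, ← swp_eq]

theorem swp_lt {c x a n : ℕ} (ha : a < 2) (hn : 2 ^ (c + 1) ∣ n) (hx : x < n) : swp c x a < n := by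
  obtain ⟨m, rfl⟩ := hn
  have h1 : x / 2 ^ (c + 1) < m := Nat.div_lt_of_lt_mul hx
  rw [← swp_div_succ c x ha] at h1
  exact (Nat.div_lt_iff_lt_mul (by positivity)).1 h1 |>.trans_eq (mul_comm _ _)

theorem lev_eq (a k : ℕ) : lev (a * 2 ^ (k + 1) + 2 ^ k) = k := by
  have h1 : ∀ j, (a * 2 ^ (k + 1) + 2 ^ k) % 2 ^ (j + 1) = 0 ↔ j < k := by
    intro j
    rw [← Nat.dvd_iff_mod_eq_zero]
    constructor
    · intro h
      by_contra hj
      have h2 : 2 ^ (k + 1) ∣ a * 2 ^ (k + 1) + 2 ^ k :=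
        (pow_dvd_pow 2 (by omega)).trans h
      have h3 := (Nat.dvd_add_right (Dvd.intro_left a rfl)).1 h2
      have h4 := (Nat.pow_dvd_pow_iff_le_right (by norm_num : 1 < 2)).1 h3
      omega
    · intro h
      exact dvd_add ((pow_dvd_pow 2 (by omega)).mul_left a) (pow_dvd_pow 2 h)
  have h5 : k ≤ a * 2 ^ (k + 1) + 2 ^ k := Nat.lt_two_pow_self.le.trans (Nat.le_add_left _ _)
  unfold lev
  simp only [h1]
  rw [← Finset.card_filter]
  have h6 : (range (a * 2 ^ (k + 1) + 2 ^ k)).filter (fun j => j < k) = range k := by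
    ext j
    simp only [mem_filter, mem_range]
    omega
  rw [h6, card_range]

theorem cast_fpN {p : ℕ} [Fact p.Prime] (D : ℕ) (γ : ZMod p) (c : ℕ) :
    (fpN p D γ.val c : ZMod p) = polyFp D γ c := by
  have hp : p ≠ 0 := NeZero.ne p
  simp [fpN, polyFp, hp]

namespace Wk

variable {W : Wk} {Q d H K Em : ℕ}

theorem mem_SS {τ : ℕ} {s : WS} :
    s ∈ W.SS τ ↔ s.1 ≤ τ ∧ s.2.1 < W.N ∧ s.2.2 < W.n s.2.1 := by
  simp only [SS, mem_image, mem_product, mem_range, mem_sigma]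
  constructor
  · rintro ⟨z, ⟨h1, h2, h3⟩, rfl⟩
    exact ⟨Nat.lt_succ_iff.1 h1, h2, h3⟩
  · rintro ⟨h1, h2, h3⟩
    exact ⟨(s.1, ⟨s.2.1, s.2.2⟩), ⟨Nat.lt_succ_iff.2 h1, h2, h3⟩, rfl⟩

theorem card_SS_le (τ : ℕ) : (W.SS τ).card ≤ (τ + 1) * ∑ v ∈ range W.N, W.n v := by
  refine card_image_le.trans (le_of_eq ?_)
  simp [card_product, card_sigma]

theorem cdf_succ (u v : ℕ) : W.cdf u (v + 1) = W.cdf u v + W.B u v := sum_range_succ _ _

theorem cdf_mono (u : ℕ) {v v' : ℕ} (h : v ≤ v') : W.cdf u v ≤ W.cdf u v' :=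
  sum_le_sum_of_subset (range_mono h)

theorem off_succ (u v : ℕ) : W.off (u + 1) v = W.off u v + W.n u / W.PQ * W.B u v :=
  sum_range_succ _ _

theorem off_mono {u u' : ℕ} (h : u ≤ u') (v : ℕ) : W.off u v ≤ W.off u' v :=
  sum_le_sum_of_subset (range_mono h)

theorem tgt_spec (u z : ℕ) : W.tgt u z ≤ W.N ∧ W.cdf u (W.tgt u z) ≤ z ∧
    (W.tgt u z < W.N → z < W.cdf u (W.tgt u z + 1)) := by
  unfold tgt
  induction W.N with
  | zero => simp [cdf]
  | succ N ih =>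
    obtain ⟨h1, h2, h3⟩ := ih
    rw [sum_range_succ]
    by_cases h : W.cdf u (N + 1) ≤ z
    · have h4 : (∑ y ∈ range N, if W.cdf u (y + 1) ≤ z then 1 else 0) = N := by
        by_contra hne
        have h5 := h3 (lt_of_le_of_ne h1 hne)
        have h6 := W.cdf_mono u (Nat.add_le_add_right h1 1)
        omega
      rw [if_pos h, h4]
      exact ⟨le_rfl, h, fun h => absurd h (lt_irrefl _)⟩
    · rw [if_neg h, add_zero]
      refine ⟨h1.trans (Nat.le_succ _), h2, fun _ => ?_⟩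
      rcases h1.lt_or_eq with h4 | h4
      · exact h3 h4
      · rw [h4]; omega

theorem tgt_eq {u z v : ℕ} (hv : v < W.N) (h1 : W.cdf u v ≤ z) (h2 : z < W.cdf u (v + 1)) :
    W.tgt u z = v := by
  obtain ⟨h3, h4, h5⟩ := W.tgt_spec u z
  rcases lt_trichotomy (W.tgt u z) v with h | h | h
  · have := W.cdf_mono u (Nat.add_one_le_iff.2 h)
    have := h5 (h.trans hv)
    omega
  · exact h
  · have := W.cdf_mono u (Nat.add_one_le_iff.2 h)
    omega

theorem WF.PQ_pos (h : W.WF Q d H Em) : 0 < W.PQ := by rw [h.PQ_eq]; positivity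

theorem WF.PQ_dvd (h : W.WF Q d H Em) {u : ℕ} (hu : u < W.N) : W.PQ ∣ W.n u := by
  rw [h.PQ_eq]
  exact (pow_dvd_pow 2 (h.Q_le u hu)).trans (h.dvd u hu)

theorem WF.div_lt (h : W.WF Q d H Em) {u x : ℕ} (hu : u < W.N) (hx : x < W.n u) :
    x / W.PQ < W.n u / W.PQ :=
  Nat.div_lt_div_of_lt_of_dvd (h.PQ_dvd hu) hx

theorem WF.slot_bounds (h : W.WF Q d H Em) {u x : ℕ} (hu : u < W.N) (hx : x < W.n u)
    (hv : W.tgt u (x % W.PQ) < W.N) :
    W.off u (W.tgt u (x % W.PQ)) ≤ W.slot u x ∧ W.slot u x < W.off (u + 1) (W.tgt u (x % W.PQ)) := by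
  obtain ⟨-, h1, h2⟩ := W.tgt_spec u (x % W.PQ)
  have h3 := h2 hv
  rw [cdf_succ] at h3
  have h4 := Nat.mul_le_mul_right (W.B u (W.tgt u (x % W.PQ))) (Nat.succ_le_of_lt (h.div_lt hu hx))
  rw [off_succ, slot]
  rw [Nat.succ_mul] at h4
  omega

theorem WF.slot_inj (h : W.WF Q d H Em) {u x u' x' : ℕ} (hu : u < W.N) (hx : x < W.n u)
    (hu' : u' < W.N) (hx' : x' < W.n u') (hv : W.tgt u (x % W.PQ) < W.N)
    (e1 : W.tgt u (x % W.PQ) = W.tgt u' (x' % W.PQ)) (e2 : W.slot u x = W.slot u' x') :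
    u = u' ∧ x = x' := by
  have b1 := h.slot_bounds hu hx hv
  have b2 := h.slot_bounds hu' hx' (e1 ▸ hv)
  rw [← e1] at b2
  have e3 : u = u' := by
    rcases lt_trichotomy u u' with hl | hl | hl
    · have := W.off_mono (Nat.add_one_le_iff.2 hl) (W.tgt u (x % W.PQ))
      omega
    · exact hl
    · have := W.off_mono (Nat.add_one_le_iff.2 hl) (W.tgt u (x % W.PQ))
      omega
  subst e3
  refine ⟨rfl, ?_⟩
  obtain ⟨-, h1, h2⟩ := W.tgt_spec u (x % W.PQ)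
  obtain ⟨-, h1', h2'⟩ := W.tgt_spec u (x' % W.PQ)
  have h3 := h2 hv
  have h3' := h2' (e1 ▸ hv)
  rw [cdf_succ] at h3 h3'
  unfold slot at e2
  rw [← e1] at e2 h1' h3'
  set B := W.B u (W.tgt u (x % W.PQ))
  set c := W.cdf u (W.tgt u (x % W.PQ))
  have e4 : (x % W.PQ - c) + B * (x / W.PQ) = (x' % W.PQ - c) + B * (x' / W.PQ) := by
    rw [mul_comm B, mul_comm B]; omega
  have hB : 0 < B := by omega
  have e5 := congrArg (· / B) e4
  have e6 := congrArg (· % B) e4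
  simp only [Nat.add_mul_div_left _ _ hB, Nat.add_mul_mod_self_left,
    Nat.div_eq_of_lt (show x % W.PQ - c < B by omega),
    Nat.div_eq_of_lt (show x' % W.PQ - c < B by omega),
    Nat.mod_eq_of_lt (show x % W.PQ - c < B by omega),
    Nat.mod_eq_of_lt (show x' % W.PQ - c < B by omega), zero_add] at e5 e6
  rw [← Nat.mod_add_div x W.PQ, ← Nat.mod_add_div x' W.PQ, e5]
  omega

theorem WF.min_eq (h : W.WF Q d H Em) {v c : ℕ} (hv : v < W.N) (hc : c < W.rot v) :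
    min (W.n v) (2 ^ c) = 2 ^ c :=
  min_eq_right (Nat.le_of_dvd (h.pos v hv) ((pow_dvd_pow 2 hc.le).trans (h.dvd v hv)))

theorem step_idle {τ : ℕ} {s : WS} (i : ℕ) (h : W.T ≤ τ ∨ s.1 ≠ 0) : W.step τ s i = ((s, 0), i) := by
  rw [step, if_pos h]

theorem step_lose {τ v x i : ℕ} (hT : τ < W.T) (hc : τ % (W.om + 1) < W.om) (hi : i + 1 = W.p) :
    W.step τ (0, v, x) i = (((τ + 1, v, x), 0), i) := by
  rw [step, if_neg (by simpa using hT), if_pos hc, if_pos hi]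

theorem WF.step_swap (h : W.WF Q d H Em) {τ v x i : ℕ} (hT : τ < W.T) (hv : v < W.N)
    (hi : i + 1 ≠ W.p) (hr : τ % (W.om + 1) < W.rot v) :
    W.step τ (0, v, x) i = (((0, v, swp (τ % (W.om + 1)) x (i % 2)), 0),
      2 * (i / 2) + x / 2 ^ (τ % (W.om + 1)) % 2) := by
  rw [step, if_neg (by simpa using hT), if_pos (hr.trans_le (h.rot_le v hv)), if_neg hi, if_pos hr,
    h.min_eq hv hr]
  rfl

theorem step_stay {τ v x i : ℕ} (hT : τ < W.T) (hc : τ % (W.om + 1) < W.om)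
    (hi : i + 1 ≠ W.p) (hr : ¬τ % (W.om + 1) < W.rot v) :
    W.step τ (0, v, x) i = (((0, v, x), 0), i) := by
  rw [step, if_neg (by simpa using hT), if_pos hc, if_neg hi, if_neg hr]

theorem WF.step_stop (h : W.WF Q d H Em) {τ u x : ℕ} (i : ℕ) (hT : τ < W.T)
    (hc : ¬τ % (W.om + 1) < W.om) (hk : W.tgt u (x % W.PQ) < W.N →
      W.kill (τ / (W.om + 1) + 1) (W.tgt u (x % W.PQ)) = true) :
    W.step τ (0, u, x) i = (((τ + 1, u, x), 0), i) := by
  have _ := h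
  rw [step, if_neg (by simpa using hT), if_neg hc, if_pos]
  rcases (W.tgt_spec u (x % W.PQ)).1.lt_or_eq with h1 | h1
  · exact Or.inr (Or.inr (hk h1))
  · exact Or.inl h1

theorem WF.step_move (h : W.WF Q d H Em) {τ u x : ℕ} (i : ℕ) (hT : τ < W.T)
    (hc : ¬τ % (W.om + 1) < W.om) (hv : W.tgt u (x % W.PQ) < W.N)
    (hk : W.kill (τ / (W.om + 1) + 1) (W.tgt u (x % W.PQ)) = false) :
    W.step τ (0, u, x) i = (((0, W.tgt u (x % W.PQ), W.slot u x % W.n (W.tgt u (x % W.PQ))),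
      W.slot u x / W.n (W.tgt u (x % W.PQ))), i) := by
  rw [step, if_neg (by simpa using hT), if_neg hc, if_neg]
  simp only [hk, not_or]
  exact ⟨hv.ne, (h.pos _ hv).ne', by simp⟩

/-- The case distinction for one step of an alive state. -/
theorem WF.step_cases (h : W.WF Q d H Em) {τ v x : ℕ} (i : ℕ) (hT : τ < W.T) (hv : v < W.N) :
    W.step τ (0, v, x) i = (((τ + 1, v, x), 0), i) ∨
    (τ % (W.om + 1) < W.rot v ∧ i + 1 ≠ W.p ∧
      W.step τ (0, v, x) i = (((0, v, swp (τ % (W.om + 1)) x (i % 2)), 0),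
        2 * (i / 2) + x / 2 ^ (τ % (W.om + 1)) % 2)) ∨
    (τ % (W.om + 1) < W.om ∧ ¬τ % (W.om + 1) < W.rot v ∧
      W.step τ (0, v, x) i = (((0, v, x), 0), i)) ∨
    (¬τ % (W.om + 1) < W.om ∧ W.tgt v (x % W.PQ) < W.N ∧
      W.kill (τ / (W.om + 1) + 1) (W.tgt v (x % W.PQ)) = false ∧
      W.step τ (0, v, x) i = (((0, W.tgt v (x % W.PQ), W.slot v x % W.n (W.tgt v (x % W.PQ))),
        W.slot v x / W.n (W.tgt v (x % W.PQ))), i)) := by
  by_cases hc : τ % (W.om + 1) < W.om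
  · by_cases hi : i + 1 = W.p
    · exact Or.inl (step_lose hT hc hi)
    · by_cases hr : τ % (W.om + 1) < W.rot v
      · exact Or.inr (Or.inl ⟨hr, hi, h.step_swap hT hv hi hr⟩)
      · exact Or.inr (Or.inr (Or.inl ⟨hc, hr, step_stay hT hc hi hr⟩))
  · by_cases hk : W.tgt v (x % W.PQ) < W.N →
        W.kill (τ / (W.om + 1) + 1) (W.tgt v (x % W.PQ)) = true
    · exact Or.inl (h.step_stop i hT hc hk)
    · simp only [Classical.not_imp, Bool.not_eq_true] at hk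
      exact Or.inr (Or.inr (Or.inr ⟨hc, hk.1, hk.2, h.step_move i hT hc hk.1 hk.2⟩))

theorem WF.step_mem (h : W.WF Q d H Em) {τ : ℕ} {s : WS} (hs : s ∈ W.SS τ) (i : ℕ) :
    (W.step τ s i).1.1 ∈ W.SS (τ + 1) ∧ (W.step τ s i).1.2 ≤ Em := by
  obtain ⟨t, v, x⟩ := s
  obtain ⟨h1, hv, hx⟩ := mem_SS.1 hs
  by_cases h0 : W.T ≤ τ ∨ t ≠ 0
  · rw [step_idle i h0]
    exact ⟨mem_SS.2 ⟨h1.trans (Nat.le_succ _), hv, hx⟩, Nat.zero_le _⟩
  · simp only [not_or, not_le, ne_eq, not_not] at h0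
    obtain ⟨hT, rfl⟩ := h0
    rcases h.step_cases (x := x) i hT hv with e | ⟨hr, -, e⟩ | ⟨-, -, e⟩ | ⟨-, hv', hk, e⟩ <;> rw [e]
    · exact ⟨mem_SS.2 ⟨le_rfl, hv, hx⟩, Nat.zero_le _⟩
    · exact ⟨mem_SS.2 ⟨Nat.zero_le _, hv, swp_lt (Nat.mod_lt _ two_pos)
        ((pow_dvd_pow 2 hr).trans (h.dvd v hv)) hx⟩, Nat.zero_le _⟩
    · exact ⟨mem_SS.2 ⟨Nat.zero_le _, hv, hx⟩, Nat.zero_le _⟩
    · refine ⟨mem_SS.2 ⟨Nat.zero_le _, hv', Nat.mod_lt _ (h.pos _ hv')⟩, ?_⟩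
      have h2 := ((h.slot_bounds hv hx hv').2.trans_le (W.off_mono hv _)).trans_le (h.col _ _ hv' hk)
      exact Nat.lt_succ_iff.1 ((Nat.div_lt_iff_lt_mul (h.pos _ hv')).2 h2)

theorem WF.step_lab (h : W.WF Q d H Em) {τ : ℕ} {s : WS} (hs : s ∈ W.SS τ) {i : ℕ}
    (hi : i < W.p) : (W.step τ s i).2 < W.p := by
  obtain ⟨t, v, x⟩ := s
  obtain ⟨-, hv, -⟩ := mem_SS.1 hs
  by_cases h0 : W.T ≤ τ ∨ t ≠ 0
  · rw [step_idle i h0]
    exact hi
  · simp only [not_or, not_le, ne_eq, not_not] at h0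
    obtain ⟨hT, rfl⟩ := h0
    rcases h.step_cases (x := x) i hT hv with e | ⟨-, hi', e⟩ | ⟨-, -, e⟩ | ⟨-, -, -, e⟩ <;> rw [e]
    · exact hi
    · show 2 * (i / 2) + _ < _
      omega
    · exact hi
    · exact hi

theorem WF.step_inj (h : W.WF Q d H Em) {τ : ℕ} {s s' : WS} (hs : s ∈ W.SS τ) (hs' : s' ∈ W.SS τ)
    {i i' : ℕ} (e : W.step τ s i = W.step τ s' i') : s = s' ∧ i = i' := by
  obtain ⟨t, v, x⟩ := s
  obtain ⟨t', v', x'⟩ := s'
  obtain ⟨h1, hv, hx⟩ := mem_SS.1 hs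
  obtain ⟨h1', hv', hx'⟩ := mem_SS.1 hs'
  simp only at h1 hv hx h1' hv' hx'
  by_cases hT : W.T ≤ τ
  · rw [step_idle i (Or.inl hT), step_idle i' (Or.inl hT)] at e
    simpa [and_assoc] using e
  rw [not_le] at hT
  by_cases ht : t = 0
  · subst ht
    by_cases ht' : t' = 0
    · subst ht'
      rcases h.step_cases (x := x) i hT hv with e1 | ⟨a1, a2, e1⟩ | ⟨a1, a2, e1⟩ | ⟨a1, a2, a3, e1⟩ <;>
        rcases h.step_cases (x := x') i' hT hv' with
          e2 | ⟨b1, b2, e2⟩ | ⟨b1, b2, e2⟩ | ⟨b1, b2, b3, e2⟩ <;>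
        rw [e1, e2] at e <;> simp only [Prod.mk.injEq, true_and, and_true] at e ⊢
      all_goals try omega
      · obtain ⟨⟨rfl, e3⟩, e4⟩ := e
        have e5 : x / 2 ^ (τ % (W.om + 1)) % 2 = x' / 2 ^ (τ % (W.om + 1)) % 2 := by omega
        have e6 := congrArg (fun y => y / 2 ^ (τ % (W.om + 1)) % 2) e3
        simp only [swp_bit _ _ (Nat.mod_lt _ two_pos)] at e6
        have e7 := congrArg (fun y => swp (τ % (W.om + 1)) y (x / 2 ^ (τ % (W.om + 1)) % 2)) e3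
        simp only [swp_swp _ _ (Nat.mod_lt _ two_pos)] at e7
        rw [swp_self, e5, swp_self] at e7
        exact ⟨⟨rfl, e7⟩, by omega⟩
      · obtain ⟨⟨rfl, -⟩, -⟩ := e
        exact absurd a1 b2
      · exact absurd (a1.trans_le (h.rot_le v hv)) b1
      · obtain ⟨⟨rfl, -⟩, -⟩ := e
        exact absurd b1 a2
      · exact absurd (b1.trans_le (h.rot_le v' hv')) a1
      · obtain ⟨⟨⟨e3, e4⟩, e5⟩, e6⟩ := e
        refine ⟨h.slot_inj hv hx hv' hx' a2 e3 ?_, e6⟩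
        rw [← Nat.mod_add_div (W.slot v x) (W.n (W.tgt v (x % W.PQ))), e4, e5, e3, Nat.mod_add_div]
    · rw [step_idle i' (Or.inr ht')] at e
      rcases h.step_cases (x := x) i hT hv with e1 | ⟨-, -, e1⟩ | ⟨-, -, e1⟩ | ⟨-, -, -, e1⟩ <;>
        rw [e1] at e <;> simp only [Prod.mk.injEq] at e <;> omega
  · rw [step_idle i (Or.inr ht)] at e
    by_cases ht' : t' = 0
    · subst ht'
      rcases h.step_cases (x := x') i' hT hv' with e1 | ⟨-, -, e1⟩ | ⟨-, -, e1⟩ | ⟨-, -, -, e1⟩ <;>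
        rw [e1] at e <;> simp only [Prod.mk.injEq] at e <;> omega
    · rw [step_idle i' (Or.inr ht')] at e
      simpa [and_assoc] using e

theorem digits_inj {P a b a' b' : ℕ} (hb : b < P) (hb' : b' < P) (e : a * P + b = a' * P + b') :
    a = a' ∧ b = b' := by
  have h0 : 0 < P := by omega
  have e1 := congrArg (· / P) e
  have e2 := congrArg (· % P) e
  simp only [Nat.mul_add_mod_self_right, Nat.mod_eq_of_lt hb, Nat.mod_eq_of_lt hb'] at e2
  subst e2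
  exact ⟨Nat.eq_of_mul_eq_mul_right h0 (Nat.add_right_cancel e), rfl⟩

theorem digits_lt {P M a b : ℕ} (ha : a < M) (hb : b < P) : a * P + b < M * P := by
  have := Nat.mul_le_mul_right P (Nat.succ_le_of_lt ha)
  rw [Nat.succ_mul] at this
  omega

theorem WF.prog_wf (h : W.WF Q d H Em) : (W.prog Em).WF H W.D := by
  have : Fact W.p.Prime := ⟨h.prime⟩
  refine ⟨fun τ _ x hx i => ?_, fun τ _ x hx x' hx' i i' e => ?_, fun τ _ y hy => ?_,
    fun τ hτ y hy y' hy' hne => ?_⟩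
  · have h1 := h.step_mem hx i.val
    exact mem_product.2 ⟨h1.1, mem_range.2 (Nat.lt_succ_iff.2 h1.2)⟩
  · obtain ⟨e1, e2⟩ := Prod.ext_iff.1 e
    have e3 := congrArg ZMod.val e2
    simp only [prog, ZMod.val_cast_of_lt (h.step_lab hx i.val_lt),
      ZMod.val_cast_of_lt (h.step_lab hx' i'.val_lt)] at e3
    obtain ⟨e4, e5⟩ := h.step_inj hx hx' (Prod.ext e1 e3)
    exact ⟨e4, ZMod.val_injective _ e5⟩
  · exact (mem_product.1 hy).1
  · have hb : ∀ y ∈ (W.prog Em).SY τ, y.1.1 < W.Pd ∧ y.1.2.1 < W.Pd ∧ y.1.2.2 < W.Pd ∧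
        y.2 < W.Pd := by
      intro y hy
      obtain ⟨h1, h2⟩ := mem_product.1 hy
      obtain ⟨h3, h4, h5⟩ := mem_SS.1 h1
      exact ⟨(h3.trans hτ).trans_lt h.H_lt, h4.trans_le h.N_le, h5.trans_le (h.n_le _ h4),
        (Nat.lt_succ_iff.1 (mem_range.1 h2)).trans_lt h.Em_lt⟩
    have hc : ∀ y ∈ (W.prog Em).SY τ, W.code y < 2 ^ W.D := by
      intro y hy
      obtain ⟨h1, h2, h3, h4⟩ := hb y hy
      refine (digits_lt (digits_lt (digits_lt h1 h2) h3) h4).trans_eq ?_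
      rw [h.Pd_eq, h.D_eq]
      ring
    have hcne : W.code y ≠ W.code y' := by
      intro e
      obtain ⟨-, h2, h3, h4⟩ := hb y hy
      obtain ⟨-, h2', h3', h4'⟩ := hb y' hy'
      obtain ⟨e1, e2⟩ := digits_inj h4 h4' e
      obtain ⟨e3, e4⟩ := digits_inj h3 h3' e1
      obtain ⟨e5, e6⟩ := digits_inj h2 h2' e3
      exact hne (Prod.ext (Prod.ext e5 (Prod.ext e6 e4)) e2)
    simp only [prog, cast_fpN]
    exact polyFp_collision (hc y hy) (hc y' hy') hcne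

theorem val_hash [Fact W.p.Prime] (s : Sd W.p) {g : ℕ → ℕ} (hg : ∀ c : Fin 6, g c = (s c).val)
    (y : WS × ℕ) (l : ℕ) :
    ((W.prog Em).hash s y (l : ZMod W.p)).val = hashN W.p W.D g (W.code y) l := by
  have hp : W.p ≠ 0 := NeZero.ne _
  have g0 : g 0 = (s 0).val := hg 0
  have g1 : g 1 = (s 1).val := hg 1
  have g2 : g 2 = (s 2).val := hg 2
  have g3 : g 3 = (s 3).val := hg 3
  have g4 : g 4 = (s 4).val := hg 4
  have g5 : g 5 = (s 5).val := hg 5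
  rw [hashN, if_neg hp, ← ZMod.val_natCast, g0, g1, g2, g3, g4, g5,
    Nat.mod_eq_of_lt (s 1).val_lt]
  congr 1
  simp [Prog.hash, prog]

theorem node_eq [Fact W.p.Prime] (g : ℕ → ℕ → ℕ) (x₀ : WS) (i₀ : ℕ) :
    ∀ (k : ℕ) (s : Fin k → Sd W.p), (∀ (j : Fin k) (c : Fin 6), g j c = (s j c).val) →
      ∀ (a : ℕ) (i : ZMod W.p), (W.run g x₀ i₀ (a * 2 ^ k)).2 = i.val →
        ∀ τ, τ + 1 = a * 2 ^ k + 2 ^ k →
          (W.prog Em).node k s (a * 2 ^ k) (W.run g x₀ i₀ (a * 2 ^ k)).1 i =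
            ((W.step τ (W.run g x₀ i₀ τ).1 (W.run g x₀ i₀ τ).2).1,
              ((W.step τ (W.run g x₀ i₀ τ).1 (W.run g x₀ i₀ τ).2).2 : ZMod W.p)) := by
  intro k
  induction k with
  | zero =>
    intro s _ a i hi τ hτ
    obtain rfl : τ = a * 2 ^ 0 := by omega
    rw [hi]
    rfl
  | succ k ih =>
    intro s hs a i hi τ hτ
    have hs' : ∀ (j : Fin k) (c : Fin 6), g j c = (Fin.init s j c).val :=
      fun j c => hs j.castSucc c
    have e1 : a * 2 ^ (k + 1) = 2 * a * 2 ^ k := by ring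
    have e2 : a * 2 ^ (k + 1) + 2 ^ k = (2 * a + 1) * 2 ^ k := by ring
    obtain ⟨σ, hσ⟩ : ∃ σ, σ + 1 = a * 2 ^ (k + 1) + 2 ^ k :=
      ⟨a * 2 ^ (k + 1) + 2 ^ k - 1, Nat.sub_add_cancel (Nat.succ_le_of_lt (by positivity))⟩
    have h1 := ih (Fin.init s) hs' (2 * a) i (e1 ▸ hi) σ (e1 ▸ hσ)
    rw [← e1] at h1
    have h2 := ih (Fin.init s) hs' (2 * a + 1) ((W.prog Em).hash (s (Fin.last k))
      (W.step σ (W.run g x₀ i₀ σ).1 (W.run g x₀ i₀ σ).2).1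
      ((W.step σ (W.run g x₀ i₀ σ).1 (W.run g x₀ i₀ σ).2).2 : ZMod W.p)) (by
        rw [← e2, ← hσ, val_hash _ (hs (Fin.last k)), run, hσ, lev_eq]
        rfl) τ (by rw [hτ]; ring)
    rw [← e2] at h2
    rw [Prog.node, h1, ← h2]
    congr 1
    rw [← hσ]
    rfl

theorem WF.node_eq_run (h : W.WF Q d H Em) (s : Fin K → Sd W.p) (x : WS) (i : ZMod W.p) :
    ((W.prog Em).node K s 0 x i).1.1 = (W.run (hZ s) x i.val (2 ^ K)).1 := by
  have : Fact W.p.Prime := ⟨h.prime⟩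
  obtain ⟨σ, hσ⟩ : ∃ σ, σ + 1 = 2 ^ K := ⟨2 ^ K - 1, Nat.sub_add_cancel Nat.one_le_two_pow⟩
  have h1 := node_eq (Em := Em) (hZ s) x i.val K s (fun j c => by simp [hZ]) 0 i
    (by rw [zero_mul]; rfl) σ (by rw [zero_mul, zero_add, hσ])
  rw [zero_mul] at h1
  rw [← hσ]
  exact congrArg (fun y => y.1.1) h1

end Wk

theorem expect_hN {K p : ℕ} [NeZero p] (f : (ℕ → ℕ → ℕ) → ℝ) :
    (Finset.expect univ fun h : Fin K → Fin 6 → Fin p => f (hN h)) =
      Finset.expect univ fun h : Fin K → Sd p => f (hZ h) := by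
  refine Fintype.expect_equiv (Equiv.piCongrRight fun _ => Equiv.piCongrRight fun _ =>
    (ZMod.finEquiv p).toEquiv) _ _ fun h => ?_
  congr 1
  funext k c
  unfold hN hZ
  split_ifs with hk
  · obtain ⟨p, rfl⟩ := Nat.exists_eq_succ_of_ne_zero (NeZero.ne p)
    rfl
  · rfl

end Vale.Agent.P313.F43
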